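import Vale.Agent.P210.MathlibUsed
import Vale.Agent.P210.Defs

set_option linter.all false

section

section

open scoped ENNReal
open MeasureTheory Set

namespace Vale.Agent.P210

lemma lmarginal_update_indep {ι : Type} [DecidableEq ι] (μ : Measure ℝ) (V s : Finset ι)
    (hs : s ⊆ V) (Ψ : (ι → ℝ) → ℝ≥0∞)
    (hΨd : ∀ c c', (∀ p ∈ V, c p = c' p) → Ψ c = Ψ c') (p : ι) (hp : p ∉ V) (c : ι → ℝ) (t : ℝ) :
    (∫⋯∫⁻_s, Ψ ∂(fun _ => μ)) (Function.update c p t) = (∫⋯∫⁻_s, Ψ ∂(fun _ => μ)) c := by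
  unfold lmarginal
  apply lintegral_congr
  intro z
  apply hΨd
  intro q hq
  simp only [Function.updateFinset_def]
  by_cases hqs : q ∈ s
  · simp [hqs]
  · have hne : q ≠ p := fun h => hp (h ▸ hq)
    simp [hqs, Function.update_of_ne hne]

theorem greedy_selection {ι 𝒦 : Type} [Countable ι] [DecidableEq ι] (μ : Measure ℝ)
    [IsProbabilityMeasure μ]
    (V : 𝒦 → Finset ι) (N D : ℕ) (hN : ∀ κ, (V κ).card ≤ N)
    (hD : ∀ p, {κ | p ∈ V κ}.Finite ∧ {κ | p ∈ V κ}.ncard ≤ D)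
    (Ψ : 𝒦 → (ι → ℝ) → ℝ≥0∞) (hΨm : ∀ κ, Measurable (Ψ κ))
    (hΨd : ∀ κ c c', (∀ p ∈ V κ, c p = c' p) → Ψ κ c = Ψ κ c')
    (a : 𝒦 → ℝ≥0∞) (ha0 : ∀ κ, a κ ≠ 0) (ha : ∀ κ, a κ ≠ ⊤)
    (hΨa : ∀ κ c, (∫⋯∫⁻_(V κ), Ψ κ ∂(fun _ => μ)) c ≤ a κ)
    (S : Set ℝ) (hS : μ Sᶜ = 0) :
    ∃ c : ι → ℝ, (∀ p, c p ∈ S) ∧ ∀ κ, Ψ κ c ≤ ((D : ℝ≥0∞) + 1) ^ N * a κ := by
  classical
  obtain ⟨e, he⟩ := Countable.exists_injective_nat ι
  let K : ℝ≥0∞ := (D : ℝ≥0∞) + 1
  have hK1 : 1 ≤ K := by simp [K]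
  have hK0 : K ≠ 0 := by simp [K]
  have hKt : K ≠ ⊤ := by simp [K]
  let U : 𝒦 → ℕ → Finset ι := fun κ m => (V κ).filter (fun p => m ≤ e p)
  let pc : 𝒦 → ℕ → ℕ := fun κ m => ((V κ).filter (fun p => e p < m)).card
  let Inv : ℕ → (ι → ℝ) → Prop := fun m c =>
    (∀ p, e p < m → c p ∈ S) ∧
      ∀ κ, (∫⋯∫⁻_(U κ m), Ψ κ ∂(fun _ => μ)) c ≤ K ^ (pc κ m) * a κ
  have hbase : Inv 0 (fun _ => 0) := by
    refine ⟨fun p hp => absurd hp (Nat.not_lt_zero _), ?_⟩
    intro κ
    have h1 : U κ 0 = V κ := by simp [U]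
    have h2 : pc κ 0 = 0 := by simp [pc]
    rw [h1, h2, pow_zero, one_mul]
    exact hΨa κ _
  have hstep : ∀ m c, Inv m c → ∃ c', Inv (m + 1) c' ∧ ∀ q, e q ≠ m → c' q = c q := by
    intro m c hInv
    by_cases hex : ∃ p, e p = m
    · obtain ⟨p, hp⟩ := hex
      -- bad sets
      let g : 𝒦 → ℝ → ℝ≥0∞ := fun κ t =>
        (∫⋯∫⁻_(U κ (m + 1)), Ψ κ ∂(fun _ => μ)) (Function.update c p t)
      have hUins : ∀ κ, p ∈ V κ → U κ m = insert p (U κ (m + 1)) := by
        intro κ hκ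
        ext q
        simp only [U, Finset.mem_filter, Finset.mem_insert]
        constructor
        · rintro ⟨h1, h2⟩
          by_cases hq : q = p
          · exact Or.inl hq
          · right
            refine ⟨h1, ?_⟩
            have : e q ≠ m := fun h => hq (he (h.trans hp.symm))
            omega
        · rintro (rfl | ⟨h1, h2⟩)
          · exact ⟨hκ, hp.ge⟩
          · exact ⟨h1, by omega⟩
      have hpnot : ∀ κ, p ∉ U κ (m + 1) := by
        intro κ h
        simp only [U, Finset.mem_filter] at h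
        omega
      have hgm : ∀ κ, Measurable (g κ) := by
        intro κ
        exact ((hΨm κ).lmarginal (fun _ => μ)).comp (measurable_update c)
      have hgint : ∀ κ, p ∈ V κ → ∫⁻ t, g κ t ∂μ ≤ K ^ (pc κ m) * a κ := by
        intro κ hκ
        have h1 := hInv.2 κ
        rw [hUins κ hκ, lmarginal_insert _ (hΨm κ) (hpnot κ)] at h1
        exact h1
      have hbad : ∀ κ, p ∈ V κ → μ {t | K * (K ^ (pc κ m) * a κ) ≤ g κ t} ≤ K⁻¹ := by
        intro κ hκ
        have h1 := mul_meas_ge_le_lintegral (μ := μ) (hgm κ) (K * (K ^ (pc κ m) * a κ))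
        have hB0 : K ^ (pc κ m) * a κ ≠ 0 := mul_ne_zero (pow_ne_zero _ hK0) (ha0 κ)
        have hBt : K ^ (pc κ m) * a κ ≠ ⊤ := ENNReal.mul_ne_top (ENNReal.pow_ne_top hKt) (ha κ)
        have h2 := h1.trans (hgint κ hκ)
        set B := K ^ (pc κ m) * a κ with hB
        set x := μ {t | K * B ≤ g κ t} with hx
        have h3 : K * x ≤ 1 := by
          have h4 : B * (K * x) ≤ B * 1 := by
            calc B * (K * x) = K * B * x := by ring
              _ ≤ B := h2
              _ = B * 1 := (mul_one _).symm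
          exact (ENNReal.mul_le_mul_iff_right hB0 hBt).mp h4
        rw [ENNReal.le_inv_iff_mul_le, mul_comm]
        exact h3
      have hfin := (hD p).1
      have hcard : hfin.toFinset.card ≤ D := by
        rw [← Set.ncard_eq_toFinset_card _ hfin]
        exact (hD p).2
      have hunion : μ ((⋃ κ ∈ hfin.toFinset, {t | K * (K ^ (pc κ m) * a κ) ≤ g κ t}) ∪ Sᶜ) < 1 := by
        calc μ ((⋃ κ ∈ hfin.toFinset, {t | K * (K ^ (pc κ m) * a κ) ≤ g κ t}) ∪ Sᶜ)
            ≤ μ (⋃ κ ∈ hfin.toFinset, {t | K * (K ^ (pc κ m) * a κ) ≤ g κ t}) + μ Sᶜ :=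
              measure_union_le _ _
          _ = μ (⋃ κ ∈ hfin.toFinset, {t | K * (K ^ (pc κ m) * a κ) ≤ g κ t}) := by
              rw [hS, add_zero]
          _ ≤ ∑ κ ∈ hfin.toFinset, μ {t | K * (K ^ (pc κ m) * a κ) ≤ g κ t} :=
              measure_biUnion_finset_le _ _
          _ ≤ ∑ _κ ∈ hfin.toFinset, K⁻¹ := by
              apply Finset.sum_le_sum
              intro κ hκ
              rw [Set.Finite.mem_toFinset] at hκ
              exact hbad κ hκ
          _ = (hfin.toFinset.card : ℝ≥0∞) * K⁻¹ := by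
              rw [Finset.sum_const, nsmul_eq_mul]
          _ ≤ (D : ℝ≥0∞) * K⁻¹ := by
              gcongr
          _ < 1 := by
              rw [← div_eq_mul_inv]
              apply (ENNReal.div_lt_iff (Or.inl hK0) (Or.inl hKt)).mpr
              rw [one_mul]
              simp only [K]
              exact ENNReal.lt_add_right (ENNReal.natCast_ne_top D) one_ne_zero
      obtain ⟨t, ht⟩ : ∃ t, t ∉ (⋃ κ ∈ hfin.toFinset,
          {t | K * (K ^ (pc κ m) * a κ) ≤ g κ t}) ∪ Sᶜ := by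
        by_contra hcon
        push Not at hcon
        have : (⋃ κ ∈ hfin.toFinset, {t | K * (K ^ (pc κ m) * a κ) ≤ g κ t}) ∪ Sᶜ = univ :=
          eq_univ_of_forall hcon
        rw [this, measure_univ] at hunion
        exact lt_irrefl _ hunion
      rw [mem_union, not_or, mem_compl_iff, not_not] at ht
      obtain ⟨ht1, ht2⟩ := ht
      refine ⟨Function.update c p t, ⟨?_, ?_⟩, ?_⟩
      · intro q hq
        by_cases hqp : q = p
        · rw [hqp, Function.update_self]; exact ht2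
        · rw [Function.update_of_ne hqp]
          apply hInv.1
          have : e q ≠ m := fun h => hqp (he (h.trans hp.symm))
          omega
      · intro κ
        by_cases hκ : p ∈ V κ
        · have h1 : ¬ K * (K ^ (pc κ m) * a κ) ≤ g κ t := by
            intro h
            apply ht1
            simp only [mem_iUnion]
            exact ⟨κ, hfin.mem_toFinset.mpr hκ, h⟩
          have h2 := (not_le.mp h1).le
          have h3 : pc κ (m + 1) = pc κ m + 1 := by
            simp only [pc]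
            have : (V κ).filter (fun q => e q < m + 1) =
                insert p ((V κ).filter (fun q => e q < m)) := by
              ext q
              simp only [Finset.mem_filter, Finset.mem_insert]
              constructor
              · rintro ⟨h1, h2⟩
                by_cases hq : q = p
                · exact Or.inl hq
                · right
                  refine ⟨h1, ?_⟩
                  have : e q ≠ m := fun h => hq (he (h.trans hp.symm))
                  omega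
              · rintro (rfl | ⟨h1, h2⟩)
                · exact ⟨hκ, by omega⟩
                · exact ⟨h1, by omega⟩
            rw [this, Finset.card_insert_of_notMem]
            simp only [Finset.mem_filter, not_and, not_lt]
            intro _
            exact hp.ge
          rw [h3, pow_succ, mul_comm (K ^ (pc κ m)) K, mul_assoc]
          exact h2
        · have h1 : U κ (m + 1) = U κ m := by
            ext q
            simp only [U, Finset.mem_filter]
            constructor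
            · rintro ⟨h1, h2⟩
              exact ⟨h1, by omega⟩
            · rintro ⟨h1, h2⟩
              refine ⟨h1, ?_⟩
              have : e q ≠ m := fun h => hκ ((he (h.trans hp.symm)) ▸ h1)
              omega
          have h2 : pc κ (m + 1) = pc κ m := by
            simp only [pc]
            congr 1
            ext q
            simp only [Finset.mem_filter]
            constructor
            · rintro ⟨h1, h2⟩
              refine ⟨h1, ?_⟩
              have : e q ≠ m := fun h => hκ ((he (h.trans hp.symm)) ▸ h1)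
              omega
            · rintro ⟨h1, h2⟩
              exact ⟨h1, by omega⟩
          rw [h1, h2, lmarginal_update_indep μ (V κ) (U κ m) (Finset.filter_subset _ _) (Ψ κ)
            (hΨd κ) p hκ]
          exact hInv.2 κ
      · intro q hq
        rw [Function.update_of_ne]
        rintro rfl
        exact hq hp
    · push Not at hex
      refine ⟨c, ⟨?_, ?_⟩, fun q _ => rfl⟩
      · intro q hq
        apply hInv.1
        have := hex q
        omega
      · intro κ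
        have h1 : U κ (m + 1) = U κ m := by
          ext q
          simp only [U, Finset.mem_filter]
          constructor
          · rintro ⟨h1, h2⟩
            exact ⟨h1, by omega⟩
          · rintro ⟨h1, h2⟩
            refine ⟨h1, ?_⟩
            have := hex q
            omega
        have h2 : pc κ (m + 1) = pc κ m := by
          simp only [pc]
          congr 1
          ext q
          simp only [Finset.mem_filter]
          constructor
          · rintro ⟨h1, h2⟩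
            refine ⟨h1, ?_⟩
            have := hex q
            omega
          · rintro ⟨h1, h2⟩
            exact ⟨h1, by omega⟩
        rw [h1, h2]
        exact hInv.2 κ
  choose! step hstep1 hstep2 using hstep
  let seq : ℕ → (ι → ℝ) := fun m => Nat.rec (fun _ => 0) (fun m c => step m c) m
  have hseq0 : seq 0 = fun _ => 0 := rfl
  have hseqS : ∀ m, seq (m + 1) = step m (seq m) := fun m => rfl
  have hInv : ∀ m, Inv m (seq m) := by
    intro m
    induction m with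
    | zero => exact hbase
    | succ m ih => rw [hseqS]; exact hstep1 m (seq m) ih
  have hstab : ∀ q m, e q < m → seq m q = seq (e q + 1) q := by
    intro q m hm
    induction m with
    | zero => omega
    | succ m ih =>
      by_cases h : e q = m
      · rw [h]
      · rw [hseqS, hstep2 m (seq m) (hInv m) q h]
        exact ih (by omega)
  refine ⟨fun q => seq (e q + 1) q, fun q => (hInv (e q + 1)).1 q (by omega), ?_⟩
  intro κ
  obtain ⟨M, hM⟩ : ∃ M, ∀ q ∈ V κ, e q < M := by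
    refine ⟨(V κ).sup e + 1, fun q hq => ?_⟩
    have := Finset.le_sup (f := e) hq
    omega
  have h1 := (hInv M).2 κ
  have hUe : U κ M = ∅ := by
    simp only [U]
    rw [Finset.filter_eq_empty_iff]
    intro q hq
    have := hM q hq
    omega
  rw [hUe, lmarginal_empty] at h1
  have h2 : Ψ κ (fun q => seq (e q + 1) q) = Ψ κ (seq M) := by
    apply hΨd
    intro q hq
    exact (hstab q M (hM q hq)).symm
  rw [h2]
  refine h1.trans ?_
  gcongr
  · exact (Finset.card_filter_le _ _).trans (hN κ)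

end Vale.Agent.P210
end
end

section

section

open scoped ENNReal ContDiff
open MeasureTheory Set

namespace Vale.Agent.P210

/-! ### Definitions used in the proof (not in the final statement) -/

/-- conformally flat metric -/
noncomputable def conf {n : ℕ} (φ : E n → ℝ) (x : E n) : Matrix (Fin n) (Fin n) ℝ :=
  Real.exp (2 * φ x) • (1 : Matrix (Fin n) (Fin n) ℝ)

/-- abstract weights -/
structure IsWeight {n : ℕ} (Ω : Set (E n)) (W : E n → ℝ≥0∞) (b A : ℝ) : Prop where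
  isOpen : IsOpen Ω
  meas : Measurable W
  cont : ContinuousOn W Ω
  pos : ∀ x ∈ Ω, 0 < W x
  lt_top : ∀ x ∈ Ω, W x < ⊤
  energy : ∀ (x : E n) (r : ℝ), 0 < r →
    ∫⁻ y in Metric.ball x r, W y ^ b ≤ ENNReal.ofReal (A * r ^ ((n : ℝ) - b))
  seg : ∀ x ∈ Ω, ∀ (z : E n) (R : ℝ), 0 < R → ∫⁻ s in Ioo 0 R, W (x + s • z) < ⊤ →
    ∀ s ∈ Icc 0 R, x + s • z ∈ Ω
  ray : ∀ x ∈ Ω, ∀ z : E n, z ≠ 0 → ∫⁻ s in Ioi (0 : ℝ), W (x + s • z) = ⊤

noncomputable def ker {n : ℕ} (z : E n) : ℝ≥0∞ := ENNReal.ofReal (min 1 (max 0 (2 - ‖z‖)))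

noncomputable def av {n : ℕ} (W : E n → ℝ≥0∞) (x : E n) (s : ℝ) : ℝ≥0∞ :=
  ∫⁻ z, ker z * W (x + s • z)

noncomputable def pot {n : ℕ} (W : E n → ℝ≥0∞) (x : E n) (R : ℝ) : ℝ≥0∞ :=
  ∫⁻ s in Ioo 0 R, av W x s

abbrev Vtx (n : ℕ) : Type := (Fin n → ℤ) × ℤ

noncomputable def vpos {n : ℕ} (p : Vtx n) : E n :=
  (2 : ℝ) ^ p.2 • (WithLp.toLp 2 (fun i => (p.1 i : ℝ)))

noncomputable def hat {n : ℕ} (p : Vtx n) (x : E n) : ℝ :=
  max 0 (1 - ‖x - vpos p‖ / (Real.sqrt n * (2 : ℝ) ^ p.2))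

/-- the `k`-skeleton of the full simplex on `V`. -/
def skel (V : Type) (k : ℕ) : PreAbstractSimplicialComplex V where
  faces := {s | s.Nonempty ∧ s.card ≤ k + 1}
  isRelLowerSet_faces := by
    intro s hs
    exact ⟨hs.1, fun t hts ht => ⟨ht, (Finset.card_le_card hts).trans hs.2⟩⟩

/-- extension by zero of the length element -/
noncomputable def wt {n : ℕ} (Ω : Set (E n)) (φ : E n → ℝ) : E n → ℝ≥0∞ :=
  Ω.indicator (fun x => ENNReal.ofReal (Real.exp (φ x)))

end Vale.Agent.P210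
end
end

section

section

open scoped ENNReal ContDiff
open MeasureTheory Set

namespace Vale.Agent.P210

/-- the one-dimensional singular kernel -/
noncomputable def sk (η : ℝ) (t : ℝ) : ℝ≥0∞ := ENNReal.ofReal |t| ^ (-(1 - η))

lemma measurable_sk (η : ℝ) : Measurable (sk η) := by
  unfold sk
  fun_prop

lemma sk_le_one {η : ℝ} (hη1 : η < 1) {t : ℝ} (ht : 1 ≤ |t|) : sk η t ≤ 1 := by
  unfold sk
  apply ENNReal.rpow_le_one_of_one_le_of_neg
  · rw [← ENNReal.ofReal_one]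
    exact ENNReal.ofReal_le_ofReal ht
  · linarith

lemma sk_neg (η t : ℝ) : sk η (-t) = sk η t := by
  unfold sk; rw [abs_neg]

lemma sk_Ioo {η : ℝ} (hη : 0 < η) :
    ∫⁻ t in Ioo (0 : ℝ) 1, sk η t ≤ ENNReal.ofReal (1 / η) := by
  have h1 : ∫⁻ t in Ioo (0 : ℝ) 1, sk η t = ∫⁻ t in Ioo (0 : ℝ) 1, ENNReal.ofReal (t ^ (η - 1)) := by
    apply setLIntegral_congr_fun measurableSet_Ioo
    intro t ht
    unfold sk
    simp only
    rw [abs_of_pos ht.1, ENNReal.ofReal_rpow_of_pos ht.1]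
    congr 2; ring
  rw [h1]
  have hint : IntegrableOn (fun t : ℝ => t ^ (η - 1)) (Ioo 0 1) := by
    rw [intervalIntegral.integrableOn_Ioo_rpow_iff one_pos]
    linarith
  rw [← ofReal_integral_eq_lintegral_ofReal hint]
  · apply ENNReal.ofReal_le_ofReal
    rw [← integral_Ioc_eq_integral_Ioo, ← intervalIntegral.integral_of_le zero_le_one,
      integral_rpow (Or.inl (by linarith))]
    have : (0 : ℝ) ^ (η - 1 + 1) = 0 := Real.zero_rpow (by linarith)
    rw [this, Real.one_rpow]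
    simp
  · filter_upwards [self_mem_ae_restrict measurableSet_Ioo] with t ht
    exact Real.rpow_nonneg ht.1.le _

lemma sk_Ioo_symm {η : ℝ} (hη : 0 < η) :
    ∫⁻ t in Ioo (-1 : ℝ) 1, sk η t ≤ ENNReal.ofReal (2 / η) := by
  have hsub : Ioo (-1 : ℝ) 1 ⊆ (Ioo (-1 : ℝ) 0 ∪ Ioo (0 : ℝ) 1) ∪ {0} := by
    intro t ht
    rcases lt_trichotomy t 0 with h | h | h
    · exact Or.inl (Or.inl ⟨ht.1, h⟩)
    · exact Or.inr h
    · exact Or.inl (Or.inr ⟨h, ht.2⟩)
  have e1 : ∫⁻ t in Ioo (-1 : ℝ) 0, sk η t = ∫⁻ t in Ioo (0 : ℝ) 1, sk η t := by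
    have h := (Measure.measurePreserving_neg (volume : Measure ℝ)).setLIntegral_comp_preimage
      (s := Ioo (0 : ℝ) 1) measurableSet_Ioo (measurable_sk η)
    rw [← h]
    have hpre : (Neg.neg ⁻¹' Ioo (0 : ℝ) 1 : Set ℝ) = Ioo (-1) 0 := by
      ext t
      simp only [mem_preimage, mem_Ioo]
      constructor <;> rintro ⟨h1, h2⟩ <;> constructor <;> linarith
    rw [hpre]
    simp only [sk_neg]
  have e2 : ∫⁻ t in ({0} : Set ℝ), sk η t = 0 := by
    rw [Measure.restrict_singleton]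
    simp
  calc ∫⁻ t in Ioo (-1 : ℝ) 1, sk η t
      ≤ ∫⁻ t in (Ioo (-1 : ℝ) 0 ∪ Ioo (0 : ℝ) 1) ∪ {0}, sk η t := lintegral_mono_set hsub
    _ ≤ (∫⁻ t in (Ioo (-1 : ℝ) 0 ∪ Ioo (0 : ℝ) 1), sk η t) + (∫⁻ t in ({0} : Set ℝ), sk η t) :=
        lintegral_union_le _ _ _
    _ ≤ ((∫⁻ t in Ioo (-1 : ℝ) 0, sk η t) + (∫⁻ t in Ioo (0 : ℝ) 1, sk η t)) + 0 := by
        rw [e2]
        exact add_le_add (lintegral_union_le _ _ _) le_rfl
    _ ≤ (ENNReal.ofReal (1 / η) + ENNReal.ofReal (1 / η)) + 0 := by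
        rw [e1]
        exact add_le_add (add_le_add (sk_Ioo hη) (sk_Ioo hη)) le_rfl
    _ = ENNReal.ofReal (2 / η) := by
        rw [add_zero, ← ENNReal.ofReal_add (by positivity) (by positivity)]
        congr 1; ring

/-- the uniform probability on `[0, 1/4]` -/
noncomputable def um : Measure ℝ := (4 : ℝ≥0∞) • (volume.restrict (Icc (0 : ℝ) (1 / 4)))

instance : IsProbabilityMeasure um := by
  constructor
  unfold um
  simp only [Measure.smul_apply, MeasurableSet.univ, Measure.restrict_apply, univ_inter,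
    Real.volume_Icc, smul_eq_mul]
  rw [show (1 / 4 - 0 : ℝ) = 1 / 4 by norm_num, show (4 : ℝ≥0∞) = ENNReal.ofReal 4 by simp,
    ← ENNReal.ofReal_mul (by norm_num)]
  norm_num

lemma um_compl : um (Icc (0 : ℝ) (1 / 4))ᶜ = 0 := by
  unfold um
  simp only [Measure.smul_apply, smul_eq_mul]
  rw [Measure.restrict_apply measurableSet_Icc.compl]
  simp

lemma sk_um {η : ℝ} (hη : 0 < η) (hη1 : η < 1) (a : ℝ) :
    ∫⁻ t, sk η (a - t) ∂um ≤ ENNReal.ofReal (8 / η + 1) := by
  unfold um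
  rw [lintegral_smul_measure]
  have h1 : ∫⁻ t in Icc (0 : ℝ) (1 / 4), sk η (a - t) ≤
      ENNReal.ofReal (2 / η) + ENNReal.ofReal (1 / 4) := by
    have hsplit : ∀ t, sk η (a - t) ≤ (Ioo (-1 : ℝ) 1).indicator (sk η) (a - t) + 1 := by
      intro t
      by_cases ht : (a - t) ∈ Ioo (-1 : ℝ) 1
      · rw [indicator_of_mem ht]; exact le_self_add
      · rw [indicator_of_notMem ht, zero_add]
        apply sk_le_one hη1
        by_contra hcon
        exact ht (abs_lt.mp (not_le.mp hcon))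
    calc ∫⁻ t in Icc (0 : ℝ) (1 / 4), sk η (a - t)
        ≤ ∫⁻ t in Icc (0 : ℝ) (1 / 4), ((Ioo (-1 : ℝ) 1).indicator (sk η) (a - t) + 1) :=
          lintegral_mono hsplit
      _ = (∫⁻ t in Icc (0 : ℝ) (1 / 4), ((Ioo (-1 : ℝ) 1).indicator (sk η) (a - t)))
          + ENNReal.ofReal (1 / 4) := by
          rw [lintegral_add_right _ measurable_const]
          congr 1
          rw [lintegral_const, Measure.restrict_apply MeasurableSet.univ, univ_inter,
            Real.volume_Icc]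
          simp
      _ ≤ (∫⁻ t, ((Ioo (-1 : ℝ) 1).indicator (sk η) (a - t))) + ENNReal.ofReal (1 / 4) :=
          add_le_add (setLIntegral_le_lintegral _ _) le_rfl
      _ = (∫⁻ t, ((Ioo (-1 : ℝ) 1).indicator (sk η) t)) + ENNReal.ofReal (1 / 4) := by
          rw [lintegral_sub_left_eq_self (fun t => (Ioo (-1 : ℝ) 1).indicator (sk η) t) a]
      _ ≤ ENNReal.ofReal (2 / η) + ENNReal.ofReal (1 / 4) := by
          refine add_le_add ?_ le_rfl
          rw [lintegral_indicator measurableSet_Ioo]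
          exact sk_Ioo_symm hη
  calc (4 : ℝ≥0∞) • ∫⁻ t in Icc (0 : ℝ) (1 / 4), sk η (a - t)
      ≤ (4 : ℝ≥0∞) * (ENNReal.ofReal (2 / η) + ENNReal.ofReal (1 / 4)) := by
        rw [smul_eq_mul]; gcongr
    _ = ENNReal.ofReal (8 / η + 1) := by
        rw [show (4 : ℝ≥0∞) = ENNReal.ofReal 4 by simp,
          ← ENNReal.ofReal_add (by positivity) (by positivity), ← ENNReal.ofReal_mul (by norm_num)]
        congr 1; ring

end Vale.Agent.P210
end
end

section

section

open scoped ENNReal ContDiff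
open MeasureTheory Set

namespace Vale.Agent.P210

/-- product of singular kernels -/
noncomputable def pk {ι : Type} {k : ℕ} (η : ℝ) (P B : Fin k → ι) (a : Fin k → ℝ)
    (s : Finset (Fin k)) (c : ι → ℝ) : ℝ≥0∞ :=
  ∏ i ∈ s, sk η (a i - (c (P i) - c (B i)))

lemma measurable_pk {ι : Type} {k : ℕ} (η : ℝ) (P B : Fin k → ι) (a : Fin k → ℝ)
    (s : Finset (Fin k)) : Measurable (pk η P B a s) := by
  unfold pk
  apply Finset.measurable_fun_prod
  intro i _
  exact (measurable_sk η).comp (by fun_prop)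

lemma lmarginal_pk_le {ι : Type} [DecidableEq ι] {k : ℕ} {η : ℝ} (hη : 0 < η) (hη1 : η < 1)
    (P B : Fin k → ι) (hP : Function.Injective P) (hB : ∀ i l, B i ≠ P l) (a : Fin k → ℝ)
    (s : Finset (Fin k)) (c : ι → ℝ) :
    (∫⋯∫⁻_(s.image P), pk η P B a s ∂(fun _ => um)) c ≤ ENNReal.ofReal (8 / η + 1) ^ s.card := by
  classical
  induction s using Finset.induction generalizing c with
  | empty => simp [pk]
  | insert i s hi ih =>
    have hPi : P i ∉ s.image P := by
      rw [hP.mem_finset_image]; exact hi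
    rw [Finset.image_insert, lmarginal_insert' _ (measurable_pk η P B a _) hPi]
    have hstep : (fun x : ι → ℝ => ∫⁻ t, pk η P B a (insert i s) (Function.update x (P i) t) ∂um) ≤
        fun x => ENNReal.ofReal (8 / η + 1) * pk η P B a s x := by
      intro x
      have hval : ∀ t, pk η P B a (insert i s) (Function.update x (P i) t) =
          sk η ((a i + x (B i)) - t) * pk η P B a s x := by
        intro t
        unfold pk
        rw [Finset.prod_insert hi]
        congr 1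
        · rw [Function.update_self, Function.update_of_ne (hB i i)]
          congr 1; ring
        · apply Finset.prod_congr rfl
          intro l hl
          have hne : P l ≠ P i := fun h => hi (hP h ▸ hl)
          rw [Function.update_of_ne hne, Function.update_of_ne (hB l i)]
      simp only [hval]
      rw [lintegral_mul_const]
      · gcongr
        exact sk_um hη hη1 _
      · exact (measurable_sk η).comp (by fun_prop)
    calc (∫⋯∫⁻_(s.image P), (fun x : ι → ℝ =>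
            ∫⁻ t, pk η P B a (insert i s) (Function.update x (P i) t) ∂um) ∂(fun _ => um)) c
        ≤ (∫⋯∫⁻_(s.image P), (fun x => ENNReal.ofReal (8 / η + 1) * pk η P B a s x)
            ∂(fun _ => um)) c := lmarginal_mono hstep c
      _ = ENNReal.ofReal (8 / η + 1) * (∫⋯∫⁻_(s.image P), pk η P B a s ∂(fun _ => um)) c := by
          unfold lmarginal
          rw [lintegral_const_mul]
          exact (measurable_pk η P B a s).comp measurable_updateFinset
      _ ≤ ENNReal.ofReal (8 / η + 1) * ENNReal.ofReal (8 / η + 1) ^ s.card := by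
          gcongr
          exact ih c
      _ = ENNReal.ofReal (8 / η + 1) ^ (insert i s).card := by
          rw [Finset.card_insert_of_notMem hi, pow_succ, mul_comm]

lemma lmarginal_const_le {ι : Type} [DecidableEq ι] (s : Finset ι) (K : ℝ≥0∞) (c : ι → ℝ) :
    (∫⋯∫⁻_s, (fun _ => K) ∂(fun _ => um)) c ≤ K := by
  unfold lmarginal
  rw [lintegral_const]
  simp

lemma lmarginal_pk_le' {ι : Type} [DecidableEq ι] {k : ℕ} {η : ℝ} (hη : 0 < η) (hη1 : η < 1)
    (P B : Fin k → ι) (hP : Function.Injective P) (hB : ∀ i l, B i ≠ P l) (a : Fin k → ℝ)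
    (V : Finset ι) (hV : Finset.univ.image P ⊆ V) (c : ι → ℝ) :
    (∫⋯∫⁻_V, pk η P B a Finset.univ ∂(fun _ => um)) c ≤ ENNReal.ofReal (8 / η + 1) ^ k := by
  have hVeq : V = (V \ Finset.univ.image P) ∪ Finset.univ.image P :=
    (Finset.sdiff_union_of_subset hV).symm
  rw [hVeq, lmarginal_union _ _ (measurable_pk η P B a _) Finset.sdiff_disjoint]
  refine le_trans (lmarginal_mono (g := fun _ => ENNReal.ofReal (8 / η + 1) ^ k) ?_ c)
    (lmarginal_const_le _ _ c)
  intro x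
  refine (lmarginal_pk_le hη hη1 P B hP hB a Finset.univ x).trans ?_
  simp

/-- the energy functional of a configuration -/
noncomputable def Psi {n k : ℕ} (W : E n → ℝ≥0∞) (b η : ℝ) (D : Set (E n)) (P B : Fin k → Vtx n)
    (c : Vtx n → ℝ) : ℝ≥0∞ :=
  ∫⁻ y in D, W y ^ b * pk η P B (fun i => hat (P i) y - hat (B i) y) Finset.univ c

lemma continuous_hat {n : ℕ} (p : Vtx n) : Continuous (hat p) := by
  unfold hat
  fun_prop

lemma measurable_Psi_aux {n k : ℕ} {W : E n → ℝ≥0∞} (hW : Measurable W) (b η : ℝ)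
    (P B : Fin k → Vtx n) :
    Measurable (fun q : (Vtx n → ℝ) × E n =>
      W q.2 ^ b * pk η P B (fun i => hat (P i) q.2 - hat (B i) q.2) Finset.univ q.1) := by
  apply Measurable.mul
  · exact (hW.comp measurable_snd).pow_const b
  · unfold pk
    apply Finset.measurable_fun_prod
    intro i _
    refine (measurable_sk η).comp ?_
    have h1 := (continuous_hat (P i)).measurable
    have h2 := (continuous_hat (B i)).measurable
    fun_prop

lemma measurable_Psi {n k : ℕ} {W : E n → ℝ≥0∞} (hW : Measurable W) (b η : ℝ) (D : Set (E n))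
    (P B : Fin k → Vtx n) : Measurable (Psi W b η D P B) := by
  unfold Psi
  exact Measurable.lintegral_prod_right' (measurable_Psi_aux hW b η P B)

lemma lmarginal_Psi_le {n k : ℕ} {W : E n → ℝ≥0∞} (hW : Measurable W) {b η : ℝ}
    (hη : 0 < η) (hη1 : η < 1) (D : Set (E n)) (P B : Fin k → Vtx n)
    (hP : Function.Injective P) (hB : ∀ i l, B i ≠ P l)
    (V : Finset (Vtx n)) (hV : Finset.univ.image P ⊆ V) (c : Vtx n → ℝ) :
    (∫⋯∫⁻_V, Psi W b η D P B ∂(fun _ => um)) c ≤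
      ENNReal.ofReal (8 / η + 1) ^ k * ∫⁻ y in D, W y ^ b := by
  unfold lmarginal
  simp only [Psi]
  rw [lintegral_lintegral_swap]
  · calc (∫⁻ y in D, (∫⁻ z : ∀ i : V, ℝ, W y ^ b *
          pk η P B (fun i => hat (P i) y - hat (B i) y) Finset.univ (Function.updateFinset c V z)
          ∂(Measure.pi fun _ => um)))
        = ∫⁻ y in D, W y ^ b * (∫⋯∫⁻_V, pk η P B (fun i => hat (P i) y - hat (B i) y) Finset.univ
            ∂(fun _ => um)) c := by
          apply lintegral_congr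
          intro y
          rw [lintegral_const_mul]
          · rfl
          · exact (measurable_pk η P B _ _).comp measurable_updateFinset
      _ ≤ ∫⁻ y in D, ENNReal.ofReal (8 / η + 1) ^ k * W y ^ b := by
          apply lintegral_mono
          intro y
          simp only
          rw [mul_comm]
          gcongr
          exact lmarginal_pk_le' hη hη1 P B hP hB _ V hV c
      _ = ENNReal.ofReal (8 / η + 1) ^ k * ∫⁻ y in D, W y ^ b := by
          rw [lintegral_const_mul]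
          exact hW.pow_const b
  · apply Measurable.aemeasurable
    have h := measurable_Psi_aux hW b η P B
    have h2 : Measurable (fun q : (∀ i : V, ℝ) × E n => (Function.updateFinset c V q.1, q.2)) := by
      apply Measurable.prodMk
      · exact measurable_updateFinset.comp measurable_fst
      · exact measurable_snd
    exact h.comp h2

end Vale.Agent.P210
end
end

section

section

open scoped ENNReal ContDiff
open MeasureTheory Set

namespace Vale.Agent.P210

lemma ker_le_one {n : ℕ} (z : E n) : ker z ≤ 1 := by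
  unfold ker
  rw [← ENNReal.ofReal_one]
  exact ENNReal.ofReal_le_ofReal (min_le_left _ _)

lemma ker_eq_zero {n : ℕ} {z : E n} (h : 2 ≤ ‖z‖) : ker z = 0 := by
  unfold ker
  rw [max_eq_left (by linarith), min_eq_right (by norm_num), ENNReal.ofReal_zero]

lemma ker_eq_one {n : ℕ} {z : E n} (h : ‖z‖ ≤ 1) : ker z = 1 := by
  unfold ker
  rw [min_eq_left (by rw [le_max_iff]; right; linarith), ENNReal.ofReal_one]

lemma continuous_ker {n : ℕ} : Continuous (ker : E n → ℝ≥0∞) := by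
  unfold ker
  exact ENNReal.continuous_ofReal.comp (by fun_prop)

lemma measurable_ker {n : ℕ} : Measurable (ker : E n → ℝ≥0∞) := continuous_ker.measurable

lemma ker_mul_le {n : ℕ} (z : E n) (a : ℝ≥0∞) :
    ker z * a ≤ (Metric.ball (0 : E n) 2).indicator (fun _ => a) z := by
  by_cases hz : z ∈ Metric.ball (0 : E n) 2
  · rw [indicator_of_mem hz]
    calc ker z * a ≤ 1 * a := by gcongr; exact ker_le_one z
      _ = a := one_mul a
  · rw [indicator_of_notMem hz]
    rw [Metric.mem_ball, dist_zero_right, not_lt] at hz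
    rw [ker_eq_zero hz, zero_mul]

/-- scaling change of variables -/
lemma lintegral_comp_scale {n : ℕ} (F : E n → ℝ≥0∞) (hF : Measurable F) (x : E n) {s : ℝ}
    (hs : 0 < s) :
    ∫⁻ z, F (x + s • z) = ENNReal.ofReal ((s ^ n)⁻¹) * ∫⁻ y, F y := by
  have h1 : ∫⁻ z, F (x + s • z) = ∫⁻ w, F (x + w) ∂(Measure.map (s • ·) volume) := by
    rw [lintegral_map (by fun_prop) (by fun_prop)]
  rw [h1, Measure.map_addHaar_smul volume hs.ne', lintegral_smul_measure,
    lintegral_add_left_eq_self, finrank_euclideanSpace, Fintype.card_fin,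
    abs_of_pos (by positivity), smul_eq_mul]

lemma lintegral_le_rpow {α : Type} [MeasurableSpace α] (μ : Measure α) {b : ℝ} (hb : 1 ≤ b)
    {f : α → ℝ≥0∞} (hf : AEMeasurable f μ) :
    ∫⁻ a, f a ∂μ ≤ (∫⁻ a, f a ^ b ∂μ) ^ (1 / b) * (μ univ) ^ (1 - 1 / b) := by
  rcases hb.eq_or_lt with h | h
  · rw [← h]; simp
  · have hpq : b.HolderConjugate (Real.conjExponent b) := Real.HolderConjugate.conjExponent h
    have := ENNReal.lintegral_mul_le_Lp_mul_Lq μ hpq hf (g := fun _ => 1) aemeasurable_const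
    have h2 : 1 / (Real.conjExponent b) = 1 - 1 / b := by
      have := hpq.inv_add_inv_eq_one
      rw [one_div, one_div]; linarith
    simpa [h2] using this

/-- average in terms of the energy on the ball -/
lemma av_le {n : ℕ} {W : E n → ℝ≥0∞} (hW : Measurable W) {b : ℝ} (hb : 1 ≤ b) (x : E n) {s : ℝ}
    (hs : 0 < s) :
    av W x s ≤ (ENNReal.ofReal ((s ^ n)⁻¹) * ∫⁻ y in Metric.ball x (2 * s), W y ^ b) ^ (1 / b)
      * (volume (Metric.ball (0 : E n) 2)) ^ (1 - 1 / b) := by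
  have hball : ∀ z : E n, z ∈ Metric.ball (0 : E n) 2 ↔ x + s • z ∈ Metric.ball x (2 * s) := by
    intro z
    rw [Metric.mem_ball, Metric.mem_ball, dist_zero_right, dist_eq_norm, add_sub_cancel_left,
      norm_smul, Real.norm_of_nonneg hs.le, mul_comm 2 s]
    exact (mul_lt_mul_iff_right₀ hs).symm
  calc av W x s ≤ ∫⁻ z in Metric.ball (0 : E n) 2, W (x + s • z) := by
        unfold av
        rw [← lintegral_indicator Metric.isOpen_ball.measurableSet]
        exact lintegral_mono fun z => ker_mul_le z _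
    _ ≤ (∫⁻ z in Metric.ball (0 : E n) 2, W (x + s • z) ^ b) ^ (1 / b) *
          (volume (Metric.ball (0 : E n) 2)) ^ (1 - 1 / b) := by
        have := lintegral_le_rpow (volume.restrict (Metric.ball (0 : E n) 2)) hb
          (f := fun z => W (x + s • z)) (by fun_prop)
        rwa [Measure.restrict_apply_univ] at this
    _ = (ENNReal.ofReal ((s ^ n)⁻¹) * ∫⁻ y in Metric.ball x (2 * s), W y ^ b) ^ (1 / b)
      * (volume (Metric.ball (0 : E n) 2)) ^ (1 - 1 / b) := by
        congr 2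
        rw [← lintegral_indicator Metric.isOpen_ball.measurableSet,
          ← lintegral_indicator Metric.isOpen_ball.measurableSet,
          ← lintegral_comp_scale _ _ x hs]
        · congr 1
          ext z
          by_cases hz : z ∈ Metric.ball (0 : E n) 2
          · rw [indicator_of_mem hz, indicator_of_mem ((hball z).1 hz)]
          · rw [indicator_of_notMem hz, indicator_of_notMem (fun h => hz ((hball z).2 h))]
        · exact (hW.pow_const b).indicator Metric.isOpen_ball.measurableSet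

lemma volume_ball_two {n : ℕ} :
    volume (Metric.ball (0 : E n) 2) = ENNReal.ofReal (volume (Metric.ball (0 : E n) 2)).toReal :=
  (ENNReal.ofReal_toReal measure_ball_lt_top.ne).symm

lemma volume_ball_two_pos {n : ℕ} : 0 < (volume (Metric.ball (0 : E n) 2)).toReal :=
  ENNReal.toReal_pos (Metric.measure_ball_pos _ _ (by norm_num)).ne' measure_ball_lt_top.ne

end Vale.Agent.P210
end
end

section

section

open scoped ENNReal ContDiff
open MeasureTheory Set

namespace Vale.Agent.P210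

/-- integral of a power near zero -/
lemma lintegral_rpow_Ioo {θ : ℝ} (hθ : θ < 1) {R : ℝ} (hR : 0 < R) :
    ∫⁻ s in Ioo (0 : ℝ) R, ENNReal.ofReal (s ^ (-θ)) = ENNReal.ofReal (R ^ (1 - θ) / (1 - θ)) := by
  have hint : IntegrableOn (fun t : ℝ => t ^ (-θ)) (Ioo 0 R) := by
    rw [intervalIntegral.integrableOn_Ioo_rpow_iff hR]
    linarith
  rw [← ofReal_integral_eq_lintegral_ofReal hint]
  · congr 1
    rw [← integral_Ioc_eq_integral_Ioo, ← intervalIntegral.integral_of_le hR.le,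
      integral_rpow (Or.inl (by linarith))]
    have : (0 : ℝ) ^ (-θ + 1) = 0 := Real.zero_rpow (by linarith)
    rw [this, sub_zero, show -θ + 1 = 1 - θ by ring]
  · filter_upwards [self_mem_ae_restrict measurableSet_Ioo] with t ht
    exact Real.rpow_nonneg ht.1.le _

lemma one_le_factor {t c κ : ℝ} (hκ : 0 < κ) (hc : 0 < c) (ht : |t| ≤ c) :
    1 ≤ ENNReal.ofReal (c ^ κ) * ENNReal.ofReal |t| ^ (-κ) := by
  rw [← ENNReal.ofReal_rpow_of_pos hc]
  have h0 : ENNReal.ofReal c ≠ 0 := by simpa using hc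
  calc (1 : ℝ≥0∞) = ENNReal.ofReal c ^ κ * ENNReal.ofReal c ^ (-κ) := by
        rw [← ENNReal.rpow_add _ _ h0 ENNReal.ofReal_ne_top, add_neg_cancel, ENNReal.rpow_zero]
    _ ≤ ENNReal.ofReal c ^ κ * ENNReal.ofReal |t| ^ (-κ) := by
        rw [ENNReal.rpow_neg, ENNReal.rpow_neg]
        gcongr

theorem pot_le_of_energy (n k : ℕ) (_hn : 0 < n) (b η : ℝ) (hb : 1 ≤ b) (_hη : 0 < η)
    (hη1 : η < 1) (hbk : (n : ℝ) - k * (1 - η) < b) :
    ∃ C : ℝ, 0 < C ∧ ∀ (W : E n → ℝ≥0∞), Measurable W → ∀ (x : E n) (R ℓ M : ℝ), 0 < R → 0 < ℓ →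
      0 ≤ M → ∀ H : Fin k → E n → ℝ, (∀ i, Measurable (H i)) →
      (∀ i y, |H i y| ≤ ℓ * ‖y - x‖) →
      ∫⁻ y in Metric.ball x (2 * R), W y ^ b * ∏ i, ENNReal.ofReal |H i y| ^ (-(1 - η))
        ≤ ENNReal.ofReal M →
      pot W x R ≤ ENNReal.ofReal
        (C * (ℓ ^ ((k : ℝ) * (1 - η)) * M) ^ (1 / b) * R ^ (1 - ((n : ℝ) - k * (1 - η)) / b)) := by
  set κ : ℝ := (k : ℝ) * (1 - η) with hκ
  have hb0 : 0 < b := by linarith
  have hκ0 : 0 ≤ κ := mul_nonneg (Nat.cast_nonneg _) (by linarith)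
  set θ : ℝ := ((n : ℝ) - κ) / b with hθ
  have hθ1 : θ < 1 := by rw [hθ, div_lt_one hb0]; exact hbk
  set v : ℝ := (volume (Metric.ball (0 : E n) 2)).toReal with hv
  have hv0 : 0 < v := volume_ball_two_pos
  refine ⟨((2 : ℝ) ^ κ) ^ (1 / b) * v ^ (1 - 1 / b) / (1 - θ), by
    have : 0 < 1 - θ := by linarith
    positivity, ?_⟩
  intro W hW x R ℓ M hR hℓ hM H hH hHℓ hE
  have key : ∀ s ∈ Ioo (0 : ℝ) R, av W x s ≤
      ENNReal.ofReal ((((2 : ℝ) ^ κ) ^ (1 / b) * v ^ (1 - 1 / b) * (ℓ ^ κ * M) ^ (1 / b))) *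
        ENNReal.ofReal (s ^ (-θ)) := by
    intro s hs
    have hs0 : 0 < s := hs.1
    have hfac : ∀ y ∈ Metric.ball x (2 * s), W y ^ b ≤ ENNReal.ofReal ((2 * s * ℓ) ^ κ) *
        (W y ^ b * ∏ i, ENNReal.ofReal |H i y| ^ (-(1 - η))) := by
      intro y hy
      rw [Metric.mem_ball, dist_eq_norm] at hy
      have h1 : 1 ≤ ∏ i : Fin k, (ENNReal.ofReal ((2 * s * ℓ) ^ (1 - η)) *
          ENNReal.ofReal |H i y| ^ (-(1 - η))) := by
        apply Finset.one_le_prod'
        intro i _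
        apply one_le_factor (by linarith) (by positivity)
        refine (hHℓ i y).trans ?_
        nlinarith [norm_nonneg (y - x)]
      rw [Finset.prod_mul_distrib, Finset.prod_const, Finset.card_univ, Fintype.card_fin,
        ← ENNReal.ofReal_pow (by positivity), ← Real.rpow_natCast, ← Real.rpow_mul (by positivity),
        mul_comm (1 - η) (k : ℝ), ← hκ] at h1
      calc W y ^ b = W y ^ b * 1 := (mul_one _).symm
        _ ≤ W y ^ b * (ENNReal.ofReal ((2 * s * ℓ) ^ κ) *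
              ∏ i : Fin k, ENNReal.ofReal |H i y| ^ (-(1 - η))) := by gcongr
        _ = _ := by ring
    have hball : Metric.ball x (2 * s) ⊆ Metric.ball x (2 * R) :=
      Metric.ball_subset_ball (by linarith [hs.2])
    have hE' : ∫⁻ y in Metric.ball x (2 * s), W y ^ b ≤
        ENNReal.ofReal ((2 * s * ℓ) ^ κ * M) := by
      calc ∫⁻ y in Metric.ball x (2 * s), W y ^ b
          ≤ ∫⁻ y in Metric.ball x (2 * s), ENNReal.ofReal ((2 * s * ℓ) ^ κ) *
              (W y ^ b * ∏ i, ENNReal.ofReal |H i y| ^ (-(1 - η))) :=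
            setLIntegral_mono' Metric.isOpen_ball.measurableSet hfac
        _ = ENNReal.ofReal ((2 * s * ℓ) ^ κ) * ∫⁻ y in Metric.ball x (2 * s),
              (W y ^ b * ∏ i, ENNReal.ofReal |H i y| ^ (-(1 - η))) := by
            rw [lintegral_const_mul]
            fun_prop
        _ ≤ ENNReal.ofReal ((2 * s * ℓ) ^ κ) * ENNReal.ofReal M := by
            gcongr
            exact (lintegral_mono_set hball).trans hE
        _ = _ := by rw [← ENNReal.ofReal_mul (by positivity)]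
    calc av W x s ≤ (ENNReal.ofReal ((s ^ n)⁻¹) * ∫⁻ y in Metric.ball x (2 * s), W y ^ b) ^ (1 / b)
          * (volume (Metric.ball (0 : E n) 2)) ^ (1 - 1 / b) := av_le hW hb x hs0
      _ ≤ (ENNReal.ofReal ((s ^ n)⁻¹) * ENNReal.ofReal ((2 * s * ℓ) ^ κ * M)) ^ (1 / b)
          * (ENNReal.ofReal v) ^ (1 - 1 / b) := by
          rw [volume_ball_two]
          gcongr
      _ = ENNReal.ofReal ((((2 : ℝ) ^ κ) ^ (1 / b) * v ^ (1 - 1 / b) * (ℓ ^ κ * M) ^ (1 / b))) *
        ENNReal.ofReal (s ^ (-θ)) := by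
          have h1b : 0 ≤ 1 - 1 / b := by
            rw [sub_nonneg, div_le_one hb0]; exact hb
          rw [← ENNReal.ofReal_mul (by positivity), ENNReal.ofReal_rpow_of_nonneg (by positivity)
            (by positivity), ENNReal.ofReal_rpow_of_nonneg hv0.le h1b,
            ← ENNReal.ofReal_mul (by positivity), ← ENNReal.ofReal_mul (by positivity)]
          congr 1
          have e1 : (s ^ n)⁻¹ * ((2 * s * ℓ) ^ κ * M) = 2 ^ κ * (ℓ ^ κ * M) * s ^ (κ - n) := by
            rw [Real.mul_rpow (by positivity) hℓ.le, Real.mul_rpow (by norm_num) hs0.le,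
              Real.rpow_sub hs0, Real.rpow_natCast]
            field_simp
          have e2 : (s ^ (κ - n)) ^ (1 / b) = s ^ (-θ) := by
            rw [← Real.rpow_mul hs0.le, hθ]
            congr 1; ring
          rw [e1, Real.mul_rpow (by positivity) (by positivity), Real.mul_rpow (by positivity)
            (by positivity), e2]
          ring
  calc pot W x R = ∫⁻ s in Ioo (0 : ℝ) R, av W x s := rfl
    _ ≤ ∫⁻ s in Ioo (0 : ℝ) R,
        ENNReal.ofReal ((((2 : ℝ) ^ κ) ^ (1 / b) * v ^ (1 - 1 / b) * (ℓ ^ κ * M) ^ (1 / b))) *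
        ENNReal.ofReal (s ^ (-θ)) := setLIntegral_mono' measurableSet_Ioo key
    _ = ENNReal.ofReal ((((2 : ℝ) ^ κ) ^ (1 / b) * v ^ (1 - 1 / b) * (ℓ ^ κ * M) ^ (1 / b))) *
        ENNReal.ofReal (R ^ (1 - θ) / (1 - θ)) := by
        rw [lintegral_const_mul _ (by fun_prop), lintegral_rpow_Ioo hθ1 hR]
    _ = _ := by
        rw [← ENNReal.ofReal_mul (by positivity)]
        congr 1
        ring

end Vale.Agent.P210
end
end

section

section

open scoped ENNReal ContDiff
open MeasureTheory Set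

namespace Vale.Agent.P210

/-- configurations of tied vertices -/
structure Cfg (n k : ℕ) where
  j : ℤ
  P : Fin k → Vtx n
  B : Fin k → Vtx n
  inj : Function.Injective P
  ne : ∀ i l, B i ≠ P l
  lev : ∀ q ∈ Finset.univ.image P ∪ Finset.univ.image B, q.2 = j ∨ q.2 = j - 1
  near : ∀ q ∈ Finset.univ.image P ∪ Finset.univ.image B,
    ∀ q' ∈ Finset.univ.image P ∪ Finset.univ.image B,
    ‖vpos q - vpos q'‖ ≤ 2 * Real.sqrt n * (2 : ℝ) ^ j

/-- the vertices of a configuration -/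
def Cfg.V {n k : ℕ} (κ : Cfg n k) : Finset (Vtx n) :=
  Finset.univ.image κ.P ∪ Finset.univ.image κ.B

lemma Cfg.card_V {n k : ℕ} (κ : Cfg n k) : κ.V.card ≤ 2 * k := by
  unfold Cfg.V
  refine (Finset.card_union_le _ _).trans ?_
  have h1 := Finset.card_image_le (s := (Finset.univ : Finset (Fin k))) (f := κ.P)
  have h2 := Finset.card_image_le (s := (Finset.univ : Finset (Fin k))) (f := κ.B)
  simp at h1 h2
  omega

/-- index set for the neighbours -/
noncomputable def nbrIdx (n : ℕ) (M : ℤ) : Finset (ℤ × (Fin n → ℤ)) :=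
  (Finset.Icc (-1 : ℤ) 1) ×ˢ Fintype.piFinset (fun _ : Fin n => Finset.Icc (-M) M)

/-- neighbours of a vertex -/
noncomputable def nbr {n : ℕ} (M : ℤ) (p : Vtx n) : Finset (Vtx n) := by
  classical
  exact (nbrIdx n M).image
    (fun q => (fun i => ⌊(2 : ℝ) ^ (-q.1) * (p.1 i : ℝ)⌋ + q.2 i, p.2 + q.1))

lemma card_nbr {n : ℕ} (M : ℤ) (p : Vtx n) : (nbr M p).card ≤ (nbrIdx n M).card := by
  unfold nbr
  exact Finset.card_image_le

lemma mem_nbr {n : ℕ} (M : ℤ) (hM : 8 * Real.sqrt n + 1 ≤ M) (p q : Vtx n) (j : ℤ)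
    (hp : p.2 = j ∨ p.2 = j - 1) (hq : q.2 = j ∨ q.2 = j - 1)
    (hd : ‖vpos q - vpos p‖ ≤ 2 * Real.sqrt n * (2 : ℝ) ^ j) : q ∈ nbr M p := by
  classical
  unfold nbr nbrIdx
  rw [Finset.mem_image]
  have hδ : -1 ≤ q.2 - p.2 ∧ q.2 - p.2 ≤ 1 := by
    rcases hp with h | h <;> rcases hq with h' | h' <;> constructor <;> omega
  refine ⟨(q.2 - p.2, fun i => q.1 i - ⌊(2 : ℝ) ^ (-(q.2 - p.2)) * (p.1 i : ℝ)⌋), ?_, ?_⟩
  · rw [Finset.mem_product]
    refine ⟨Finset.mem_Icc.mpr hδ, ?_⟩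
    rw [Fintype.mem_piFinset]
    intro i
    have h1 : |(2 : ℝ) ^ q.2 * q.1 i - (2 : ℝ) ^ p.2 * p.1 i| ≤
        2 * Real.sqrt n * (2 : ℝ) ^ j := by
      refine le_trans ?_ hd
      have := EuclideanSpace.norm_eq (vpos q - vpos p)
      have h2 := PiLp.norm_apply_le (vpos q - vpos p) i
      simpa [vpos] using h2
    have hq0 : (0 : ℝ) < (2 : ℝ) ^ q.2 := by positivity
    have h3 : |(q.1 i : ℝ) - (2 : ℝ) ^ (-(q.2 - p.2)) * p.1 i| ≤ 8 * Real.sqrt n := by
      have e1 : (q.1 i : ℝ) - (2 : ℝ) ^ (-(q.2 - p.2)) * p.1 i =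
          ((2 : ℝ) ^ q.2 * q.1 i - (2 : ℝ) ^ p.2 * p.1 i) / (2 : ℝ) ^ q.2 := by
        have : (2 : ℝ) ^ (-(q.2 - p.2)) = (2 : ℝ) ^ p.2 / (2 : ℝ) ^ q.2 := by
          rw [← zpow_sub₀ (by norm_num)]; congr 1; ring
        rw [this]; field_simp
      rw [e1, abs_div, abs_of_pos hq0, div_le_iff₀ hq0]
      refine h1.trans ?_
      have hj : (2 : ℝ) ^ j ≤ 2 * (2 : ℝ) ^ q.2 := by
        have : (2 : ℝ) ^ j ≤ (2 : ℝ) ^ (q.2 + 1) := by
          apply zpow_le_zpow_right₀ (by norm_num)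
          rcases hq with h | h <;> omega
        rw [zpow_add₀ (by norm_num)] at this
        linarith
      have hs : 0 ≤ Real.sqrt n := Real.sqrt_nonneg _
      nlinarith
    have h4 := Int.floor_le ((2 : ℝ) ^ (-(q.2 - p.2)) * (p.1 i : ℝ))
    have h5 := Int.lt_floor_add_one ((2 : ℝ) ^ (-(q.2 - p.2)) * (p.1 i : ℝ))
    rw [abs_le] at h3
    rw [Finset.mem_Icc]
    constructor
    · have : (-(M : ℝ)) ≤ (q.1 i : ℝ) - ⌊(2 : ℝ) ^ (-(q.2 - p.2)) * (p.1 i : ℝ)⌋ := by
        linarith [h3.1]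
      exact_mod_cast this
    · have : (q.1 i : ℝ) - ⌊(2 : ℝ) ^ (-(q.2 - p.2)) * (p.1 i : ℝ)⌋ ≤ M := by
        linarith [h3.2]
      exact_mod_cast this
  · ext i
    · simp
    · simp

/-- bound for the number of configurations through a vertex -/
noncomputable def cfgBound (n k : ℕ) (M : ℤ) : ℕ := 2 * ((nbrIdx n M).card ^ k * (nbrIdx n M).card ^ k)

lemma cfg_count {n k : ℕ} (M : ℤ) (hM : 8 * Real.sqrt n + 1 ≤ M) (p : Vtx n) :
    {κ : Cfg n k | p ∈ κ.V}.Finite ∧ {κ : Cfg n k | p ∈ κ.V}.ncard ≤ cfgBound n k M := by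
  classical
  let t : Finset (ℤ × ((Fin k → Vtx n) × (Fin k → Vtx n))) :=
    ({p.2, p.2 + 1} : Finset ℤ) ×ˢ ((Fintype.piFinset (fun _ => nbr M p)) ×ˢ
      (Fintype.piFinset (fun _ => nbr M p)))
  let f : Cfg n k → ℤ × ((Fin k → Vtx n) × (Fin k → Vtx n)) := fun κ => (κ.j, κ.P, κ.B)
  have hmem : ∀ κ ∈ {κ : Cfg n k | p ∈ κ.V}, f κ ∈ (t : Set _) := by
    intro κ hκ
    simp only [mem_ofPred_eq] at hκ
    have hp := κ.lev p hκ
    simp only [f, t, Finset.coe_product, Set.mem_prod, Finset.mem_coe, Finset.mem_insert,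
      Finset.mem_singleton, Fintype.mem_piFinset]
    have hV : ∀ q ∈ κ.V, q ∈ nbr M p := by
      intro q hq
      exact mem_nbr M hM p q κ.j hp (κ.lev q hq) (κ.near q hq p hκ)
    refine ⟨?_, ?_, ?_⟩
    · rcases hp with h | h <;> omega
    · intro i
      apply hV
      unfold Cfg.V
      exact Finset.mem_union_left _ (Finset.mem_image_of_mem _ (Finset.mem_univ i))
    · intro i
      apply hV
      unfold Cfg.V
      exact Finset.mem_union_right _ (Finset.mem_image_of_mem _ (Finset.mem_univ i))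
  have hinj : InjOn f {κ : Cfg n k | p ∈ κ.V} := by
    intro κ _ κ' _ h
    cases κ; cases κ'
    simp only [f, Prod.mk.injEq] at h
    obtain ⟨h1, h2, h3⟩ := h
    subst h1; subst h2; subst h3
    rfl
  have hfin : (t : Set (ℤ × ((Fin k → Vtx n) × (Fin k → Vtx n)))).Finite := t.finite_toSet
  refine ⟨Set.Finite.of_injOn hmem hinj hfin, ?_⟩
  refine (Set.ncard_le_ncard_of_injOn f hmem hinj hfin).trans ?_
  rw [Set.ncard_coe_finset]
  simp only [t, Finset.card_product, Fintype.card_piFinset, Finset.prod_const, Finset.card_univ,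
    Fintype.card_fin]
  unfold cfgBound
  have h2 : ({p.2, p.2 + 1} : Finset ℤ).card ≤ 2 := Finset.card_le_two
  have h3 := card_nbr M p
  gcongr

/-- there is a choice of shifts which is good for all configurations -/
theorem exists_shift (n k : ℕ) (hk : 0 < k) (b A ρ η : ℝ)
    (hη : 0 < η) (hη1 : η < 1) (hA : 0 < A) (hρ : 0 < ρ) :
    ∃ M₀ : ℝ, 0 < M₀ ∧ ∀ W : E n → ℝ≥0∞, Measurable W →
      (∀ (x : E n) (r : ℝ), 0 < r →
        ∫⁻ y in Metric.ball x r, W y ^ b ≤ ENNReal.ofReal (A * r ^ ((n : ℝ) - b))) →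
      ∃ c : Vtx n → ℝ, (∀ p, c p ∈ Icc (0 : ℝ) (1 / 4)) ∧ ∀ κ : Cfg n k,
        Psi W b η (Metric.ball (vpos (κ.P ⟨0, hk⟩)) (ρ * (2 : ℝ) ^ κ.j)) κ.P κ.B c ≤
          ENNReal.ofReal (M₀ * ((2 : ℝ) ^ κ.j) ^ ((n : ℝ) - b)) := by
  classical
  obtain ⟨M, hM⟩ : ∃ M : ℤ, 8 * Real.sqrt n + 1 ≤ M :=
    ⟨⌈8 * Real.sqrt n + 1⌉, Int.le_ceil _⟩
  set D := cfgBound n k M with hDdef
  refine ⟨((D : ℝ) + 1) ^ (2 * k) * ((8 / η + 1) ^ k * (A * ρ ^ ((n : ℝ) - b))), by positivity, ?_⟩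
  intro W hW hE
  have key := greedy_selection (ι := Vtx n) (𝒦 := Cfg n k) um Cfg.V (2 * k) D
    (fun κ => κ.card_V) (fun p => cfg_count M hM p)
    (fun κ => Psi W b η (Metric.ball (vpos (κ.P ⟨0, hk⟩)) (ρ * (2 : ℝ) ^ κ.j)) κ.P κ.B)
    (fun κ => measurable_Psi hW b η _ _ _)
    (by
      intro κ c c' h
      have hP : ∀ i, c (κ.P i) = c' (κ.P i) := fun i => h _ (by
        unfold Cfg.V
        exact Finset.mem_union_left _ (Finset.mem_image_of_mem _ (Finset.mem_univ i)))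
      have hB : ∀ i, c (κ.B i) = c' (κ.B i) := fun i => h _ (by
        unfold Cfg.V
        exact Finset.mem_union_right _ (Finset.mem_image_of_mem _ (Finset.mem_univ i)))
      simp only [Psi, pk, hP, hB])
    (fun κ => ENNReal.ofReal (8 / η + 1) ^ k *
      ENNReal.ofReal (A * (ρ * (2 : ℝ) ^ κ.j) ^ ((n : ℝ) - b)))
    (by
      intro κ
      have h1 : 0 < ENNReal.ofReal (8 / η + 1) ^ k := by
        apply ENNReal.pow_pos
        rw [ENNReal.ofReal_pos]; positivity
      have h2 : 0 < ENNReal.ofReal (A * (ρ * (2 : ℝ) ^ κ.j) ^ ((n : ℝ) - b)) := by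
        rw [ENNReal.ofReal_pos]; positivity
      exact (ENNReal.mul_pos h1.ne' h2.ne').ne')
    (by
      intro κ
      exact ENNReal.mul_ne_top (ENNReal.pow_ne_top ENNReal.ofReal_ne_top) ENNReal.ofReal_ne_top)
    (by
      intro κ c
      refine (lmarginal_Psi_le hW hη hη1 _ κ.P κ.B κ.inj κ.ne κ.V ?_ c).trans ?_
      · unfold Cfg.V
        exact Finset.subset_union_left
      · gcongr
        exact hE _ _ (by positivity))
    (Icc (0 : ℝ) (1 / 4)) um_compl
  obtain ⟨c, hc, hcκ⟩ := key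
  refine ⟨c, hc, fun κ => (hcκ κ).trans (le_of_eq ?_)⟩
  have e1 : ((D : ℝ≥0∞) + 1) ^ (2 * k) = ENNReal.ofReal (((D : ℝ) + 1) ^ (2 * k)) := by
    rw [ENNReal.ofReal_pow (by positivity), ENNReal.ofReal_add (by positivity) (by norm_num)]
    simp
  rw [e1, ← ENNReal.ofReal_pow (by positivity), ← ENNReal.ofReal_mul (by positivity),
    ← ENNReal.ofReal_mul (by positivity)]
  congr 1
  rw [Real.mul_rpow hρ.le (by positivity)]
  ring

lemma hat_lipschitz {n : ℕ} (hn : 0 < n) (p : Vtx n) (j : ℤ) (hj : j - 1 ≤ p.2) (x y : E n) :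
    |hat p y - hat p x| ≤ 2 * ((2 : ℝ) ^ j)⁻¹ * ‖y - x‖ := by
  have hsq : 1 ≤ Real.sqrt n := by
    rw [Real.one_le_sqrt]
    exact_mod_cast hn
  have h2 : (0 : ℝ) < (2 : ℝ) ^ p.2 := by positivity
  have h2j : (0 : ℝ) < (2 : ℝ) ^ j := by positivity
  have hmono : (2 : ℝ) ^ j ≤ 2 * (2 : ℝ) ^ p.2 := by
    have : (2 : ℝ) ^ j ≤ (2 : ℝ) ^ (p.2 + 1) := zpow_le_zpow_right₀ (by norm_num) (by omega)
    rw [zpow_add₀ (by norm_num)] at this
    linarith
  have hS : (0 : ℝ) < Real.sqrt n * (2 : ℝ) ^ p.2 := by positivity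
  have hle : |hat p y - hat p x| ≤
      |(1 - ‖y - vpos p‖ / (Real.sqrt n * (2 : ℝ) ^ p.2)) -
        (1 - ‖x - vpos p‖ / (Real.sqrt n * (2 : ℝ) ^ p.2))| := by
    unfold hat
    have := abs_max_sub_max_le_abs (1 - ‖y - vpos p‖ / (Real.sqrt n * (2 : ℝ) ^ p.2))
      (1 - ‖x - vpos p‖ / (Real.sqrt n * (2 : ℝ) ^ p.2)) 0
    rwa [max_comm _ (0 : ℝ), max_comm _ (0 : ℝ)] at this
  refine hle.trans ?_
  have e1 : (1 - ‖y - vpos p‖ / (Real.sqrt n * (2 : ℝ) ^ p.2)) -
        (1 - ‖x - vpos p‖ / (Real.sqrt n * (2 : ℝ) ^ p.2)) =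
      (‖x - vpos p‖ - ‖y - vpos p‖) / (Real.sqrt n * (2 : ℝ) ^ p.2) := by ring
  rw [e1, abs_div, abs_of_pos hS, div_le_iff₀ hS]
  have h3 : |‖x - vpos p‖ - ‖y - vpos p‖| ≤ ‖y - x‖ := by
    refine (abs_norm_sub_norm_le _ _).trans ?_
    rw [show x - vpos p - (y - vpos p) = -(y - x) by abel, norm_neg]
  refine h3.trans ?_
  have h4 : 1 ≤ 2 * ((2 : ℝ) ^ j)⁻¹ * (Real.sqrt n * (2 : ℝ) ^ p.2) := by
    have h5 : (2 : ℝ) ^ j ≤ 2 * (Real.sqrt n * (2 : ℝ) ^ p.2) := by nlinarith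
    calc (1 : ℝ) = ((2 : ℝ) ^ j)⁻¹ * (2 : ℝ) ^ j := by field_simp
      _ ≤ ((2 : ℝ) ^ j)⁻¹ * (2 * (Real.sqrt n * (2 : ℝ) ^ p.2)) := by gcongr
      _ = _ := by ring
  have h6 : 0 ≤ ‖y - x‖ := norm_nonneg _
  nlinarith

lemma dist_lt_of_hat_pos {n : ℕ} (hn : 0 < n) (p : Vtx n) (j : ℤ) (hj : p.2 ≤ j) (x : E n)
    (h : 0 < hat p x) : ‖x - vpos p‖ < Real.sqrt n * (2 : ℝ) ^ j := by
  have hsq : 1 ≤ Real.sqrt n := by
    rw [Real.one_le_sqrt]
    exact_mod_cast hn
  have h2 : (0 : ℝ) < (2 : ℝ) ^ p.2 := by positivity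
  have hmono : (2 : ℝ) ^ p.2 ≤ (2 : ℝ) ^ j := zpow_le_zpow_right₀ (by norm_num) hj
  have hS : (0 : ℝ) < Real.sqrt n * (2 : ℝ) ^ p.2 := by positivity
  unfold hat at h
  rw [lt_max_iff] at h
  rcases h with h | h
  · exact absurd h (lt_irrefl _)
  · have h3 : ‖x - vpos p‖ / (Real.sqrt n * (2 : ℝ) ^ p.2) < 1 := by linarith
    rw [div_lt_one hS] at h3
    refine h3.trans_le ?_
    gcongr

/-- choice of base points -/
lemma exists_bases {n : ℕ} (k : ℕ) (S : Finset (Vtx n)) (hS : S.card = k + 2) (j : ℤ)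
    (hlev : ∀ p ∈ S, p.2 = j ∨ p.2 = j - 1) :
    ∃ P B : Fin k → Vtx n, Function.Injective P ∧ (∀ i l, B i ≠ P l) ∧
      (∀ i, P i ∈ S) ∧ (∀ i, B i ∈ S) ∧ ∀ i, (P i).2 = (B i).2 := by
  classical
  obtain ⟨b₁, b₂, hb₁, hb₂, hne, β, hβ⟩ : ∃ b₁ b₂ : Vtx n, b₁ ∈ S ∧ b₂ ∈ S ∧ b₁ ≠ b₂ ∧
      ∃ β : Vtx n → Vtx n, ∀ p ∈ S, (β p = b₁ ∨ β p = b₂) ∧ (β p).2 = p.2 := by
    by_cases hex : ∃ p ∈ S, ∃ q ∈ S, p.2 ≠ q.2
    · obtain ⟨p, hp, q, hq, hpq⟩ := hex
      refine ⟨p, q, hp, hq, fun h => hpq (by rw [h]), fun r => if r.2 = p.2 then p else q, ?_⟩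
      intro r hr
      by_cases hrp : r.2 = p.2
      · simp [hrp]
      · simp only [hrp, if_false, or_true, true_and]
        rcases hlev p hp with h1 | h1 <;> rcases hlev q hq with h2 | h2 <;>
          rcases hlev r hr with h3 | h3 <;> first | omega | (exfalso; apply hpq; omega)
    · push Not at hex
      have hcard : 1 < S.card := by omega
      obtain ⟨b₁, hb₁, b₂, hb₂, hne⟩ := Finset.one_lt_card.mp hcard
      exact ⟨b₁, b₂, hb₁, hb₂, hne, fun _ => b₁, fun r hr => ⟨Or.inl rfl, hex _ hb₁ _ hr⟩⟩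
  set R := (S.erase b₁).erase b₂ with hR
  have hRcard : R.card = k := by
    rw [hR, Finset.card_erase_of_mem, Finset.card_erase_of_mem hb₁, hS]
    · rfl
    · exact Finset.mem_erase.mpr ⟨hne.symm, hb₂⟩
  let e := R.equivFinOfCardEq hRcard
  have hRmem : ∀ q ∈ R, q ∈ S ∧ q ≠ b₁ ∧ q ≠ b₂ := by
    intro q hq
    rw [hR, Finset.mem_erase, Finset.mem_erase] at hq
    exact ⟨hq.2.2, hq.2.1, hq.1⟩
  have hPmem : ∀ i, ((e.symm i : R) : Vtx n) ∈ S ∧ ((e.symm i : R) : Vtx n) ≠ b₁ ∧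
      ((e.symm i : R) : Vtx n) ≠ b₂ := fun i => hRmem _ (e.symm i).2
  refine ⟨fun i => (e.symm i : R), fun i => β (e.symm i : R), ?_, ?_, ?_, ?_, ?_⟩
  · intro i l h
    exact e.symm.injective (Subtype.ext h)
  · intro i l h
    simp only at h
    rcases (hβ _ (hPmem i).1).1 with h1 | h1
    · exact (hPmem l).2.1 (h.symm.trans h1)
    · exact (hPmem l).2.2 (h.symm.trans h1)
  · exact fun i => (hPmem i).1
  · intro i
    rcases (hβ _ (hPmem i).1).1 with h1 | h1
    · simp only [h1]; exact hb₁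
    · simp only [h1]; exact hb₂
  · intro i
    exact ((hβ _ (hPmem i).1).2).symm

theorem exists_generic (n k : ℕ) (hn : 0 < n) (hk : 0 < k) (b A lam : ℝ) (hb : 1 ≤ b)
    (hbk : (n : ℝ) - k < b) (hA : 0 < A) (hlam : 1 ≤ lam) :
    ∃ Lam : ℝ, 0 < Lam ∧ ∀ W : E n → ℝ≥0∞, Measurable W →
      (∀ (x : E n) (r : ℝ), 0 < r →
        ∫⁻ y in Metric.ball x r, W y ^ b ≤ ENNReal.ofReal (A * r ^ ((n : ℝ) - b))) →
      ∃ c : Vtx n → ℝ, (∀ p, c p ∈ Icc (0 : ℝ) (1 / 4)) ∧
        ∀ (x : E n) (j : ℤ) (S : Finset (Vtx n)), S.card = k + 2 →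
          (∀ p ∈ S, p.2 = j ∨ p.2 = j - 1) → (∀ p ∈ S, 0 < hat p x) →
          (∀ p ∈ S, ∀ q ∈ S, p.2 = q.2 → hat p x - c p = hat q x - c q) →
          pot W x (lam * (2 : ℝ) ^ j) ≤ ENNReal.ofReal Lam := by
  classical
  have hk0 : (0 : ℝ) < k := by exact_mod_cast hk
  obtain ⟨η, hη, hη1, hηb⟩ : ∃ η : ℝ, 0 < η ∧ η < 1 ∧ (n : ℝ) - k * (1 - η) < b := by
    refine ⟨min (1 / 2) ((b - (n - k)) / (2 * k)), ?_, ?_, ?_⟩
    · apply lt_min (by norm_num)
      apply div_pos (by linarith) (by positivity)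
    · exact (min_le_left _ _).trans_lt (by norm_num)
    · have h1 : (k : ℝ) * min (1 / 2) ((b - (n - k)) / (2 * k)) ≤ (b - (n - k)) / 2 := by
        calc (k : ℝ) * min (1 / 2) ((b - (n - k)) / (2 * k)) ≤ k * ((b - (n - k)) / (2 * k)) := by
              gcongr; exact min_le_right _ _
          _ = (b - (n - k)) / 2 := by field_simp
      nlinarith
  have hs0 : 0 ≤ Real.sqrt n := Real.sqrt_nonneg _
  obtain ⟨M₀, hM₀, hshift⟩ := exists_shift n k hk b A (2 * lam + Real.sqrt n) η hη hη1 hA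
    (by positivity)
  obtain ⟨C, hC, hpot⟩ := pot_le_of_energy n k hn b η hb hη hη1 hηb
  set κ' : ℝ := (k : ℝ) * (1 - η) with hκ'
  refine ⟨C * ((4 : ℝ) ^ κ' * M₀) ^ (1 / b) * lam ^ (1 - ((n : ℝ) - κ') / b), by positivity, ?_⟩
  intro W hW hE
  obtain ⟨c, hc, hcκ⟩ := hshift W hW hE
  refine ⟨c, hc, ?_⟩
  intro x j S hS hlev hpos hties
  obtain ⟨P, B, hinj, hne, hPS, hBS, hPB⟩ := exists_bases k S hS j hlev
  have hmemS : ∀ q ∈ Finset.univ.image P ∪ Finset.univ.image B, q ∈ S := by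
    intro q hq
    rw [Finset.mem_union, Finset.mem_image, Finset.mem_image] at hq
    rcases hq with ⟨i, _, rfl⟩ | ⟨i, _, rfl⟩
    · exact hPS i
    · exact hBS i
  have hjle : ∀ q ∈ S, q.2 ≤ j := by
    intro q hq
    rcases hlev q hq with h | h <;> omega
  have hdist : ∀ q ∈ S, ‖x - vpos q‖ < Real.sqrt n * (2 : ℝ) ^ j := fun q hq =>
    dist_lt_of_hat_pos hn q j (hjle q hq) x (hpos q hq)
  let κ : Cfg n k :=
    { j := j, P := P, B := B, inj := hinj, ne := hne
      lev := fun q hq => hlev q (hmemS q hq)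
      near := by
        intro q hq q' hq'
        have h1 := hdist q (hmemS q hq)
        have h2 := hdist q' (hmemS q' hq')
        calc ‖vpos q - vpos q'‖ = ‖(x - vpos q') - (x - vpos q)‖ := by congr 1; abel
          _ ≤ ‖x - vpos q'‖ + ‖x - vpos q‖ := norm_sub_le _ _
          _ ≤ 2 * Real.sqrt n * (2 : ℝ) ^ j := by linarith }
  have h2j : (0 : ℝ) < (2 : ℝ) ^ j := by positivity
  have hΨ := hcκ κ
  have hlam0 : 0 < lam := by linarith
  have hmain := hpot W hW x (lam * (2 : ℝ) ^ j) (4 * ((2 : ℝ) ^ j)⁻¹)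
    (M₀ * ((2 : ℝ) ^ j) ^ ((n : ℝ) - b)) (by positivity) (by positivity) (by positivity)
    (fun i y => hat (P i) y - hat (B i) y - (c (P i) - c (B i)))
    (fun i => ((continuous_hat _).measurable.sub (continuous_hat _).measurable).sub_const _)
    (by
      intro i y
      have h0 : hat (P i) x - hat (B i) x - (c (P i) - c (B i)) = 0 := by
        have := hties (P i) (hPS i) (B i) (hBS i) (hPB i)
        linarith
      have hjP : j - 1 ≤ (P i).2 := by rcases hlev _ (hPS i) with h | h <;> omega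
      have hjB : j - 1 ≤ (B i).2 := by rcases hlev _ (hBS i) with h | h <;> omega
      have h1 := hat_lipschitz hn (P i) j hjP x y
      have h2 := hat_lipschitz hn (B i) j hjB x y
      have h3 : hat (P i) y - hat (B i) y - (c (P i) - c (B i)) =
          (hat (P i) y - hat (P i) x) - (hat (B i) y - hat (B i) x) := by linarith
      rw [h3]
      refine (abs_sub _ _).trans ?_
      linarith)
    (by
      refine le_trans ?_ hΨ
      unfold Psi pk sk
      apply lintegral_mono_set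
      apply Metric.ball_subset_ball'
      have h1 := hdist _ (hPS ⟨0, hk⟩)
      rw [dist_eq_norm]
      change 2 * (lam * (2 : ℝ) ^ j) + ‖x - vpos (P ⟨0, hk⟩)‖ ≤
        (2 * lam + Real.sqrt n) * (2 : ℝ) ^ j
      linarith)
  refine hmain.trans (ENNReal.ofReal_le_ofReal (le_of_eq ?_))
  set t : ℝ := (2 : ℝ) ^ j with ht
  have hb0 : 0 < b := by linarith
  have e1 : (4 * t⁻¹) ^ κ' * (M₀ * t ^ ((n : ℝ) - b)) =
      ((4 : ℝ) ^ κ' * M₀) * t ^ ((n : ℝ) - b - κ') := by
    rw [Real.mul_rpow (by norm_num) (by positivity), Real.inv_rpow h2j.le,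
      Real.rpow_sub h2j ((n : ℝ) - b) κ']
    field_simp
  rw [e1, Real.mul_rpow (by positivity) (by positivity), Real.mul_rpow hlam0.le h2j.le,
    ← Real.rpow_mul h2j.le]
  have e2 : t ^ (((n : ℝ) - b - κ') * (1 / b)) * t ^ (1 - ((n : ℝ) - κ') / b) = 1 := by
    rw [← Real.rpow_add h2j]
    have : ((n : ℝ) - b - κ') * (1 / b) + (1 - ((n : ℝ) - κ') / b) = 0 := by
      field_simp
      ring
    rw [this, Real.rpow_zero]
  calc C * (((4 : ℝ) ^ κ' * M₀) ^ (1 / b) * t ^ (((n : ℝ) - b - κ') * (1 / b))) *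
        (lam ^ (1 - ((n : ℝ) - κ') / b) * t ^ (1 - ((n : ℝ) - κ') / b))
      = C * ((4 : ℝ) ^ κ' * M₀) ^ (1 / b) * lam ^ (1 - ((n : ℝ) - κ') / b) *
        (t ^ (((n : ℝ) - b - κ') * (1 / b)) * t ^ (1 - ((n : ℝ) - κ') / b)) := by ring
    _ = _ := by rw [e2, mul_one]

end Vale.Agent.P210
end
end

section

section

open scoped ENNReal ContDiff
open MeasureTheory Set

namespace Vale.Agent.P210

/-- the length of the segment in direction `z` -/
noncomputable def segLen {n : ℕ} (W : E n → ℝ≥0∞) (x : E n) (R : ℝ) (z : E n) : ℝ≥0∞ :=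
  ∫⁻ s in Ioo 0 R, W (x + s • z)

lemma measurable_segLen {n : ℕ} {W : E n → ℝ≥0∞} (hW : Measurable W) (x : E n) (R : ℝ) :
    Measurable (segLen W x R) := by
  unfold segLen
  have : Measurable (fun q : E n × ℝ => W (x + q.2 • q.1)) := by fun_prop
  exact this.lintegral_prod_right'

/-- Tonelli for the potential -/
lemma pot_eq {n : ℕ} {W : E n → ℝ≥0∞} (hW : Measurable W) (x : E n) (R : ℝ) :
    pot W x R = ∫⁻ z, ker z * segLen W x R z := by
  unfold pot av segLen
  rw [lintegral_lintegral_swap]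
  · congr 1
    ext z
    rw [lintegral_const_mul]
    fun_prop
  · have h1 : Measurable (fun q : ℝ × E n => W (x + q.1 • q.2)) := by fun_prop
    have h2 : Measurable (fun q : ℝ × E n => ker q.2) := measurable_ker.comp measurable_snd
    exact (h2.mul h1).aemeasurable

lemma setLIntegral_segLen_le {n : ℕ} {W : E n → ℝ≥0∞} (hW : Measurable W) (x : E n) (R : ℝ) :
    ∫⁻ z in Metric.ball (0 : E n) 1, segLen W x R z ≤ pot W x R := by
  rw [pot_eq hW, ← lintegral_indicator Metric.isOpen_ball.measurableSet]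
  apply lintegral_mono
  intro z
  by_cases hz : z ∈ Metric.ball (0 : E n) 1
  · rw [indicator_of_mem hz]
    rw [Metric.mem_ball, dist_zero_right] at hz
    show segLen W x R z ≤ ker z * segLen W x R z
    rw [ker_eq_one hz.le, one_mul]
  · rw [indicator_of_notMem hz]
    exact zero_le

lemma bad_measure {n : ℕ} {W : E n → ℝ≥0∞} (hW : Measurable W) (x : E n) (R : ℝ) {L M : ℝ}
    (hM : 0 < M) (h : pot W x R ≤ ENNReal.ofReal L) :
    volume {z | z ∈ Metric.ball (0 : E n) 1 ∧ ENNReal.ofReal M ≤ segLen W x R z} ≤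
      ENNReal.ofReal (L / M) := by
  have h1 := mul_meas_ge_le_lintegral₀
    (μ := volume.restrict (Metric.ball (0 : E n) 1)) (f := segLen W x R)
    (measurable_segLen hW x R).aemeasurable (ENNReal.ofReal M)
  have h2 := (h1.trans (setLIntegral_segLen_le hW x R)).trans h
  have hms : MeasurableSet {z | ENNReal.ofReal M ≤ segLen W x R z} :=
    measurableSet_le measurable_const (measurable_segLen hW x R)
  rw [Measure.restrict_apply hms] at h2
  have h3 : {z | z ∈ Metric.ball (0 : E n) 1 ∧ ENNReal.ofReal M ≤ segLen W x R z} =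
      {z | ENNReal.ofReal M ≤ segLen W x R z} ∩ Metric.ball (0 : E n) 1 := by
    ext z
    exact and_comm
  rw [h3, ENNReal.ofReal_div_of_pos hM, ENNReal.le_div_iff_mul_le
    (Or.inl (by simpa using hM)) (Or.inl ENNReal.ofReal_ne_top), mul_comm]
  exact h2

lemma lintegral_Ioo_scale (F : ℝ → ℝ≥0∞) (hF : Measurable F) {R : ℝ} (hR : 0 < R) :
    ∫⁻ t in Ioo 0 R, F t = ENNReal.ofReal R * ∫⁻ s in Ioo (0 : ℝ) 1, F (R * s) := by
  have hv : (volume : Measure ℝ) = ENNReal.ofReal |R| • Measure.map (R * ·) volume :=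
    (Real.smul_map_volume_mul_left hR.ne').symm
  rw [← lintegral_indicator measurableSet_Ioo]
  conv_lhs => rw [hv]
  rw [lintegral_smul_measure, lintegral_map (hF.indicator measurableSet_Ioo) (by fun_prop),
    abs_of_pos hR, smul_eq_mul, ← lintegral_indicator measurableSet_Ioo]
  congr 2
  ext s
  by_cases hs : s ∈ Ioo (0 : ℝ) 1
  · rw [indicator_of_mem hs, indicator_of_mem]
    exact ⟨mul_pos hR hs.1, by nlinarith [hs.2]⟩
  · rw [indicator_of_notMem hs, indicator_of_notMem]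
    rintro ⟨h1, h2⟩
    refine hs ⟨?_, ?_⟩
    · exact pos_of_mul_pos_right h1 hR.le
    · by_contra hcon
      push Not at hcon
      nlinarith

lemma good_endpoint {n : ℕ} {Ω : Set (E n)} {W : E n → ℝ≥0∞} {b A : ℝ} (h : IsWeight Ω W b A)
    {x : E n} (hx : x ∈ Ω) {R : ℝ} (hR : 0 < R) {M : ℝ} {z : E n} (hz : ‖z‖ ≤ 1)
    (hM : segLen W x R z ≤ ENNReal.ofReal M) (p : E n) (hp : p - x = R • z) :
    (∀ s ∈ Icc (0 : ℝ) 1, x + s • (p - x) ∈ Ω) ∧
      ∫⁻ s in Ioo (0 : ℝ) 1, W (x + s • (p - x)) * ‖p - x‖ₑ ≤ ENNReal.ofReal M := by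
  have hW := h.meas
  constructor
  · intro s hs
    rw [hp, smul_smul]
    apply h.seg x hx z R hR (lt_of_le_of_lt hM ENNReal.ofReal_lt_top)
    exact ⟨mul_nonneg hs.1 hR.le, by nlinarith [hs.2]⟩
  · rw [hp]
    have h1 : ∀ s : ℝ, W (x + s • R • z) * ‖R • z‖ₑ = ‖R • z‖ₑ * W (x + (R * s) • z) := by
      intro s
      rw [smul_smul, mul_comm s R, mul_comm]
    simp only [h1]
    rw [lintegral_const_mul _ (by fun_prop)]
    unfold segLen at hM
    rw [lintegral_Ioo_scale (fun s => W (x + s • z)) (by fun_prop) hR] at hM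
    refine le_trans ?_ hM
    gcongr
    rw [← ofReal_norm, norm_smul, Real.norm_of_nonneg hR.le]
    apply ENNReal.ofReal_le_ofReal
    nlinarith

theorem good_pair (n : ℕ) (_hn : 0 < n) : ∃ C₀ : ℝ, 0 < C₀ ∧ ∀ (Ω : Set (E n)) (W : E n → ℝ≥0∞)
    (b A : ℝ), IsWeight Ω W b A → ∀ x ∈ Ω, ∀ y ∈ Ω, ∀ R L : ℝ, 0 < R → 0 < L → ‖x - y‖ ≤ R →
    pot W x R ≤ ENNReal.ofReal L → pot W y R ≤ ENNReal.ofReal L →
    ∃ p : E n, (∀ s ∈ Icc (0 : ℝ) 1, x + s • (p - x) ∈ Ω) ∧
      (∀ s ∈ Icc (0 : ℝ) 1, y + s • (p - y) ∈ Ω) ∧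
      ∫⁻ s in Ioo (0 : ℝ) 1, W (x + s • (p - x)) * ‖p - x‖ₑ ≤ ENNReal.ofReal (C₀ * L) ∧
      ∫⁻ s in Ioo (0 : ℝ) 1, W (y + s • (p - y)) * ‖p - y‖ₑ ≤ ENNReal.ofReal (C₀ * L) := by
  set v : ℝ := (volume (Metric.ball (0 : E n) (1 / 2))).toReal with hv
  have hv0 : 0 < v :=
    ENNReal.toReal_pos (Metric.measure_ball_pos _ _ (by norm_num)).ne' measure_ball_lt_top.ne
  refine ⟨4 / v, by positivity, ?_⟩
  intro Ω W b A hW x hx y hy R L hR hL hxy hpx hpy
  set M : ℝ := 4 / v * L with hM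
  have hM0 : 0 < M := by positivity
  set w : E n := R⁻¹ • (x - y) with hw
  have hw1 : ‖w‖ ≤ 1 := by
    rw [hw, norm_smul, norm_inv, Real.norm_of_nonneg hR.le, inv_mul_le_iff₀ hR, mul_one]
    exact hxy
  set Bx : Set (E n) := {z | z ∈ Metric.ball (0 : E n) 1 ∧ ENNReal.ofReal M ≤ segLen W x R z}
  set By : Set (E n) := {z | z ∈ Metric.ball (0 : E n) 1 ∧ ENNReal.ofReal M ≤ segLen W y R z}
  have hBx : volume Bx ≤ ENNReal.ofReal (L / M) := bad_measure hW.meas x R hM0 hpx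
  have hBy : volume By ≤ ENNReal.ofReal (L / M) := bad_measure hW.meas y R hM0 hpy
  have hLM : L / M = v / 4 := by rw [hM]; field_simp
  -- a good direction
  obtain ⟨z, hzU, hzx, hzy⟩ : ∃ z ∈ Metric.ball (-((1 / 2 : ℝ) • w)) (1 / 2), z ∉ Bx ∧
      w + z ∉ By := by
    by_contra hcon
    push Not at hcon
    have hsub : Metric.ball (-((1 / 2 : ℝ) • w)) (1 / 2) ⊆ Bx ∪ (fun z => w + z) ⁻¹' By := by
      intro z hz
      by_cases hzx : z ∈ Bx
      · exact Or.inl hzx
      · exact Or.inr (hcon z hz hzx)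
    have h1 : volume (Metric.ball (-((1 / 2 : ℝ) • w)) (1 / 2)) ≤
        ENNReal.ofReal (v / 4) + ENNReal.ofReal (v / 4) := by
      calc volume (Metric.ball (-((1 / 2 : ℝ) • w)) (1 / 2))
          ≤ volume (Bx ∪ (fun z => w + z) ⁻¹' By) := measure_mono hsub
        _ ≤ volume Bx + volume ((fun z => w + z) ⁻¹' By) := measure_union_le _ _
        _ = volume Bx + volume By := by rw [measure_preimage_add]
        _ ≤ _ := by rw [← hLM]; exact add_le_add hBx hBy
    have h2 : volume (Metric.ball (-((1 / 2 : ℝ) • w)) (1 / 2)) = ENNReal.ofReal v := by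
      rw [Measure.addHaar_ball_center, hv, ENNReal.ofReal_toReal measure_ball_lt_top.ne]
    rw [h2, ← ENNReal.ofReal_add (by positivity) (by positivity),
      ENNReal.ofReal_le_ofReal_iff (by positivity)] at h1
    linarith
  rw [Metric.mem_ball, dist_eq_norm, sub_neg_eq_add] at hzU
  have hwhalf : ‖(1 / 2 : ℝ) • w‖ ≤ 1 / 2 := by
    rw [norm_smul, Real.norm_of_nonneg (by norm_num)]
    linarith
  have hz1 : ‖z‖ < 1 := by
    have : z = (z + (1 / 2 : ℝ) • w) - (1 / 2 : ℝ) • w := by abel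
    rw [this]
    linarith [norm_sub_le (z + (1 / 2 : ℝ) • w) ((1 / 2 : ℝ) • w)]
  have hwz1 : ‖w + z‖ < 1 := by
    have : w + z = (z + (1 / 2 : ℝ) • w) + (1 / 2 : ℝ) • w := by
      rw [add_assoc, ← add_smul, show (1 / 2 : ℝ) + 1 / 2 = 1 by norm_num, one_smul, add_comm]
    rw [this]
    linarith [norm_add_le (z + (1 / 2 : ℝ) • w) ((1 / 2 : ℝ) • w)]
  have hgx : segLen W x R z ≤ ENNReal.ofReal M := by
    by_contra hcon
    exact hzx ⟨by rw [Metric.mem_ball, dist_zero_right]; exact hz1, (not_le.1 hcon).le⟩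
  have hgy : segLen W y R (w + z) ≤ ENNReal.ofReal M := by
    by_contra hcon
    exact hzy ⟨by rw [Metric.mem_ball, dist_zero_right]; exact hwz1, (not_le.1 hcon).le⟩
  have hRw : R • w = x - y := by
    rw [hw, smul_smul, mul_inv_cancel₀ hR.ne', one_smul]
  obtain ⟨a1, a2⟩ := good_endpoint hW hx hR hz1.le hgx (x + R • z) (by abel)
  obtain ⟨b1, b2⟩ := good_endpoint hW hy hR hwz1.le hgy (x + R • z) (by
    rw [smul_add, hRw]; abel)
  exact ⟨x + R • z, a1, b1, a2, b2⟩

end Vale.Agent.P210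
end
end

section

section

open scoped ENNReal ContDiff Topology
open MeasureTheory Set Filter

namespace Vale.Agent.P210

variable {n : ℕ} {Ω : Set (E n)} {W : E n → ℝ≥0∞} {b A : ℝ}

lemma lintegral_ball_lt_top (hb : 1 < b) (h : IsWeight Ω W b A) (x : E n) {r : ℝ} (hr : 0 < r) :
    ∫⁻ y in Metric.ball x r, W y < ⊤ := by
  refine lt_of_le_of_lt (lintegral_le_rpow (volume.restrict (Metric.ball x r)) hb.le
    h.meas.aemeasurable) ?_
  apply ENNReal.mul_lt_top
  · apply ENNReal.rpow_lt_top_of_nonneg (by positivity)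
    exact ((h.energy x r hr).trans_lt ENNReal.ofReal_lt_top).ne
  · apply ENNReal.rpow_lt_top_of_nonneg
    · rw [sub_nonneg, div_le_one (by linarith)]; exact hb.le
    · rw [Measure.restrict_apply_univ]
      exact measure_ball_lt_top.ne

lemma av_eq (hW : Measurable W) (x : E n) {s : ℝ} (hs : 0 < s) :
    av W x s = ENNReal.ofReal ((s ^ n)⁻¹) * ∫⁻ y, ker (s⁻¹ • (y - x)) * W y := by
  have hm : Measurable (fun y : E n => ker (s⁻¹ • (y - x)) * W y) :=
    (measurable_ker.comp (by fun_prop)).mul hW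
  rw [← lintegral_comp_scale _ hm x hs]
  unfold av
  congr 1
  ext z
  rw [add_sub_cancel_left, smul_smul, inv_mul_cancel₀ hs.ne', one_smul]

lemma continuous_av (hb : 1 < b) (h : IsWeight Ω W b A) {s : ℝ} (hs : 0 < s) (x₀ : E n) :
    Tendsto (fun x => av W x s) (𝓝 x₀) (𝓝 (av W x₀ s)) := by
  have hW := h.meas
  simp only [av_eq hW _ hs]
  refine ENNReal.Tendsto.const_mul ?_ (Or.inr ENNReal.ofReal_ne_top)
  refine tendsto_lintegral_filter_of_dominated_convergence
    ((Metric.ball x₀ (3 * s)).indicator W) ?_ ?_ ?_ ?_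
  · exact Eventually.of_forall fun x => (measurable_ker.comp (by fun_prop)).mul hW
  · filter_upwards [Metric.ball_mem_nhds x₀ hs] with x hx
    refine Eventually.of_forall fun y => ?_
    by_cases hy : y ∈ Metric.ball x₀ (3 * s)
    · rw [indicator_of_mem hy]
      calc ker (s⁻¹ • (y - x)) * W y ≤ 1 * W y := by gcongr; exact ker_le_one _
        _ = W y := one_mul _
    · rw [ker_eq_zero, zero_mul]
      · exact zero_le
      · rw [Metric.mem_ball, not_lt] at hy
        rw [Metric.mem_ball] at hx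
        rw [norm_smul, norm_inv, Real.norm_of_nonneg hs.le, ← dist_eq_norm, inv_mul_eq_div,
          le_div_iff₀ hs]
        have := dist_triangle y x x₀
        linarith
  · rw [lintegral_indicator Metric.isOpen_ball.measurableSet]
    exact (lintegral_ball_lt_top hb h x₀ (by positivity)).ne
  · have hae : ∀ᵐ y ∂(volume : Measure (E n)), W y < ⊤ := by
      have h1 : ∀ N : ℕ, ∀ᵐ y ∂(volume.restrict (Metric.ball (0 : E n) (N + 1))), W y < ⊤ :=
        fun N => ae_lt_top hW (lintegral_ball_lt_top hb h 0 (by positivity)).ne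
      have h2 : ∀ᵐ y ∂(volume.restrict (⋃ N : ℕ, Metric.ball (0 : E n) (N + 1))), W y < ⊤ := by
        rw [ae_restrict_iUnion_iff]
        exact h1
      have h3 : (⋃ N : ℕ, Metric.ball (0 : E n) ((N : ℝ) + 1)) = univ := by
        ext y
        simp only [mem_iUnion, Metric.mem_ball, dist_zero_right, mem_univ, iff_true]
        obtain ⟨N, hN⟩ := exists_nat_gt ‖y‖
        exact ⟨N, by linarith⟩
      rwa [h3, Measure.restrict_univ] at h2
    filter_upwards [hae] with y hy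
    refine ENNReal.Tendsto.mul_const ?_ (Or.inr hy.ne)
    exact (continuous_ker.comp (by fun_prop : Continuous fun x : E n => s⁻¹ • (y - x))).tendsto x₀

lemma av_local_bound (hb : 1 < b) (h : IsWeight Ω W b A) {x₀ : E n} (hx₀ : x₀ ∈ Ω) :
    ∃ M : ℝ≥0∞, M < ⊤ ∧ ∀ᶠ x in 𝓝 x₀, ∀ s : ℝ, 0 < s → av W x s ≤ M := by
  have hW := h.meas
  have hb0 : 0 < b := by linarith
  obtain ⟨ε, hε, hεΩ⟩ := Metric.isOpen_iff.1 h.isOpen x₀ hx₀
  set δ := ε / 6 with hδ
  have hδ0 : 0 < δ := by positivity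
  have hK : Metric.closedBall x₀ (3 * δ) ⊆ Ω :=
    (Metric.closedBall_subset_ball (by rw [hδ]; linarith)).trans hεΩ
  obtain ⟨y₀, hy₀, hmax⟩ := (isCompact_closedBall x₀ (3 * δ)).exists_isMaxOn
    ⟨x₀, Metric.mem_closedBall_self (by positivity)⟩ (h.cont.mono hK)
  set V := volume (Metric.ball (0 : E n) 2) with hV
  have hVtop : V < ⊤ := measure_ball_lt_top
  set M₂ : ℝ≥0∞ := (ENNReal.ofReal (|A| * 2 ^ ((n : ℝ) - b) * δ ^ (-b))) ^ (1 / b)
      * V ^ (1 - 1 / b) with hM₂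
  have h1b : 0 ≤ 1 - 1 / b := by rw [sub_nonneg, div_le_one hb0]; exact hb.le
  refine ⟨W y₀ * V + M₂, ?_, ?_⟩
  · apply ENNReal.add_lt_top.2 ⟨ENNReal.mul_lt_top (h.lt_top _ (hK hy₀)) hVtop, ?_⟩
    exact ENNReal.mul_lt_top (ENNReal.rpow_lt_top_of_nonneg (by positivity) ENNReal.ofReal_ne_top)
      (ENNReal.rpow_lt_top_of_nonneg h1b hVtop.ne)
  · filter_upwards [Metric.ball_mem_nhds x₀ hδ0] with x hx s hs
    rw [Metric.mem_ball] at hx
    rcases le_total s δ with hsδ | hsδ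
    · refine le_trans ?_ le_self_add
      calc av W x s ≤ ∫⁻ z, (Metric.ball (0 : E n) 2).indicator (fun _ => W y₀) z := by
            unfold av
            apply lintegral_mono
            intro z
            refine (ker_mul_le z _).trans ?_
            by_cases hz : z ∈ Metric.ball (0 : E n) 2
            · rw [indicator_of_mem hz, indicator_of_mem hz]
              apply hmax
              rw [Metric.mem_ball, dist_zero_right] at hz
              rw [Metric.mem_closedBall, dist_eq_norm]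
              rw [dist_eq_norm] at hx
              have h1 : x + s • z - x₀ = (x - x₀) + s • z := by abel
              rw [h1]
              refine (norm_add_le _ _).trans ?_
              rw [norm_smul, Real.norm_of_nonneg hs.le]
              nlinarith [norm_nonneg z]
            · rw [indicator_of_notMem hz, indicator_of_notMem hz]
        _ = W y₀ * V := by
            rw [lintegral_indicator Metric.isOpen_ball.measurableSet, lintegral_const,
              Measure.restrict_apply_univ]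
    · refine le_trans ?_ le_add_self
      refine (av_le hW hb.le x hs).trans ?_
      rw [hM₂]
      gcongr
      calc ENNReal.ofReal ((s ^ n)⁻¹) * ∫⁻ y in Metric.ball x (2 * s), W y ^ b
          ≤ ENNReal.ofReal ((s ^ n)⁻¹) * ENNReal.ofReal (A * (2 * s) ^ ((n : ℝ) - b)) := by
            gcongr
            exact h.energy x (2 * s) (by positivity)
        _ = ENNReal.ofReal ((s ^ n)⁻¹ * (A * (2 * s) ^ ((n : ℝ) - b))) := by
            rw [← ENNReal.ofReal_mul (by positivity)]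
        _ ≤ _ := by
            apply ENNReal.ofReal_le_ofReal
            have e1 : (s ^ n)⁻¹ * (A * (2 * s) ^ ((n : ℝ) - b)) =
                A * 2 ^ ((n : ℝ) - b) * s ^ (-b) := by
              rw [Real.mul_rpow (by norm_num) hs.le, Real.rpow_sub hs, Real.rpow_natCast,
                Real.rpow_neg hs.le]
              field_simp
            rw [e1]
            have e2 : s ^ (-b) ≤ δ ^ (-b) :=
              Real.rpow_le_rpow_of_nonpos hδ0 hsδ (by linarith)
            have e3 : (0 : ℝ) ≤ 2 ^ ((n : ℝ) - b) := by positivity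
            have e4 : (0 : ℝ) ≤ s ^ (-b) := by positivity
            calc A * 2 ^ ((n : ℝ) - b) * s ^ (-b) ≤ |A| * 2 ^ ((n : ℝ) - b) * s ^ (-b) := by
                  gcongr
                  exact le_abs_self A
              _ ≤ _ := by gcongr

lemma measurable_av (hW : Measurable W) (x : E n) : Measurable (av W x) := by
  unfold av
  have h1 : Measurable (fun q : ℝ × E n => ker q.2 * W (x + q.1 • q.2)) := by
    have h2 : Measurable (fun q : ℝ × E n => W (x + q.1 • q.2)) := by fun_prop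
    exact (measurable_ker.comp measurable_snd).mul h2
  exact h1.lintegral_prod_right'

lemma av_pos (h : IsWeight Ω W b A) {x : E n} (hx : x ∈ Ω) {s : ℝ} (hs : 0 < s) :
    0 < av W x s := by
  have hW := h.meas
  obtain ⟨ε, hε, hεΩ⟩ := Metric.isOpen_iff.1 h.isOpen x hx
  unfold av
  have hm : Measurable (fun z : E n => ker z * W (x + s • z)) :=
    measurable_ker.mul (by fun_prop)
  rw [lintegral_pos_iff_support hm]
  have hr : 0 < min 1 (ε / s) := by positivity
  refine lt_of_lt_of_le (Metric.measure_ball_pos volume (0 : E n) hr) (measure_mono ?_)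
  intro z hz
  rw [Metric.mem_ball, dist_zero_right, lt_min_iff] at hz
  rw [Function.mem_support, ker_eq_one hz.1.le, one_mul]
  apply (h.pos _ _).ne'
  apply hεΩ
  rw [Metric.mem_ball, dist_eq_norm, add_sub_cancel_left, norm_smul, Real.norm_of_nonneg hs.le]
  have := (lt_div_iff₀ hs).1 hz.2
  linarith

lemma pot_lt_top (hb : 1 < b) (h : IsWeight Ω W b A) {x : E n} (hx : x ∈ Ω) (R : ℝ) :
    pot W x R < ⊤ := by
  obtain ⟨M, hM, hev⟩ := av_local_bound hb h hx
  have hx' := hev.self_of_nhds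
  unfold pot
  calc ∫⁻ s in Ioo 0 R, av W x s ≤ ∫⁻ _ in Ioo 0 R, M :=
        setLIntegral_mono' measurableSet_Ioo fun s hs => hx' s hs.1
    _ = M * volume (Ioo 0 R) := by rw [lintegral_const, Measure.restrict_apply_univ]
    _ < ⊤ := ENNReal.mul_lt_top hM (by rw [Real.volume_Ioo]; exact ENNReal.ofReal_lt_top)

lemma pot_mono (x : E n) {R R' : ℝ} (hRR : R ≤ R') : pot W x R ≤ pot W x R' :=
  lintegral_mono_set (Ioo_subset_Ioo_right hRR)

lemma pot_strictMono (hb : 1 < b) (h : IsWeight Ω W b A) {x : E n} (hx : x ∈ Ω) {R R' : ℝ}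
    (hR : 0 < R) (hRR : R < R') : pot W x R < pot W x R' := by
  have hsub : Ioo 0 R ∪ Ioo R R' ⊆ Ioo 0 R' := by
    rintro s (hs | hs)
    · exact ⟨hs.1, hs.2.trans hRR⟩
    · exact ⟨hR.trans hs.1, hs.2⟩
  have hdisj : Disjoint (Ioo 0 R) (Ioo R R') := by
    rw [Set.disjoint_left]
    intro s hs hs'
    exact absurd hs.2 (not_lt.2 hs'.1.le)
  have h1 : pot W x R + ∫⁻ s in Ioo R R', av W x s ≤ pot W x R' := by
    unfold pot
    rw [← lintegral_union measurableSet_Ioo hdisj]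
    exact lintegral_mono_set hsub
  have h2 : 0 < ∫⁻ s in Ioo R R', av W x s := by
    rw [setLIntegral_pos_iff (measurable_av h.meas x)]
    have h3 : Function.support (av W x) ∩ Ioo R R' = Ioo R R' := by
      apply inter_eq_right.2
      intro s hs
      exact (av_pos h hx (hR.trans hs.1)).ne'
    rw [h3, Real.volume_Ioo]
    simpa using hRR
  calc pot W x R < pot W x R + ∫⁻ s in Ioo R R', av W x s :=
        ENNReal.lt_add_right (pot_lt_top hb h hx R).ne h2.ne'
    _ ≤ _ := h1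

lemma continuousAt_pot (hb : 1 < b) (h : IsWeight Ω W b A) {x₀ : E n} (hx₀ : x₀ ∈ Ω) (R : ℝ) :
    Tendsto (fun x => pot W x R) (𝓝 x₀) (𝓝 (pot W x₀ R)) := by
  obtain ⟨M, hM, hev⟩ := av_local_bound hb h hx₀
  unfold pot
  refine tendsto_lintegral_filter_of_dominated_convergence (fun _ => M) ?_ ?_ ?_ ?_
  · exact Eventually.of_forall fun x => measurable_av h.meas x
  · filter_upwards [hev] with x hx
    filter_upwards [self_mem_ae_restrict measurableSet_Ioo] with s hs
    exact hx s hs.1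
  · rw [lintegral_const, Measure.restrict_apply_univ, Real.volume_Ioo]
    exact (ENNReal.mul_lt_top hM ENNReal.ofReal_lt_top).ne
  · filter_upwards [self_mem_ae_restrict measurableSet_Ioo] with s hs
    exact continuous_av hb h hs.1 x₀

lemma exists_pot_lt (hb : 1 < b) (h : IsWeight Ω W b A) {x : E n} (hx : x ∈ Ω) {L : ℝ}
    (hL : 0 < L) : ∃ R : ℝ, 0 < R ∧ pot W x R < ENNReal.ofReal L := by
  obtain ⟨M, hM, hev⟩ := av_local_bound hb h hx
  have hx' := hev.self_of_nhds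
  set m := M.toReal with hm
  refine ⟨L / (m + 1) / 2, by positivity, ?_⟩
  have hm0 : 0 ≤ m := ENNReal.toReal_nonneg
  calc pot W x (L / (m + 1) / 2) ≤ ∫⁻ _ in Ioo 0 (L / (m + 1) / 2), M :=
        setLIntegral_mono' measurableSet_Ioo fun s hs => hx' s hs.1
    _ = ENNReal.ofReal (m * (L / (m + 1) / 2)) := by
        rw [lintegral_const, Measure.restrict_apply_univ, Real.volume_Ioo, sub_zero,
          ENNReal.ofReal_mul hm0, hm, ENNReal.ofReal_toReal hM.ne]
    _ < ENNReal.ofReal L := by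
        rw [ENNReal.ofReal_lt_ofReal_iff hL]
        rw [show m * (L / (m + 1) / 2) = L * (m / (m + 1) / 2) by ring]
        have : m / (m + 1) / 2 < 1 := by
          have : m / (m + 1) ≤ 1 := by rw [div_le_one (by positivity)]; linarith
          linarith
        nlinarith

lemma exists_lt_pot (hn : 0 < n) (h : IsWeight Ω W b A) {x : E n} (hx : x ∈ Ω) (L : ℝ) :
    ∃ R : ℝ, 0 < R ∧ ENNReal.ofReal L < pot W x R := by
  have hW := h.meas
  have hU : ⋃ N : ℕ, Ioo (0 : ℝ) N = Ioi 0 := by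
    ext s
    simp only [mem_iUnion, mem_Ioo, mem_Ioi]
    constructor
    · rintro ⟨N, h1, _⟩; exact h1
    · intro h1
      obtain ⟨N, hN⟩ := exists_nat_gt s
      exact ⟨N, h1, hN⟩
  have hdir : Directed (· ⊆ ·) fun N : ℕ => Ioo (0 : ℝ) N := by
    apply Monotone.directed_le
    intro N M hNM
    exact Ioo_subset_Ioo_right (by exact_mod_cast hNM)
  have h1 : ⨆ N : ℕ, pot W x N = ⊤ := by
    have h2 : ⨆ N : ℕ, pot W x N = ∫⁻ s in Ioi (0 : ℝ), av W x s := by
      rw [← hU, setLIntegral_iUnion_of_directed _ hdir]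
      rfl
    rw [h2]
    have h3 : ∫⁻ s in Ioi (0 : ℝ), av W x s =
        ∫⁻ z, ker z * ∫⁻ s in Ioi (0 : ℝ), W (x + s • z) := by
      unfold av
      rw [lintegral_lintegral_swap]
      · congr 1
        ext z
        rw [lintegral_const_mul]
        fun_prop
      · have h1 : Measurable (fun q : ℝ × E n => W (x + q.1 • q.2)) := by fun_prop
        have h2 : Measurable (fun q : ℝ × E n => ker q.2) := measurable_ker.comp measurable_snd
        exact (h2.mul h1).aemeasurable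
    rw [h3, eq_top_iff]
    have h4 : ∀ z ∈ Metric.ball (0 : E n) 1 \ {0},
        ker z * ∫⁻ s in Ioi (0 : ℝ), W (x + s • z) = ⊤ := by
      intro z hz
      rw [h.ray x hx z hz.2, ENNReal.mul_top]
      have := hz.1
      rw [Metric.mem_ball, dist_zero_right] at this
      rw [ker_eq_one this.le]
      exact one_ne_zero
    have hms : MeasurableSet (Metric.ball (0 : E n) 1 \ {0}) :=
      Metric.isOpen_ball.measurableSet.diff (measurableSet_singleton 0)
    have hvol : 0 < volume (Metric.ball (0 : E n) 1 \ {0}) := by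
      have : Nonempty (Fin n) := ⟨⟨0, hn⟩⟩
      have : Nontrivial (E n) := by
        apply Module.nontrivial_of_finrank_pos (R := ℝ)
        rw [finrank_euclideanSpace, Fintype.card_fin]; exact hn
      rw [measure_sdiff_null (measure_singleton _)]
      exact Metric.measure_ball_pos _ _ one_pos
    calc (⊤ : ℝ≥0∞) = ∫⁻ z in Metric.ball (0 : E n) 1 \ {0}, ⊤ := by
          rw [lintegral_const, Measure.restrict_apply_univ, ENNReal.top_mul hvol.ne']
      _ = ∫⁻ z in Metric.ball (0 : E n) 1 \ {0},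
            ker z * ∫⁻ s in Ioi (0 : ℝ), W (x + s • z) :=
          setLIntegral_congr_fun hms fun z hz => (h4 z hz).symm
      _ ≤ _ := setLIntegral_le_lintegral _ _
  have h5 : ENNReal.ofReal L < ⨆ N : ℕ, pot W x N := by
    rw [h1]; exact ENNReal.ofReal_lt_top
  obtain ⟨N, hN⟩ := lt_iSup_iff.1 h5
  refine ⟨(N : ℝ) + 1, by positivity, hN.trans_le (pot_mono x (by linarith))⟩

theorem exists_scale {n : ℕ} (hn : 0 < n) {Ω : Set (E n)} {W : E n → ℝ≥0∞} {b A : ℝ}
    (hb : 1 < b) (h : IsWeight Ω W b A) {lam Lam : ℝ} (hlam : 0 < lam) (hLam : 0 < Lam) :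
    ∃ T : E n → ℝ, ContinuousOn T Ω ∧ ∀ x ∈ Ω, ∀ t : ℝ,
      (T x < t → ENNReal.ofReal Lam < pot W x (lam * (2 : ℝ) ^ t)) ∧
      (t < T x → pot W x (lam * (2 : ℝ) ^ t) < ENNReal.ofReal Lam) := by
  set S : E n → Set ℝ := fun x => {t | ENNReal.ofReal Lam ≤ pot W x (lam * (2 : ℝ) ^ t)} with hS
  have hR : ∀ R : ℝ, 0 < R → ∃ t : ℝ, lam * (2 : ℝ) ^ t = R := by
    intro R hR
    refine ⟨Real.logb 2 (R / lam), ?_⟩
    rw [Real.rpow_logb (by norm_num) (by norm_num) (by positivity)]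
    field_simp
  have hmono : ∀ t t' : ℝ, t ≤ t' → lam * (2 : ℝ) ^ t ≤ lam * (2 : ℝ) ^ t' := by
    intro t t' htt
    gcongr
    norm_num
  have hsmono : ∀ t t' : ℝ, t < t' → lam * (2 : ℝ) ^ t < lam * (2 : ℝ) ^ t' := by
    intro t t' htt
    have := Real.rpow_lt_rpow_of_exponent_lt (by norm_num : (1 : ℝ) < 2) htt
    gcongr
  have hne : ∀ x ∈ Ω, (S x).Nonempty := by
    intro x hx
    obtain ⟨R, hR0, hRL⟩ := exists_lt_pot hn h hx Lam
    obtain ⟨t, ht⟩ := hR R hR0
    exact ⟨t, by rw [hS]; simp only [mem_ofPred_eq]; rw [ht]; exact hRL.le⟩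
  have hbdd : ∀ x ∈ Ω, BddBelow (S x) := by
    intro x hx
    obtain ⟨R, hR0, hRL⟩ := exists_pot_lt hb h hx hLam
    obtain ⟨t, ht⟩ := hR R hR0
    refine ⟨t, fun t' ht' => ?_⟩
    by_contra hcon
    push Not at hcon
    have h1 : ENNReal.ofReal Lam ≤ pot W x (lam * (2 : ℝ) ^ t') := ht'
    have h2 := h1.trans (pot_mono x (hmono _ _ hcon.le))
    rw [ht] at h2
    exact absurd hRL (not_lt.2 h2)
  set T : E n → ℝ := fun x => sInf (S x) with hT
  have hprop : ∀ x ∈ Ω, ∀ t : ℝ,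
      (T x < t → ENNReal.ofReal Lam < pot W x (lam * (2 : ℝ) ^ t)) ∧
      (t < T x → pot W x (lam * (2 : ℝ) ^ t) < ENNReal.ofReal Lam) := by
    intro x hx t
    constructor
    · intro ht
      obtain ⟨t', ht', ht't⟩ := exists_lt_of_csInf_lt (hne x hx) ht
      exact lt_of_le_of_lt ht' (pot_strictMono hb h hx (by positivity) (hsmono _ _ ht't))
    · intro ht
      by_contra hcon
      push Not at hcon
      exact absurd ht (not_lt.2 (csInf_le (hbdd x hx) hcon))
  refine ⟨T, ?_, hprop⟩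
  intro x hx
  apply ContinuousAt.continuousWithinAt
  rw [Metric.continuousAt_iff']
  intro ε hε
  have h1 := (hprop x hx (T x + ε / 2)).1 (by linarith)
  have h2 := (hprop x hx (T x - ε / 2)).2 (by linarith)
  have e1 := (continuousAt_pot hb h hx (lam * (2 : ℝ) ^ (T x + ε / 2))).eventually
    (lt_mem_nhds h1)
  have e2 := (continuousAt_pot hb h hx (lam * (2 : ℝ) ^ (T x - ε / 2))).eventually
    (gt_mem_nhds h2)
  filter_upwards [e1, e2, h.isOpen.mem_nhds hx] with y hy1 hy2 hyΩ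
  have a1 : T y ≤ T x + ε / 2 := csInf_le (hbdd y hyΩ) hy1.le
  have a2 : T x - ε / 2 ≤ T y := by
    by_contra hcon
    push Not at hcon
    exact absurd ((hprop y hyΩ _).1 hcon) (not_lt.2 hy2.le)
  rw [Real.dist_eq, abs_lt]
  constructor <;> linarith

end Vale.Agent.P210
end
end

section

section

open scoped ENNReal ContDiff Topology
open MeasureTheory Set

namespace Vale.Agent.P210

section Threshold

variable {X V : Type} [TopologicalSpace X] (k : ℕ) (U : V → X → ℝ)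

/-- admissible thresholds -/
def thrSet (x : X) : Set ℝ := {r | 0 ≤ r ∧ {p | r < U p x}.ncard ≤ k + 1}

/-- the threshold: the `(k+2)`-nd largest value -/
noncomputable def thr (x : X) : ℝ := sInf (thrSet k U x)

omit [TopologicalSpace X] in
lemma thrSet_bddBelow (x : X) : BddBelow (thrSet k U x) := ⟨0, fun _ h => h.1⟩

variable {U}

lemma finite_lt (hfin : LocallyFinite fun p => Function.support (U p)) (x : X) {r : ℝ}
    (hr : 0 ≤ r) : {p | r < U p x}.Finite := by
  refine (hfin.point_finite x).subset ?_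
  intro p hp
  simp only [Function.mem_support, mem_ofPred_eq] at hp ⊢
  linarith

variable {k}

lemma thrSet_nonempty (hfin : LocallyFinite fun p => Function.support (U p)) (x : X) :
    (thrSet k U x).Nonempty := by
  classical
  have hF : {p | U p x ≠ 0}.Finite := hfin.point_finite x
  obtain ⟨M, hM⟩ := (hF.image (fun p => U p x)).bddAbove
  refine ⟨max 0 M, le_max_left _ _, ?_⟩
  have : {p | max 0 M < U p x} = ∅ := by
    ext p
    simp only [mem_ofPred_eq, mem_empty_iff_false, iff_false, not_lt]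
    by_cases hp : U p x = 0
    · rw [hp]; exact le_max_left _ _
    · exact (hM ⟨p, hp, rfl⟩).trans (le_max_right _ _)
  rw [this]
  simp

omit [TopologicalSpace X] in
lemma thr_nonneg (x : X) : 0 ≤ thr k U x := Real.sInf_nonneg fun _ h => h.1

lemma thr_card (hfin : LocallyFinite fun p => Function.support (U p)) (x : X)
    (S : Finset V) (hS : ∀ p ∈ S, thr k U x < U p x) : S.card ≤ k + 1 := by
  classical
  by_contra hcon
  push Not at hcon
  have hne : S.Nonempty := Finset.card_pos.1 (by omega)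
  obtain ⟨p0, hp0, hmin⟩ := Finset.exists_min_image S (fun p => U p x) hne
  obtain ⟨r, hr, hr2⟩ := exists_lt_of_csInf_lt (thrSet_nonempty hfin x) (hS p0 hp0)
  have hsub : (S : Set V) ⊆ {p | r < U p x} := fun p hp => lt_of_lt_of_le hr2 (hmin p hp)
  have h1 := Set.ncard_le_ncard hsub (finite_lt hfin x hr.1)
  rw [Set.ncard_coe_finset] at h1
  have := hr.2
  omega

lemma exists_thr_lt (hfin : LocallyFinite fun p => Function.support (U p))
    (hpos : ∀ x, ∃ p, 0 < U p x)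
    (hties : ∀ x (S : Finset V), S.card = k + 2 → (∀ p ∈ S, 0 < U p x) →
      (∀ p ∈ S, ∀ q ∈ S, U p x = U q x) → False) (x : X) : ∃ p, thr k U x < U p x := by
  classical
  have hF : {p | 0 < U p x}.Finite := finite_lt hfin x le_rfl
  set F : Finset V := hF.toFinset with hFdef
  have hFne : F.Nonempty := by
    obtain ⟨p, hp⟩ := hpos x
    exact ⟨p, by simpa [hFdef] using hp⟩
  obtain ⟨p0, hp0, hmax⟩ := Finset.exists_max_image F (fun p => U p x) hFne
  have hp0' : 0 < U p0 x := by simpa [hFdef] using hp0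
  set G : Finset ℝ := insert 0 ((F.filter (fun p => U p x < U p0 x)).image (fun p => U p x))
    with hG
  have hGne : G.Nonempty := ⟨0, by simp [hG]⟩
  have hm : G.max' hGne < U p0 x := by
    rw [Finset.max'_lt_iff]
    intro y hy
    rw [hG, Finset.mem_insert] at hy
    rcases hy with rfl | hy
    · exact hp0'
    · obtain ⟨p, hp, rfl⟩ := Finset.mem_image.1 hy
      exact (Finset.mem_filter.1 hp).2
  have hm0 : 0 ≤ G.max' hGne := Finset.le_max' G 0 (by simp [hG])
  refine ⟨p0, lt_of_le_of_lt (csInf_le (thrSet_bddBelow k U x) ⟨hm0, ?_⟩) hm⟩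
  have hfin' := finite_lt hfin x hm0
  by_contra hcon
  push Not at hcon
  obtain ⟨S, hS, hcard⟩ : ∃ S ⊆ hfin'.toFinset, S.card = k + 2 := by
    apply Finset.exists_subset_card_eq
    rw [← Set.ncard_eq_toFinset_card _ hfin']
    omega
  have hval : ∀ p ∈ S, U p x = U p0 x := by
    intro p hp
    have h1 : G.max' hGne < U p x := by simpa using hS hp
    have hpF : p ∈ F := by
      simp only [hFdef, Finite.mem_toFinset, mem_ofPred_eq]
      linarith
    refine le_antisymm (hmax p hpF) (not_lt.1 fun hlt => ?_)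
    have : U p x ∈ G := by
      rw [hG, Finset.mem_insert]
      right
      exact Finset.mem_image.2 ⟨p, Finset.mem_filter.2 ⟨hpF, hlt⟩, rfl⟩
    exact absurd (Finset.le_max' G _ this) (not_le.2 h1)
  exact hties x S hcard (fun p hp => by rw [hval p hp]; exact hp0')
    (fun p hp q hq => by rw [hval p hp, hval q hq])

lemma thr_le_add (hfin : LocallyFinite fun p => Function.support (U p)) {x y : X} {δ : ℝ}
    (hδ : 0 ≤ δ) (h : ∀ p, |U p y - U p x| ≤ δ) : thr k U y ≤ thr k U x + δ := by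
  have : ∀ r ∈ thrSet k U x, thr k U y - δ ≤ r := by
    intro r hr
    rw [sub_le_iff_le_add]
    apply csInf_le (thrSet_bddBelow k U y)
    refine ⟨by linarith [hr.1], ?_⟩
    refine (Set.ncard_le_ncard ?_ (finite_lt hfin x hr.1)).trans hr.2
    intro p hp
    simp only [mem_ofPred_eq] at hp ⊢
    have := (abs_le.1 (h p)).2
    linarith
  have h2 : thr k U y - δ ≤ thr k U x := le_csInf (thrSet_nonempty hfin x) this
  linarith

lemma local_close (hc : ∀ p, Continuous (U p))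
    (hfin : LocallyFinite fun p => Function.support (U p)) (x : X) {ε : ℝ} (hε : 0 < ε) :
    ∀ᶠ y in 𝓝 x, ∀ p, |U p y - U p x| ≤ ε := by
  obtain ⟨N, hN, hNf⟩ := hfin x
  have h1 : ∀ᶠ y in 𝓝 x, ∀ p ∈ hNf.toFinset, |U p y - U p x| ≤ ε := by
    rw [Filter.eventually_all_finset]
    intro p _
    have : ContinuousAt (fun y => |U p y - U p x|) x :=
      (((hc p).continuousAt).sub continuousAt_const).abs
    have h2 : ∀ᶠ y in 𝓝 x, |U p y - U p x| < ε :=
      this.eventually_lt continuousAt_const (by simpa using hε)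
    exact h2.mono fun y hy => hy.le
  filter_upwards [h1, hN] with y hy hyN p
  by_cases hp : p ∈ hNf.toFinset
  · exact hy p hp
  · have hx0 : U p x = 0 := by
      by_contra hne
      exact hp (by simpa using ⟨x, hne, mem_of_mem_nhds hN⟩)
    have hy0 : U p y = 0 := by
      by_contra hne
      exact hp (by simpa using ⟨y, hne, hyN⟩)
    rw [hx0, hy0, sub_zero, abs_zero]
    exact hε.le

lemma continuous_thr (hc : ∀ p, Continuous (U p))
    (hfin : LocallyFinite fun p => Function.support (U p)) : Continuous (thr k U) := by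
  rw [continuous_iff_continuousAt]
  intro x
  rw [Metric.continuousAt_iff']
  intro ε hε
  filter_upwards [local_close hc hfin x (half_pos hε)] with y hy
  have h1 := thr_le_add (k := k) hfin (half_pos hε).le hy
  have h2 := thr_le_add (k := k) hfin (x := y) (y := x) (half_pos hε).le
    (fun p => by rw [abs_sub_comm]; exact hy p)
  rw [Real.dist_eq, abs_lt]
  constructor <;> linarith

end Threshold

theorem exists_map_to_skeleton {X V : Type} [TopologicalSpace X] (k : ℕ) (U : V → X → ℝ)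
    (hc : ∀ p, Continuous (U p)) (hfin : LocallyFinite fun p => Function.support (U p))
    (_h0 : ∀ p x, 0 ≤ U p x) (hpos : ∀ x, ∃ p, 0 < U p x)
    (hties : ∀ x (S : Finset V), S.card = k + 2 → (∀ p ∈ S, 0 < U p x) →
      (∀ p ∈ S, ∀ q ∈ S, U p x = U q x) → False) :
    ∃ f : X → Realization (skel V k), Continuous f ∧ ∀ x p, 0 < (f x).1 p → 0 < U p x := by
  classical
  have hthrc : Continuous (thr k U) := continuous_thr hc hfin
  have hsf : ∀ x, {p | thr k U x < U p x}.Finite := fun x => finite_lt hfin x (thr_nonneg x)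
  set s : X → Finset V := fun x => (hsf x).toFinset with hs
  have hmem : ∀ x p, p ∈ s x ↔ thr k U x < U p x := by
    intro x p
    simp [hs]
  have hsface : ∀ x, s x ∈ (skel V k).faces := by
    intro x
    constructor
    · obtain ⟨p, hp⟩ := exists_thr_lt hfin hpos hties x
      exact ⟨p, (hmem x p).2 hp⟩
    · exact thr_card hfin x (s x) fun p hp => (hmem x p).1 hp
  set F : V → X → ℝ := fun p x => max 0 (U p x - thr k U x) with hF
  have hFc : ∀ p, Continuous (F p) := fun p => continuous_const.max ((hc p).sub hthrc)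
  have hF0 : ∀ p x, 0 ≤ F p x := fun p x => le_max_left _ _
  have hFpos : ∀ p x, p ∈ s x → 0 < F p x := by
    intro p x hp
    have := (hmem x p).1 hp
    exact lt_max_of_lt_right (by linarith)
  have hFzero : ∀ p x, p ∉ s x → F p x = 0 := by
    intro p x hp
    rw [hmem, not_lt] at hp
    exact max_eq_left (by linarith)
  set D : X → ℝ := fun x => ∑ᶠ p, F p x with hD
  have hFlf : LocallyFinite fun p => Function.support (F p) := by
    refine hfin.subset fun p x hx => ?_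
    rw [Function.mem_support] at hx ⊢
    intro hU
    apply hx
    rw [hF]
    simp only [hU]
    exact max_eq_left (by linarith [thr_nonneg (k := k) (U := U) x])
  have hDc : Continuous D := continuous_finsum hFc hFlf
  have hDs : ∀ x (S : Finset V), s x ⊆ S → D x = ∑ p ∈ S, F p x := by
    intro x S hS
    apply finsum_eq_sum_of_support_subset
    intro p hp
    rw [Function.mem_support] at hp
    by_contra hcon
    exact hp (hFzero p x fun h => hcon (hS h))
  have hDpos : ∀ x, 0 < D x := by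
    intro x
    rw [hDs x (s x) subset_rfl]
    exact Finset.sum_pos (fun p hp => hFpos p x hp) (hsface x).1
  have hface : ∀ x (S : Finset V), s x ⊆ S → (fun p => F p x / D x) ∈ face S := by
    intro x S hS
    refine ⟨fun p => div_nonneg (hF0 p x) (hDpos x).le, fun p hp => ?_, ?_⟩
    · show F p x / D x = 0
      rw [hFzero p x fun h => hp (hS h), zero_div]
    · rw [← Finset.sum_div, ← hDs x S hS, div_self (hDpos x).ne']
  let f : X → Realization (skel V k) :=
    fun x => ⟨fun p => F p x / D x, s x, hsface x, hface x _ subset_rfl⟩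
  refine ⟨f, ?_, ?_⟩
  · -- continuity
    have hslf : LocallyFinite fun S : Finset V => {x | s x = S} := by
      intro x
      obtain ⟨N, hN, hNf⟩ := hFlf x
      refine ⟨N, hN, (hNf.toFinset.powerset.finite_toSet).subset ?_⟩
      rintro S ⟨y, hyS, hyN⟩
      simp only [mem_ofPred_eq] at hyS
      simp only [Finset.coe_powerset, mem_preimage, mem_powerset_iff]
      intro p hp
      rw [← hyS] at hp
      simp only [Finite.coe_toFinset, mem_ofPred_eq]
      exact ⟨y, (hFpos p y hp).ne', hyN⟩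
    refine hslf.continuous' ?_ ?_
    · ext x
      simp
    · intro S x hx
      set A : Set X := {y | ∀ p, p ∉ S → U p y ≤ thr k U y} with hA
      have hAcl : IsClosed A := by
        have : A = ⋂ p, ⋂ (_ : p ∉ S), {y | U p y ≤ thr k U y} := by
          ext y; simp [hA]
        rw [this]
        exact isClosed_iInter fun p => isClosed_iInter fun _ => isClosed_le (hc p) hthrc
      have hsubA : {x | s x = S} ⊆ A := by
        intro y hy p hp
        simp only [mem_ofPred_eq] at hy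
        rw [← hy, hmem, not_lt] at hp
        exact hp
      have hxA : x ∈ A := closure_minimal hsubA hAcl hx
      have hSface : S ∈ (skel V k).faces := by
        obtain ⟨y, hy⟩ : ({x | s x = S} : Set X).Nonempty := by
          rw [← closure_nonempty_iff]
          exact ⟨x, hx⟩
        simp only [mem_ofPred_eq] at hy
        rw [← hy]
        exact hsface y
      have hsA : ∀ y ∈ A, s y ⊆ S := by
        intro y hy p hp
        by_contra hcon
        have := hy p hcon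
        rw [hmem] at hp
        linarith
      have hcontA : ContinuousOn f A := by
        rw [continuousOn_iff_continuous_domRestrict]
        have heq : A.domRestrict f =
            faceMap (skel V k) ⟨S, hSface⟩ ∘
              (fun y : A => (⟨fun p => F p y / D y, hface y S (hsA y y.2)⟩ : face S)) := by
          rfl
        rw [heq]
        have hfm : Continuous (faceMap (skel V k) ⟨S, hSface⟩) := by
          exact continuous_iSup_rng (i := (⟨S, hSface⟩ : (skel V k).faces)) continuous_coinduced_rng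
        refine hfm.comp ?_
        refine Continuous.subtype_mk ?_ _
        refine continuous_pi fun p => ?_
        exact ((hFc p).comp continuous_subtype_val).div (hDc.comp continuous_subtype_val)
          fun y => (hDpos y).ne'
      exact (hcontA x hxA).mono hsubA
  · intro x p hp
    change 0 < F p x / D x at hp
    have hFp : 0 < F p x := by
      rcases (hF0 p x).eq_or_lt with h | h
      · rw [← h, zero_div] at hp
        exact absurd hp (lt_irrefl _)
      · exact h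
    have hps : p ∈ s x := by
      by_contra hcon
      rw [hFzero p x hcon] at hFp
      exact lt_irrefl _ hFp
    rw [hmem] at hps
    exact lt_of_le_of_lt (thr_nonneg x) hps

end Vale.Agent.P210
end
end

section

section

open scoped ENNReal ContDiff
open MeasureTheory Set

namespace Vale.Agent.P210

/-- the multi-scale functions -/
noncomputable def Ufun {n : ℕ} (T : E n → ℝ) (c : Vtx n → ℝ) (p : Vtx n) (x : E n) : ℝ :=
  max 0 (1 - |T x - ((p.2 : ℝ) - 1)|) * max 0 (hat p x - c p)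

lemma Ufun_nonneg {n : ℕ} (T : E n → ℝ) (c : Vtx n → ℝ) (p : Vtx n) (x : E n) :
    0 ≤ Ufun T c p x := mul_nonneg (le_max_left _ _) (le_max_left _ _)

lemma Ufun_pos {n : ℕ} {T : E n → ℝ} {c : Vtx n → ℝ} {p : Vtx n} {x : E n}
    (h : 0 < Ufun T c p x) : |T x - ((p.2 : ℝ) - 1)| < 1 ∧ c p < hat p x := by
  unfold Ufun at h
  constructor
  · by_contra hcon
    rw [max_eq_left (by linarith), zero_mul] at h
    exact lt_irrefl _ h
  · by_contra hcon
    rw [max_eq_left (a := (0 : ℝ)) (b := hat p x - c p) (by linarith), mul_zero] at h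
    exact lt_irrefl _ h

lemma Ufun_eq {n : ℕ} {T : E n → ℝ} {c : Vtx n → ℝ} {p : Vtx n} {x : E n}
    (h : 0 < Ufun T c p x) :
    Ufun T c p x = (1 - |T x - ((p.2 : ℝ) - 1)|) * (hat p x - c p) := by
  obtain ⟨h1, h2⟩ := Ufun_pos h
  unfold Ufun
  rw [max_eq_right (by linarith), max_eq_right (by linarith)]

lemma exists_Ufun_pos {n : ℕ} (hn : 0 < n) (T : E n → ℝ) (c : Vtx n → ℝ)
    (hc : ∀ p, c p ∈ Icc (0 : ℝ) (1 / 4)) (x : E n) : ∃ p, 0 < Ufun T c p x := by
  let j : ℤ := round (T x) + 1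
  let v : Fin n → ℤ := fun i => round ((2 : ℝ) ^ (-j) * x i)
  refine ⟨(v, j), ?_⟩
  have h2j : (0 : ℝ) < (2 : ℝ) ^ j := by positivity
  have hsq : 1 ≤ Real.sqrt n := by
    rw [Real.one_le_sqrt]
    exact_mod_cast hn
  have h1 : |T x - (((v, j) : Vtx n).2 - 1 : ℝ)| ≤ 1 / 2 := by
    have := abs_sub_round (T x)
    simpa [j] using this
  have h2 : ‖x - vpos ((v, j) : Vtx n)‖ ≤ Real.sqrt n * (2 : ℝ) ^ j / 2 := by
    rw [EuclideanSpace.norm_eq]
    have hb : ∀ i, ‖(x - vpos ((v, j) : Vtx n)) i‖ ^ 2 ≤ ((2 : ℝ) ^ j / 2) ^ 2 := by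
      intro i
      have hr := abs_sub_round ((2 : ℝ) ^ (-j) * x i)
      have he : (x - vpos ((v, j) : Vtx n)) i =
          (2 : ℝ) ^ j * ((2 : ℝ) ^ (-j) * x i - round ((2 : ℝ) ^ (-j) * x i)) := by
        simp only [vpos, v, PiLp.sub_apply, PiLp.smul_apply, smul_eq_mul]
        rw [mul_sub, ← mul_assoc, ← zpow_add₀ (by norm_num)]
        simp
      rw [Real.norm_eq_abs, he, abs_mul, abs_of_pos h2j]
      gcongr
      rw [div_eq_mul_inv]
      gcongr
      simpa using hr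
    calc Real.sqrt (∑ i, ‖(x - vpos ((v, j) : Vtx n)) i‖ ^ 2)
        ≤ Real.sqrt (∑ _i : Fin n, ((2 : ℝ) ^ j / 2) ^ 2) := by
          apply Real.sqrt_le_sqrt
          exact Finset.sum_le_sum (fun i _ => hb i)
      _ = Real.sqrt n * (2 : ℝ) ^ j / 2 := by
          rw [Finset.sum_const, Finset.card_univ, Fintype.card_fin, nsmul_eq_mul,
            Real.sqrt_mul (by positivity), Real.sqrt_sq (by positivity)]
          ring
  have h3 : 1 / 2 ≤ hat ((v, j) : Vtx n) x := by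
    unfold hat
    apply le_max_of_le_right
    have hS : (0 : ℝ) < Real.sqrt n * (2 : ℝ) ^ j := by positivity
    have : ‖x - vpos ((v, j) : Vtx n)‖ / (Real.sqrt n * (2 : ℝ) ^ j) ≤ 1 / 2 := by
      rw [div_le_iff₀ hS]; linarith
    simp only at this ⊢
    linarith
  have h4 := (hc (v, j)).2
  unfold Ufun
  apply mul_pos
  · rw [lt_max_iff]; right; linarith
  · rw [lt_max_iff]; right; linarith

lemma locallyFinite_Ufun {n : ℕ} (hn : 0 < n) {Ω : Set (E n)} (T : E n → ℝ)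
    (hT : ContinuousOn T Ω) (c : Vtx n → ℝ) (hc : ∀ p, c p ∈ Icc (0 : ℝ) (1 / 4)) :
    LocallyFinite fun p => Function.support (fun x : Ω => Ufun T c p x) := by
  classical
  intro x₀
  have hTc : Continuous (fun x : Ω => T x) := continuousOn_iff_continuous_domRestrict.mp hT
  let a : ℤ := ⌊T x₀⌋ - 2
  let b : ℤ := ⌈T x₀⌉ + 4
  obtain ⟨M, hM⟩ : ∃ M : ℤ, (2 : ℝ) ^ (-a) * (‖(x₀ : E n)‖ + 1) + Real.sqrt n ≤ M :=
    ⟨_, Int.le_ceil _⟩
  refine ⟨{x : Ω | |T x - T x₀| < 1} ∩ {x : Ω | ‖(x : E n) - x₀‖ < 1}, ?_, ?_⟩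
  · apply Filter.inter_mem
    · have : Continuous (fun x : Ω => |T x - T x₀|) := (hTc.sub continuous_const).abs
      apply (isOpen_lt this continuous_const).mem_nhds
      simp
    · have : Continuous (fun x : Ω => ‖(x : E n) - x₀‖) := by fun_prop
      apply (isOpen_lt this continuous_const).mem_nhds
      simp
  · apply Set.Finite.subset
      (Finset.finite_toSet ((Fintype.piFinset (fun _ : Fin n => Finset.Icc (-M) M)) ×ˢ
        (Finset.Icc a b)))
    rintro p ⟨x, hx1, hx2, hx3⟩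
    simp only [mem_ofPred_eq] at hx2 hx3
    have hx1' : Ufun T c p x ≠ 0 := hx1
    have hpos : 0 < Ufun T c p x := lt_of_le_of_ne (Ufun_nonneg _ _ _ _) (Ne.symm hx1')
    obtain ⟨h1, h2⟩ := Ufun_pos hpos
    have h3 : 0 < hat p x := lt_of_le_of_lt (hc p).1 h2
    have h4 := dist_lt_of_hat_pos hn p p.2 le_rfl x h3
    rw [abs_lt] at h1 hx2
    have ha : a ≤ p.2 := by
      have : ((a : ℤ) : ℝ) ≤ p.2 := by
        have := Int.floor_le (T x₀)
        simp only [a]; push_cast; linarith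
      exact_mod_cast this
    have hb : p.2 ≤ b := by
      have : (p.2 : ℝ) ≤ b := by
        have := Int.le_ceil (T x₀)
        simp only [b]; push_cast; linarith
      exact_mod_cast this
    rw [Finset.mem_coe, Finset.mem_product]
    refine ⟨?_, Finset.mem_Icc.mpr ⟨ha, hb⟩⟩
    rw [Fintype.mem_piFinset]
    intro i
    have h2p : (0 : ℝ) < (2 : ℝ) ^ p.2 := by positivity
    have h5 : ‖vpos p‖ ≤ (‖(x₀ : E n)‖ + 1) + Real.sqrt n * (2 : ℝ) ^ p.2 := by
      calc ‖vpos p‖ = ‖(x₀ : E n) + ((x : E n) - x₀) - ((x : E n) - vpos p)‖ := by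
            congr 1; abel
        _ ≤ ‖(x₀ : E n) + ((x : E n) - x₀)‖ + ‖(x : E n) - vpos p‖ := norm_sub_le _ _
        _ ≤ (‖(x₀ : E n)‖ + ‖(x : E n) - x₀‖) + ‖(x : E n) - vpos p‖ := by
            gcongr; exact norm_add_le _ _
        _ ≤ _ := by linarith
    have h6 : |(2 : ℝ) ^ p.2 * p.1 i| ≤ ‖vpos p‖ := by
      have := PiLp.norm_apply_le (vpos p) i
      simpa [vpos] using this
    have h7 : |(p.1 i : ℝ)| ≤ M := by
      rw [abs_mul, abs_of_pos h2p] at h6
      have h8 : |(p.1 i : ℝ)| ≤ (2 : ℝ) ^ (-p.2) * (‖(x₀ : E n)‖ + 1) + Real.sqrt n := by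
        have h9 : (2 : ℝ) ^ p.2 * |(p.1 i : ℝ)| ≤
            (‖(x₀ : E n)‖ + 1) + Real.sqrt n * (2 : ℝ) ^ p.2 := h6.trans h5
        calc |(p.1 i : ℝ)| = (2 : ℝ) ^ (-p.2) * ((2 : ℝ) ^ p.2 * |(p.1 i : ℝ)|) := by
              rw [← mul_assoc, ← zpow_add₀ (by norm_num)]; simp
          _ ≤ (2 : ℝ) ^ (-p.2) * ((‖(x₀ : E n)‖ + 1) + Real.sqrt n * (2 : ℝ) ^ p.2) := by gcongr
          _ = (2 : ℝ) ^ (-p.2) * (‖(x₀ : E n)‖ + 1) +
              Real.sqrt n * ((2 : ℝ) ^ (-p.2) * (2 : ℝ) ^ p.2) := by ring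
          _ = _ := by rw [← zpow_add₀ (by norm_num)]; simp
      refine h8.trans (le_trans ?_ hM)
      gcongr
      norm_num
    rw [abs_le] at h7
    rw [Finset.mem_Icc]
    constructor
    · have := h7.1
      exact_mod_cast this
    · exact_mod_cast h7.2

theorem core (n k : ℕ) (hn : 0 < n) (hk : 0 < k) (b A : ℝ) (hb : 1 < b)
    (hbk : (n : ℝ) - k < b) (hA : 0 < A) :
    ∃ C : ℝ, 0 < C ∧ ∀ (Ω : Set (E n)) (W : E n → ℝ≥0∞), IsWeight Ω W b A →
      ∃ f : Ω → Realization (skel (Vtx n) k), Continuous f ∧ ∀ x y : Ω, f x = f y →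
        ∃ p : E n, (∀ s ∈ Icc (0 : ℝ) 1, (x : E n) + s • (p - x) ∈ Ω) ∧
          (∀ s ∈ Icc (0 : ℝ) 1, (y : E n) + s • (p - y) ∈ Ω) ∧
          ∫⁻ s in Ioo (0 : ℝ) 1, W (x + s • (p - x)) * ‖p - x‖ₑ ≤ ENNReal.ofReal C ∧
          ∫⁻ s in Ioo (0 : ℝ) 1, W (y + s • (p - y)) * ‖p - y‖ₑ ≤ ENNReal.ofReal C := by
  classical
  have hsq : 1 ≤ Real.sqrt n := by
    rw [Real.one_le_sqrt]
    exact_mod_cast hn
  obtain ⟨C₀, hC₀, hpair⟩ := good_pair n hn
  obtain ⟨Lam, hLam, hgen⟩ := exists_generic n k hn hk b A (8 * Real.sqrt n) hb.le hbk hA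
    (by linarith)
  refine ⟨C₀ * Lam, by positivity, ?_⟩
  intro Ω W h
  obtain ⟨c, hc, hgc⟩ := hgen W h.meas h.energy
  have hlam : (0 : ℝ) < 8 * Real.sqrt n := by positivity
  obtain ⟨T, hT, hTprop⟩ := exists_scale hn hb h hlam hLam
  have hTc : Continuous (fun x : Ω => T x) := continuousOn_iff_continuous_domRestrict.mp hT
  obtain ⟨f, hf, hfU⟩ := exists_map_to_skeleton (X := Ω) (V := Vtx n) k
    (fun p x => Ufun T c p x)
    (by
      intro p
      have h1 : Continuous (fun x : Ω => hat p (x : E n)) :=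
        (continuous_hat p).comp continuous_subtype_val
      have h2 : Continuous (fun x : Ω => |T x - ((p.2 : ℝ) - 1)|) :=
        (hTc.sub continuous_const).abs
      exact (continuous_const.max (continuous_const.sub h2)).mul
        (continuous_const.max (h1.sub continuous_const)))
    (locallyFinite_Ufun hn T hT c hc)
    (fun p x => Ufun_nonneg _ _ _ _)
    (fun x => exists_Ufun_pos hn T c hc x)
    (by
      intro x S hS hpos heq
      have hne : S.Nonempty := by
        rw [← Finset.card_pos]; omega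
      obtain ⟨q, hq, hqmax⟩ := Finset.exists_max_image S (fun p => p.2) hne
      have hTq := (Ufun_pos (hpos q hq)).1
      rw [abs_lt] at hTq
      have hlev : ∀ p ∈ S, p.2 = q.2 ∨ p.2 = q.2 - 1 := by
        intro p hp
        have hTp := (Ufun_pos (hpos p hp)).1
        rw [abs_lt] at hTp
        have h1 : p.2 ≤ q.2 := hqmax p hp
        have h2 : (q.2 : ℝ) - p.2 < 2 := by linarith
        have h3 : q.2 - p.2 < 2 := by exact_mod_cast h2
        omega
      have hle := hgc x q.2 S hS hlev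
        (fun p hp => lt_of_le_of_lt (hc p).1 (Ufun_pos (hpos p hp)).2)
        (by
          intro p hp p' hp' hpp
          have e1 := heq p hp p' hp'
          rw [Ufun_eq (hpos p hp), Ufun_eq (hpos p' hp'), ← hpp] at e1
          have h1 := (Ufun_pos (hpos p hp)).1
          exact mul_left_cancel₀ (by linarith) e1)
      have hlt := (hTprop x x.2 (q.2 : ℝ)).1 (by linarith)
      rw [Real.rpow_intCast] at hlt
      exact absurd hle (not_le.mpr hlt))
  refine ⟨f, hf, ?_⟩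
  intro x y hxy
  obtain ⟨p, hp⟩ : ∃ p, 0 < (f x).1 p := by
    obtain ⟨s, _, hs0, _, hs1⟩ := (f x).2
    by_contra hcon
    push Not at hcon
    have : ∑ v ∈ s, (f x).1 v ≤ 0 := Finset.sum_nonpos (fun v _ => hcon v)
    linarith
  have hUx := hfU x p hp
  have hUy := hfU y p (by rw [← hxy]; exact hp)
  obtain ⟨hx1, hx2⟩ := Ufun_pos hUx
  obtain ⟨hy1, hy2⟩ := Ufun_pos hUy
  rw [abs_lt] at hx1 hy1
  have hdx := dist_lt_of_hat_pos hn p p.2 le_rfl x (lt_of_le_of_lt (hc p).1 hx2)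
  have hdy := dist_lt_of_hat_pos hn p p.2 le_rfl y (lt_of_le_of_lt (hc p).1 hy2)
  have hpx := (hTprop x x.2 ((p.2 : ℝ) - 2)).2 (by linarith)
  have hpy := (hTprop y y.2 ((p.2 : ℝ) - 2)).2 (by linarith)
  have hR : 8 * Real.sqrt n * (2 : ℝ) ^ ((p.2 : ℝ) - 2) = 2 * (Real.sqrt n * (2 : ℝ) ^ p.2) := by
    rw [Real.rpow_sub (by norm_num), Real.rpow_intCast]
    norm_num
    ring
  refine hpair Ω W b A h x x.2 y y.2 (8 * Real.sqrt n * (2 : ℝ) ^ ((p.2 : ℝ) - 2)) Lam
    (by positivity) hLam ?_ hpx.le hpy.le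
  rw [hR]
  calc ‖(x : E n) - y‖ = ‖((x : E n) - vpos p) - ((y : E n) - vpos p)‖ := by congr 1; abel
    _ ≤ ‖(x : E n) - vpos p‖ + ‖(y : E n) - vpos p‖ := norm_sub_le _ _
    _ ≤ 2 * (Real.sqrt n * (2 : ℝ) ^ p.2) := by linarith

end Vale.Agent.P210
end
end

section

section

open scoped ENNReal ContDiff
open MeasureTheory Set

namespace Vale.Agent.P210

/-! ### Speed and length for a conformally flat metric -/

/-- the speed of a curve for the metric `conf φ` -/
noncomputable def spd {n : ℕ} (φ : E n → ℝ) (γ : ℝ → E n) (t : ℝ) : ℝ≥0∞ :=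
  ENNReal.ofReal (Real.exp (φ (γ t))) * ‖deriv γ t‖ₑ

lemma len_conf {n : ℕ} (φ : E n → ℝ) (γ : ℝ → E n) :
    len (conf φ) γ = ∫⁻ t in Icc (0 : ℝ) 1, spd φ γ t := by
  unfold len
  apply lintegral_congr
  intro t
  have h1 : ∑ i, ∑ j, conf φ (γ t) i j * deriv γ t i * deriv γ t j
      = (Real.exp (φ (γ t)) * ‖deriv γ t‖) ^ 2 := by
    rw [mul_pow, EuclideanSpace.norm_sq_eq, ← Real.exp_nat_mul, Finset.mul_sum]
    apply Finset.sum_congr rfl
    intro i _
    rw [Finset.sum_eq_single i]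
    · simp [conf, Matrix.smul_apply, sq, mul_assoc]
    · intro j _ hj
      simp [conf, Matrix.smul_apply, Matrix.one_apply_ne (Ne.symm hj)]
    · simp
  rw [h1, Real.sqrt_sq (by positivity), spd, ENNReal.ofReal_mul (Real.exp_pos _).le, ofReal_norm]

lemma deriv_affine {n : ℕ} (γ : ℝ → E n) (c d t : ℝ) :
    deriv (fun t => γ (c * t + d)) t = c • deriv γ (c * t + d) := by
  have h1 := deriv_comp_mul_left c (fun t => γ (t + d)) t
  rw [h1, deriv_comp_add_const]

lemma spd_affine {n : ℕ} (φ : E n → ℝ) (γ : ℝ → E n) (c d t : ℝ) :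
    spd φ (fun t => γ (c * t + d)) t = ENNReal.ofReal |c| * spd φ γ (c * t + d) := by
  unfold spd
  rw [deriv_affine, enorm_smul, Real.enorm_eq_ofReal_abs]
  ring

lemma lintegral_spd_affine {n : ℕ} (φ : E n → ℝ) (γ : ℝ → E n) {c : ℝ} (hc : c ≠ 0) (d : ℝ)
    {s : Set ℝ} (hs : MeasurableSet s) :
    ∫⁻ t in s, spd φ (fun t => γ (c * t + d)) t
      = ∫⁻ t in (fun t => c * t + d) '' s, spd φ γ t := by
  rw [lintegral_image_eq_lintegral_abs_deriv_mul (f' := fun _ => c) hs]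
  · apply lintegral_congr
    intro t
    rw [spd_affine]
  · intro t _
    have : HasDerivAt (fun t : ℝ => c * t + d) c t := by
      simpa using ((hasDerivAt_id t).const_mul c).add_const d
    exact this.hasDerivWithinAt
  · intro t _ t' _ h
    simp only at h
    have : c * t = c * t' := by linarith
    exact mul_left_cancel₀ hc this

lemma spd_congr {n : ℕ} {φ : E n → ℝ} {γ γ' : ℝ → E n} {t : ℝ} (h : γ =ᶠ[nhds t] γ') :
    spd φ γ t = spd φ γ' t := by
  unfold spd
  rw [h.deriv_eq, h.self_of_nhds]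

/-! ### Operations on curves -/

lemma contDiffAt_affine {n : ℕ} {γ : ℝ → E n} {c d t : ℝ}
    (h : ContDiffAt ℝ 1 γ (c * t + d)) : ContDiffAt ℝ 1 (fun t => γ (c * t + d)) t :=
  ContDiffAt.comp (g := γ) (f := fun t : ℝ => c * t + d) t h (by fun_prop)

lemma finite_preimage_affine {c : ℝ} (hc : c ≠ 0) (d : ℝ) {s : Set ℝ} (hs : s.Finite) :
    ((fun t : ℝ => c * t + d) ⁻¹' s).Finite := by
  apply hs.preimage
  intro t _ t' _ h
  simp only at h
  have : c * t = c * t' := by linarith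
  exact mul_left_cancel₀ hc this

lemma IsCurve.const {n : ℕ} {Ω : Set (E n)} {x : E n} (hx : x ∈ Ω) :
    IsCurve Ω x x (fun _ => x) :=
  ⟨rfl, rfl, continuousOn_const, fun _ _ => hx, ∅, Set.finite_empty, fun _ _ => contDiffAt_const⟩

lemma IsCurve.sub {n : ℕ} {Ω : Set (E n)} {x y : E n} {γ : ℝ → E n} (h : IsCurve Ω x y γ)
    {a b : ℝ} (ha : 0 ≤ a) (hab : a < b) (hb : b ≤ 1) :
    IsCurve Ω (γ a) (γ b) (fun t => γ ((b - a) * t + a)) := by
  have hmaps : ∀ t ∈ Icc (0 : ℝ) 1, (b - a) * t + a ∈ Icc (0 : ℝ) 1 := by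
    intro t ht
    constructor
    · nlinarith [ht.1, ht.2]
    · nlinarith [ht.1, ht.2]
  refine ⟨by simp, by simp, ?_, ?_, ?_⟩
  · exact h.cont.comp (by fun_prop) hmaps
  · intro t ht
    exact h.mem _ (hmaps t ht)
  · obtain ⟨s, hs, hc⟩ := h.c1
    refine ⟨_, finite_preimage_affine (c := b - a) (by linarith) a hs, ?_⟩
    intro t ht
    apply contDiffAt_affine
    apply hc
    refine ⟨⟨?_, ?_⟩, ht.2⟩
    · nlinarith [ht.1.1, ht.1.2]
    · nlinarith [ht.1.1, ht.1.2]

lemma IsCurve.rev {n : ℕ} {Ω : Set (E n)} {x y : E n} {γ : ℝ → E n} (h : IsCurve Ω x y γ) :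
    IsCurve Ω y x (fun t => γ ((-1) * t + 1)) := by
  have hmaps : ∀ t ∈ Icc (0 : ℝ) 1, (-1) * t + 1 ∈ Icc (0 : ℝ) 1 := by
    intro t ht
    constructor
    · linarith [ht.1, ht.2]
    · linarith [ht.1, ht.2]
  refine ⟨by simpa using h.target, by simpa using h.source, ?_, ?_, ?_⟩
  · exact h.cont.comp (by fun_prop) hmaps
  · intro t ht
    exact h.mem _ (hmaps t ht)
  · obtain ⟨s, hs, hc⟩ := h.c1
    refine ⟨_, finite_preimage_affine (c := -1) (by norm_num) 1 hs, ?_⟩
    intro t ht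
    apply contDiffAt_affine
    apply hc
    refine ⟨⟨?_, ?_⟩, ht.2⟩
    · linarith [ht.1.1, ht.1.2]
    · linarith [ht.1.1, ht.1.2]

lemma len_rev {n : ℕ} (φ : E n → ℝ) (γ : ℝ → E n) :
    len (conf φ) (fun t => γ ((-1) * t + 1)) = len (conf φ) γ := by
  rw [len_conf, len_conf, lintegral_spd_affine φ γ (by norm_num) 1 measurableSet_Icc]
  congr 2
  ext u
  simp only [mem_image, mem_Icc]
  constructor
  · rintro ⟨t, ⟨h1, h2⟩, rfl⟩
    constructor <;> linarith
  · rintro ⟨h1, h2⟩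
    exact ⟨1 - u, ⟨by linarith, by linarith⟩, by ring⟩

lemma len_sub {n : ℕ} (φ : E n → ℝ) (γ : ℝ → E n) {a b : ℝ} (hab : a < b) :
    len (conf φ) (fun t => γ ((b - a) * t + a)) = ∫⁻ t in Icc a b, spd φ γ t := by
  have hc : 0 < b - a := by linarith
  rw [len_conf, lintegral_spd_affine φ γ hc.ne' a measurableSet_Icc, image_affine_Icc' hc]
  simp

/-- concatenation of two curves -/
noncomputable def cat {n : ℕ} (γ₁ γ₂ : ℝ → E n) (t : ℝ) : E n :=
  if t ≤ 1 / 2 then γ₁ (2 * t + 0) else γ₂ (2 * t + (-1))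

lemma cat_left {n : ℕ} (γ₁ γ₂ : ℝ → E n) {t : ℝ} (ht : t < 1 / 2) :
    cat γ₁ γ₂ =ᶠ[nhds t] fun t => γ₁ (2 * t + 0) := by
  filter_upwards [Iio_mem_nhds ht] with u hu
  exact if_pos (le_of_lt hu)

lemma cat_right {n : ℕ} (γ₁ γ₂ : ℝ → E n) {t : ℝ} (ht : 1 / 2 < t) :
    cat γ₁ γ₂ =ᶠ[nhds t] fun t => γ₂ (2 * t + (-1)) := by
  filter_upwards [Ioi_mem_nhds ht] with u hu
  exact if_neg (not_le.mpr hu)

lemma IsCurve.cat {n : ℕ} {Ω : Set (E n)} {x y z : E n} {γ₁ γ₂ : ℝ → E n}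
    (h₁ : IsCurve Ω x y γ₁) (h₂ : IsCurve Ω y z γ₂) : IsCurve Ω x z (cat γ₁ γ₂) := by
  refine ⟨?_, ?_, ?_, ?_, ?_⟩
  · simp only [Vale.Agent.P210.cat]
    rw [if_pos (by norm_num)]
    simpa using h₁.source
  · simp only [Vale.Agent.P210.cat]
    rw [if_neg (by norm_num)]
    have : (2 : ℝ) * 1 + (-1) = 1 := by norm_num
    rw [this]
    exact h₂.target
  · have e : Icc (0 : ℝ) 1 = Icc 0 (1 / 2) ∪ Icc (1 / 2) 1 :=
      (Icc_union_Icc_eq_Icc (by norm_num) (by norm_num)).symm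
    rw [e]
    apply ContinuousOn.union_of_isClosed ?_ ?_ isClosed_Icc isClosed_Icc
    · have h : ContinuousOn (fun t => γ₁ (2 * t + 0)) (Icc (0 : ℝ) (1 / 2)) := by
        apply h₁.cont.comp (by fun_prop)
        intro t ht
        exact ⟨by linarith [ht.1], by linarith [ht.2]⟩
      apply h.congr
      intro t ht
      exact if_pos ht.2
    · have h : ContinuousOn (fun t => γ₂ (2 * t + (-1))) (Icc (1 / 2 : ℝ) 1) := by
        apply h₂.cont.comp (by fun_prop)
        intro t ht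
        exact ⟨by linarith [ht.1], by linarith [ht.2]⟩
      apply h.congr
      intro t ht
      simp only [Vale.Agent.P210.cat]
      by_cases h3 : t ≤ 1 / 2
      · rw [if_pos h3]
        have : t = 1 / 2 := le_antisymm h3 ht.1
        rw [this]
        norm_num
        rw [h₁.target, h₂.source]
      · rw [if_neg h3]
  · intro t ht
    simp only [Vale.Agent.P210.cat]
    by_cases h3 : t ≤ 1 / 2
    · rw [if_pos h3]
      exact h₁.mem _ ⟨by linarith [ht.1], by linarith⟩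
    · rw [if_neg h3]
      push Not at h3
      exact h₂.mem _ ⟨by linarith, by linarith [ht.2]⟩
  · obtain ⟨s₁, hs₁, hc₁⟩ := h₁.c1
    obtain ⟨s₂, hs₂, hc₂⟩ := h₂.c1
    refine ⟨((fun t : ℝ => 2 * t + 0) ⁻¹' s₁ ∪ (fun t : ℝ => 2 * t + (-1)) ⁻¹' s₂) ∪ {1 / 2},
      ((finite_preimage_affine (by norm_num) 0 hs₁).union
        (finite_preimage_affine (by norm_num) (-1) hs₂)).union (finite_singleton _), ?_⟩
    intro t ht
    rcases lt_trichotomy t (1 / 2) with h | h | h
    · refine ContDiffAt.congr_of_eventuallyEq ?_ (cat_left γ₁ γ₂ h)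
      apply contDiffAt_affine
      apply hc₁
      refine ⟨⟨by linarith [ht.1.1], by linarith⟩, fun h' => ht.2 (Or.inl (Or.inl h'))⟩
    · exact absurd (Or.inr h) ht.2
    · refine ContDiffAt.congr_of_eventuallyEq ?_ (cat_right γ₁ γ₂ h)
      apply contDiffAt_affine
      apply hc₂
      refine ⟨⟨by linarith, by linarith [ht.1.2]⟩, fun h' => ht.2 (Or.inl (Or.inr h'))⟩

lemma len_cat_le {n : ℕ} (φ : E n → ℝ) (γ₁ γ₂ : ℝ → E n) :
    len (conf φ) (cat γ₁ γ₂) ≤ len (conf φ) γ₁ + len (conf φ) γ₂ := by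
  simp only [len_conf]
  have e : ∫⁻ t in Icc (0 : ℝ) 1, spd φ (cat γ₁ γ₂) t
      ≤ (∫⁻ t in Ico (0 : ℝ) (1 / 2), spd φ (cat γ₁ γ₂) t)
        + ∫⁻ t in Ioc (1 / 2 : ℝ) 1, spd φ (cat γ₁ γ₂) t := by
    have h1 : Icc (0 : ℝ) 1 ⊆ Icc 0 (1 / 2) ∪ Ioc (1 / 2) 1 := by
      intro t ht
      rcases le_or_gt t (1 / 2) with h | h
      · exact Or.inl ⟨ht.1, h⟩
      · exact Or.inr ⟨h, ht.2⟩
    refine (lintegral_mono_set h1).trans ((lintegral_union_le _ _ _).trans ?_)
    rw [setLIntegral_congr (Ico_ae_eq_Icc (μ := volume) (a := (0 : ℝ)) (b := 1 / 2))]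
  refine e.trans (add_le_add ?_ ?_)
  · calc ∫⁻ t in Ico (0 : ℝ) (1 / 2), spd φ (cat γ₁ γ₂) t
        = ∫⁻ t in Ico (0 : ℝ) (1 / 2), spd φ (fun t => γ₁ (2 * t + 0)) t :=
          setLIntegral_congr_fun measurableSet_Ico fun t ht => spd_congr (cat_left γ₁ γ₂ ht.2)
      _ ≤ ∫⁻ t in Icc (0 : ℝ) (1 / 2), spd φ (fun t => γ₁ (2 * t + 0)) t :=
          lintegral_mono_set Ico_subset_Icc_self
      _ = ∫⁻ t in Icc (0 : ℝ) 1, spd φ γ₁ t := by
          rw [lintegral_spd_affine φ γ₁ (by norm_num) 0 measurableSet_Icc,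
            image_affine_Icc' (by norm_num)]
          norm_num
  · calc ∫⁻ t in Ioc (1 / 2 : ℝ) 1, spd φ (cat γ₁ γ₂) t
        = ∫⁻ t in Ioc (1 / 2 : ℝ) 1, spd φ (fun t => γ₂ (2 * t + (-1))) t :=
          setLIntegral_congr_fun measurableSet_Ioc fun t ht => spd_congr (cat_right γ₁ γ₂ ht.1)
      _ ≤ ∫⁻ t in Icc (1 / 2 : ℝ) 1, spd φ (fun t => γ₂ (2 * t + (-1))) t :=
          lintegral_mono_set Ioc_subset_Icc_self
      _ = ∫⁻ t in Icc (0 : ℝ) 1, spd φ γ₂ t := by
          rw [lintegral_spd_affine φ γ₂ (by norm_num) (-1) measurableSet_Icc,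
            image_affine_Icc' (by norm_num)]
          norm_num

/-! ### The distance -/

lemma rdist_le_len {n : ℕ} {Ω : Set (E n)} {g : E n → Matrix (Fin n) (Fin n) ℝ} {x y : E n}
    {γ : ℝ → E n} (h : IsCurve Ω x y γ) : rdist Ω g x y ≤ len g γ :=
  iInf₂_le γ h

lemma rdist_self {n : ℕ} {Ω : Set (E n)} {φ : E n → ℝ} {x : E n} (hx : x ∈ Ω) :
    rdist Ω (conf φ) x x = 0 := by
  refine le_antisymm ((rdist_le_len (IsCurve.const hx)).trans ?_) zero_le
  rw [len_conf]
  simp [spd]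

lemma rdist_le_sub {n : ℕ} {Ω : Set (E n)} {φ : E n → ℝ} {x y : E n} {γ : ℝ → E n}
    (h : IsCurve Ω x y γ) {a b : ℝ} (ha : 0 ≤ a) (hab : a ≤ b) (hb : b ≤ 1) :
    rdist Ω (conf φ) (γ a) (γ b) ≤ ∫⁻ t in Icc a b, spd φ γ t := by
  rcases eq_or_lt_of_le hab with rfl | hab
  · rw [rdist_self (h.mem a ⟨ha, hb⟩)]
    exact zero_le
  · rw [← len_sub φ γ hab]
    exact rdist_le_len (h.sub ha hab hb)

lemma rdist_symm_le {n : ℕ} (Ω : Set (E n)) (φ : E n → ℝ) (x y : E n) :
    rdist Ω (conf φ) x y ≤ rdist Ω (conf φ) y x := by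
  refine le_iInf₂ fun γ hγ => ?_
  rw [← len_rev]
  exact rdist_le_len hγ.rev

lemma rdist_symm {n : ℕ} (Ω : Set (E n)) (φ : E n → ℝ) (x y : E n) :
    rdist Ω (conf φ) x y = rdist Ω (conf φ) y x :=
  le_antisymm (rdist_symm_le Ω φ x y) (rdist_symm_le Ω φ y x)

lemma exists_curve_lt {n : ℕ} {Ω : Set (E n)} {g : E n → Matrix (Fin n) (Fin n) ℝ} {x y : E n}
    {c : ℝ≥0∞} (h : rdist Ω g x y < c) : ∃ γ, IsCurve Ω x y γ ∧ len g γ < c := by
  unfold rdist at h
  obtain ⟨γ, hγ⟩ := iInf_lt_iff.mp h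
  obtain ⟨h1, h2⟩ := iInf_lt_iff.mp hγ
  exact ⟨γ, h1, h2⟩

lemma rdist_triangle {n : ℕ} (Ω : Set (E n)) (φ : E n → ℝ) (x y z : E n) :
    rdist Ω (conf φ) x z ≤ rdist Ω (conf φ) x y + rdist Ω (conf φ) y z := by
  refine ENNReal.le_of_forall_pos_le_add fun ε hε hfin => ?_
  have hε2 : (0 : ℝ≥0∞) < ε / 2 := by
    apply ENNReal.div_pos
    · exact_mod_cast hε.ne'
    · norm_num
  have hf := ENNReal.add_lt_top.mp hfin
  obtain ⟨γ₁, h1, h1'⟩ := exists_curve_lt
    (ENNReal.lt_add_right hf.1.ne hε2.ne')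
  obtain ⟨γ₂, h2, h2'⟩ := exists_curve_lt
    (ENNReal.lt_add_right hf.2.ne hε2.ne')
  calc rdist Ω (conf φ) x z ≤ len (conf φ) (cat γ₁ γ₂) := rdist_le_len (h1.cat h2)
    _ ≤ len (conf φ) γ₁ + len (conf φ) γ₂ := len_cat_le φ γ₁ γ₂
    _ ≤ (rdist Ω (conf φ) x y + ε / 2) + (rdist Ω (conf φ) y z + ε / 2) :=
        add_le_add h1'.le h2'.le
    _ = rdist Ω (conf φ) x y + rdist Ω (conf φ) y z + ε := by
        rw [add_add_add_comm, ENNReal.add_halves]

/-! ### Upper bound by straight segments -/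

lemma isCurve_segment {n : ℕ} {Ω : Set (E n)} {x p : E n}
    (hx : ∀ s ∈ Icc (0 : ℝ) 1, x + s • (p - x) ∈ Ω) :
    IsCurve Ω x p (fun s => x + s • (p - x)) := by
  refine ⟨by simp, by simp, by fun_prop, hx, ∅, Set.finite_empty, fun t _ => ?_⟩
  fun_prop

lemma spd_segment {n : ℕ} (φ : E n → ℝ) (x v : E n) (s : ℝ) :
    spd φ (fun s => x + s • v) s = ENNReal.ofReal (Real.exp (φ (x + s • v))) * ‖v‖ₑ := by
  unfold spd
  have h : HasDerivAt (fun s : ℝ => x + s • v) v s := by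
    simpa using ((hasDerivAt_id s).smul_const v).const_add x
  rw [h.deriv]

lemma rdist_le_segment {n : ℕ} {Ω : Set (E n)} {φ : E n → ℝ} {x p : E n}
    (hx : ∀ s ∈ Icc (0 : ℝ) 1, x + s • (p - x) ∈ Ω) :
    rdist Ω (conf φ) x p ≤ ∫⁻ s in Ioo (0 : ℝ) 1, wt Ω φ (x + s • (p - x)) * ‖p - x‖ₑ := by
  refine (rdist_le_len (isCurve_segment hx)).trans ?_
  rw [len_conf, ← setLIntegral_congr (Ioo_ae_eq_Icc (μ := volume) (a := (0 : ℝ)) (b := 1))]
  apply le_of_eq
  apply setLIntegral_congr_fun measurableSet_Ioo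
  intro s hs
  simp only
  rw [spd_segment, wt, indicator_of_mem (hx s (Ioo_subset_Icc_self hs))]

theorem rdist_le_of_segments {n : ℕ} {Ω : Set (E n)} {φ : E n → ℝ} (x y p : E n) (C : ℝ)
    (hC : 0 ≤ C)
    (hx : ∀ s ∈ Icc (0 : ℝ) 1, x + s • (p - x) ∈ Ω)
    (hy : ∀ s ∈ Icc (0 : ℝ) 1, y + s • (p - y) ∈ Ω)
    (hLx : ∫⁻ s in Ioo (0 : ℝ) 1, wt Ω φ (x + s • (p - x)) * ‖p - x‖ₑ ≤ ENNReal.ofReal C)
    (hLy : ∫⁻ s in Ioo (0 : ℝ) 1, wt Ω φ (y + s • (p - y)) * ‖p - y‖ₑ ≤ ENNReal.ofReal C) :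
    rdist Ω (conf φ) x y ≤ ENNReal.ofReal (2 * C) := by
  refine (rdist_triangle Ω φ x p y).trans ?_
  rw [rdist_symm Ω φ p y, two_mul, ENNReal.ofReal_add hC hC]
  exact add_le_add ((rdist_le_segment hx).trans hLx) ((rdist_le_segment hy).trans hLy)

/-- segment of a line, with a parameter in `[a, b]` -/
lemma rdist_le_line {n : ℕ} {Ω : Set (E n)} {φ : E n → ℝ} {x z : E n} {a b : ℝ} (hab : a ≤ b)
    (h : ∀ s ∈ Icc a b, x + s • z ∈ Ω) :
    rdist Ω (conf φ) (x + a • z) (x + b • z)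
      ≤ ∫⁻ s in Ioo a b, wt Ω φ (x + s • z) * ‖z‖ₑ := by
  rcases eq_or_lt_of_le hab with rfl | hab
  · rw [rdist_self (h a ⟨le_rfl, le_rfl⟩)]
    exact zero_le
  · have hmaps : ∀ s ∈ Icc (0 : ℝ) 1, (b - a) * s + a ∈ Icc a b := by
      intro s hs
      constructor
      · nlinarith [hs.1, hs.2]
      · nlinarith [hs.1, hs.2]
    have hcur : IsCurve Ω (x + a • z) (x + b • z) (fun s => x + ((b - a) * s + a) • z) := by
      refine ⟨by simp, by simp, by fun_prop, fun s hs => h _ (hmaps s hs), ∅, Set.finite_empty,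
        fun t _ => ?_⟩
      fun_prop
    refine (rdist_le_len hcur).trans ?_
    have e := len_sub φ (fun s : ℝ => x + s • z) hab
    rw [e, ← setLIntegral_congr (Ioo_ae_eq_Icc (μ := volume) (a := a) (b := b))]
    apply le_of_eq
    apply setLIntegral_congr_fun measurableSet_Ioo
    intro s hs
    rw [spd_segment]
    show _ = wt Ω φ (x + s • z) * ‖z‖ₑ
    rw [wt, indicator_of_mem (h s (Ioo_subset_Icc_self hs))]

/-! ### Lower bound -/

lemma enorm_sub_le_lintegral {n : ℕ} {Ω : Set (E n)} {x y : E n} {γ : ℝ → E n}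
    (h : IsCurve Ω x y γ) {b : ℝ} (hb0 : 0 ≤ b) (hb : b ≤ 1) :
    ‖γ b - x‖ₑ ≤ ∫⁻ t in Icc 0 b, ‖deriv γ t‖ₑ := by
  by_cases hfin : ∫⁻ t in Icc 0 b, ‖deriv γ t‖ₑ = ⊤
  · rw [hfin]
    exact le_top
  obtain ⟨s, hs, hc⟩ := h.c1
  have hint : IntegrableOn (deriv γ) (Icc 0 b) := by
    refine ⟨(measurable_deriv γ).aestronglyMeasurable, ?_⟩
    exact lt_top_iff_ne_top.mpr hfin
  have hii : IntervalIntegrable (deriv γ) volume 0 b := by
    rw [intervalIntegrable_iff_integrableOn_Icc_of_le hb0]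
    exact hint
  have h1 := integral_eq_of_hasDerivAt_off_countable_of_le γ (deriv γ) hb0 hs.countable
    (h.cont.mono (Icc_subset_Icc_right hb))
    (fun t ht => ((hc t ⟨⟨ht.1.1, ht.1.2.trans_le hb⟩, ht.2⟩).differentiableAt
      (by simp)).hasDerivAt) hii
  rw [h.source] at h1
  rw [← h1, intervalIntegral.integral_of_le hb0]
  refine (enorm_integral_le_lintegral_enorm _).trans ?_
  exact lintegral_mono_set Ioc_subset_Icc_self

lemma rdist_lower {n : ℕ} {Ω : Set (E n)} {φ : E n → ℝ} {x y : E n} {δ m : ℝ} (hm : 0 ≤ m)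
    (hδ : 0 ≤ δ) (hball : ∀ z ∈ Metric.closedBall x δ, z ∈ Ω → m ≤ Real.exp (φ z)) :
    ENNReal.ofReal (m * min ‖x - y‖ δ) ≤ rdist Ω (conf φ) x y := by
  refine le_iInf₂ fun γ hγ => ?_
  set ρ : ℝ := min ‖x - y‖ δ with hρ
  have hρ0 : 0 ≤ ρ := le_min (norm_nonneg _) hδ
  set B : Set ℝ := Icc (0 : ℝ) 1 ∩ {t | ρ ≤ ‖γ t - x‖} with hB
  have hcont : ContinuousOn (fun t => ‖γ t - x‖) (Icc (0 : ℝ) 1) :=
    (hγ.cont.sub continuousOn_const).norm
  have hBc : IsCompact B := by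
    have h1 : IsClosed B := by
      have := hcont.preimage_isClosed_of_isClosed isClosed_Icc (isClosed_Ici (a := ρ))
      exact this
    exact isCompact_Icc.of_isClosed_subset h1 inter_subset_left
  have hBn : B.Nonempty := by
    refine ⟨1, ⟨by norm_num, le_rfl⟩, ?_⟩
    show ρ ≤ ‖γ 1 - x‖
    rw [hγ.target, norm_sub_rev]
    exact min_le_left _ _
  obtain ⟨b, hbB, hbl⟩ := hBc.exists_isLeast hBn
  have hlt : ∀ t ∈ Ico 0 b, ‖γ t - x‖ < ρ := by
    intro t ht
    by_contra hcon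
    push Not at hcon
    have : t ∈ B := ⟨⟨ht.1, ht.2.le.trans hbB.1.2⟩, hcon⟩
    exact absurd (hbl this) (not_le.mpr ht.2)
  rw [len_conf]
  calc ENNReal.ofReal (m * ρ) = ENNReal.ofReal m * ENNReal.ofReal ρ := ENNReal.ofReal_mul hm
    _ ≤ ENNReal.ofReal m * ‖γ b - x‖ₑ := by
        gcongr
        rw [← ofReal_norm]
        exact ENNReal.ofReal_le_ofReal hbB.2
    _ ≤ ENNReal.ofReal m * ∫⁻ t in Icc 0 b, ‖deriv γ t‖ₑ := by
        gcongr
        exact enorm_sub_le_lintegral hγ hbB.1.1 hbB.1.2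
    _ = ∫⁻ t in Ico 0 b, ENNReal.ofReal m * ‖deriv γ t‖ₑ := by
        rw [lintegral_const_mul' _ _ ENNReal.ofReal_ne_top,
          setLIntegral_congr (Ico_ae_eq_Icc (μ := volume) (a := (0 : ℝ)) (b := b))]
    _ ≤ ∫⁻ t in Ico 0 b, spd φ γ t := by
        apply setLIntegral_mono' measurableSet_Ico
        intro t ht
        unfold spd
        gcongr
        apply hball
        · rw [Metric.mem_closedBall, dist_eq_norm]
          exact (hlt t ht).le.trans (min_le_right _ _)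
        · exact hγ.mem t ⟨ht.1, ht.2.le.trans hbB.1.2⟩
    _ ≤ ∫⁻ t in Icc (0 : ℝ) 1, spd φ γ t := by
        apply lintegral_mono_set
        intro t ht
        exact ⟨ht.1, ht.2.le.trans hbB.1.2⟩

lemma exists_lower {n : ℕ} {Ω : Set (E n)} {φ : E n → ℝ} (hΩ : IsOpen Ω)
    (hφ : ContinuousOn φ Ω) {y : E n} (hy : y ∈ Ω) :
    ∃ δ : ℝ, 0 < δ ∧ ∃ m : ℝ, 0 < m ∧ ∀ z ∈ Metric.closedBall y δ, z ∈ Ω ∧ m ≤ Real.exp (φ z) := by
  have h1 : ∀ᶠ z in nhds y, z ∈ Ω := hΩ.mem_nhds hy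
  have h2 : ∀ᶠ z in nhds y, φ y - 1 < φ z :=
    (hφ.continuousAt (hΩ.mem_nhds hy)).eventually_const_lt (by linarith)
  obtain ⟨δ, hδ, h⟩ := Metric.nhds_basis_closedBall.eventually_iff.mp (h1.and h2)
  exact ⟨δ, hδ, Real.exp (φ y - 1), Real.exp_pos _,
    fun z hz => ⟨(h hz).1, Real.exp_le_exp.mpr (h hz).2.le⟩⟩

lemma tendsto_of_rdist {n : ℕ} {Ω : Set (E n)} {φ : E n → ℝ} (hΩ : IsOpen Ω)
    (hφ : ContinuousOn φ Ω) {y : E n} (hy : y ∈ Ω) {u : ℕ → E n}
    (h : ∀ ε : ℝ≥0∞, 0 < ε → ∃ N, ∀ i ≥ N, rdist Ω (conf φ) (u i) y < ε) :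
    Filter.Tendsto u Filter.atTop (nhds y) := by
  obtain ⟨δ, hδ, m, hm, hball⟩ := exists_lower hΩ hφ hy
  rw [Metric.tendsto_atTop]
  intro ε hε
  obtain ⟨N, hN⟩ := h (ENNReal.ofReal (m * min ε δ)) (by
    rw [ENNReal.ofReal_pos]
    positivity)
  refine ⟨N, fun i hi => ?_⟩
  have h1 := hN i hi
  rw [rdist_symm] at h1
  have h2 := rdist_lower (Ω := Ω) (φ := φ) (x := y) (y := u i) (δ := δ) (m := m) hm.le hδ.le
    (fun z hz _ => (hball z hz).2)
  have h3 := (ENNReal.ofReal_lt_ofReal_iff (by positivity)).mp (h2.trans_lt h1)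
  have h4 := lt_of_mul_lt_mul_left h3 hm.le
  rw [dist_comm, dist_eq_norm]
  by_contra hcon
  push Not at hcon
  have : min ε δ ≤ min ‖y - u i‖ δ := min_le_min_right _ hcon
  linarith

/-! ### Segments and rays -/

lemma tail_tendsto {f : ℝ → ℝ≥0∞} {B : Set ℝ} (hf : ∫⁻ s in B, f s ≠ ⊤)
    {A : ℕ → Set ℝ} (hm : ∀ i, MeasurableSet (A i)) (hA : Antitone A) (hAB : ∀ i, A i ⊆ B)
    (he : ⋂ i, A i = ∅) :
    Filter.Tendsto (fun i => ∫⁻ s in A i, f s) Filter.atTop (nhds 0) := by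
  have h1 : ∀ i, ∫⁻ s in A i, f s = (volume.withDensity f) (A i) := fun i =>
    (withDensity_apply f (hm i)).symm
  have h2 := tendsto_measure_iInter_atTop (μ := volume.withDensity f) (s := A)
    (fun i => (hm i).nullMeasurableSet) hA
    ⟨0, by
      rw [← h1 0]
      exact ((lintegral_mono_set (hAB 0)).trans_lt (lt_top_iff_ne_top.mpr hf)).ne⟩
  rw [he, measure_empty] at h2
  refine h2.congr fun i => ?_
  rw [h1 i]
  rfl

/-- points of a line converging inside of `Ω` -/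
lemma exists_limit_line {n : ℕ} {Ω : Set (E n)} {φ : E n → ℝ} (hΩ : IsOpen Ω)
    (hφ : ContinuousOn φ Ω) (hc : IsCompleteOn Ω (conf φ)) {x z : E n} {B : Set ℝ}
    (hf : ∫⁻ s in B, wt Ω φ (x + s • z) ≠ ⊤) {σ : ℕ → ℝ} (hσ : Monotone σ)
    {A : ℕ → Set ℝ} (hm : ∀ i, MeasurableSet (A i)) (hA : Antitone A) (hAB : ∀ i, A i ⊆ B)
    (he : ⋂ i, A i = ∅) (hσA : ∀ i j, i ≤ j → Ioo (σ i) (σ j) ⊆ A i)
    (hmem : ∀ i j, i ≤ j → ∀ s ∈ Icc (σ i) (σ j), x + s • z ∈ Ω) :
    ∃ y ∈ Ω, Filter.Tendsto (fun i => x + σ i • z) Filter.atTop (nhds y) := by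
  have htail := tail_tendsto hf hm hA hAB he
  have hz : ‖z‖ₑ ≠ ⊤ := enorm_ne_top
  have htail2 : Filter.Tendsto (fun i => (∫⁻ s in A i, wt Ω φ (x + s • z)) * ‖z‖ₑ) Filter.atTop
      (nhds 0) := by
    have := ENNReal.Tendsto.mul_const htail (Or.inr hz)
    simpa using this
  have hd : ∀ i j, i ≤ j → rdist Ω (conf φ) (x + σ i • z) (x + σ j • z)
      ≤ (∫⁻ s in A i, wt Ω φ (x + s • z)) * ‖z‖ₑ := by
    intro i j hij
    refine (rdist_le_line (hσ hij) (hmem i j hij)).trans ?_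
    rw [lintegral_mul_const' _ _ hz]
    gcongr
    exact hσA i j hij
  obtain ⟨y, hy, hy'⟩ := hc (fun i => x + σ i • z)
    (fun i => hmem i i le_rfl _ ⟨le_rfl, le_rfl⟩) (by
      intro ε hε
      have h1 : ∀ᶠ i in Filter.atTop, (∫⁻ s in A i, wt Ω φ (x + s • z)) * ‖z‖ₑ < ε :=
        htail2.eventually_lt_const hε
      obtain ⟨N, hN⟩ := Filter.eventually_atTop.mp h1
      refine ⟨N, fun i hi j hj => ?_⟩
      rcases le_total i j with hij | hij
      · exact (hd i j hij).trans_lt (hN i hi)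
      · rw [rdist_symm]
        exact (hd j i hij).trans_lt (hN j hj))
  exact ⟨y, hy, tendsto_of_rdist hΩ hφ hy hy'⟩

theorem seg_of_complete {n : ℕ} {Ω : Set (E n)} {φ : E n → ℝ} (hΩ : IsOpen Ω)
    (hφ : ContinuousOn φ Ω) (hc : IsCompleteOn Ω (conf φ)) :
    ∀ x ∈ Ω, ∀ (z : E n) (R : ℝ), 0 < R → ∫⁻ s in Ioo 0 R, wt Ω φ (x + s • z) < ⊤ →
    ∀ s ∈ Icc 0 R, x + s • z ∈ Ω := by
  intro x hx z R hR hfin
  by_contra hcon
  push Not at hcon
  obtain ⟨s0, hs0, hs0'⟩ := hcon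
  -- the first exit time
  set B : Set ℝ := Icc (0 : ℝ) R ∩ {s | x + s • z ∉ Ω} with hB
  have hBc : IsCompact B := by
    apply isCompact_Icc.inter_right
    have : IsClosed ((fun s : ℝ => x + s • z) ⁻¹' Ωᶜ) :=
      hΩ.isClosed_compl.preimage (by fun_prop)
    exact this
  obtain ⟨b, hbB, hbl⟩ := hBc.exists_isLeast ⟨s0, hs0, hs0'⟩
  have hlt : ∀ t ∈ Ico 0 b, x + t • z ∈ Ω := by
    intro t ht
    by_contra hcon
    have : t ∈ B := ⟨⟨ht.1, ht.2.le.trans hbB.1.2⟩, hcon⟩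
    exact absurd (hbl this) (not_le.mpr ht.2)
  have hb0 : 0 < b := by
    rcases eq_or_lt_of_le hbB.1.1 with h | h
    · exfalso
      apply hbB.2
      rw [← h]
      simpa using hx
    · exact h
  set σ : ℕ → ℝ := fun i => b * (1 - 1 / ((i : ℝ) + 1)) with hσ
  have hσm : Monotone σ := by
    intro i j hij
    simp only [hσ]
    have : (1 : ℝ) / ((j : ℝ) + 1) ≤ 1 / ((i : ℝ) + 1) := by
      apply one_div_le_one_div_of_le (by positivity)
      have : (i : ℝ) ≤ j := by exact_mod_cast hij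
      linarith
    gcongr
  have hσ0 : ∀ i, 0 ≤ σ i := by
    intro i
    have : (1 : ℝ) / ((i : ℝ) + 1) ≤ 1 := by
      rw [div_le_one (by positivity)]
      have : (0 : ℝ) ≤ i := by positivity
      linarith
    have h2 : 0 ≤ 1 - 1 / ((i : ℝ) + 1) := by linarith
    exact mul_nonneg hb0.le h2
  have hσb : ∀ i, σ i < b := by
    intro i
    have : (0 : ℝ) < 1 / ((i : ℝ) + 1) := by positivity
    simp only [hσ]
    nlinarith
  have hσlim : Filter.Tendsto σ Filter.atTop (nhds b) := by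
    have h1 : Filter.Tendsto (fun i : ℕ => (1 : ℝ) / ((i : ℝ) + 1)) Filter.atTop (nhds 0) :=
      tendsto_one_div_add_atTop_nhds_zero_nat
    have h2 := (h1.const_sub 1).const_mul b
    rw [sub_zero, mul_one] at h2
    exact h2
  obtain ⟨y, hy, hlim⟩ := exists_limit_line (B := Ioo 0 b) (A := fun i => Ioo (σ i) b) hΩ hφ hc
    (x := x) (z := z)
    (((lintegral_mono_set (Ioo_subset_Ioo_right hbB.1.2)).trans_lt hfin).ne) hσm
    (fun i => measurableSet_Ioo) (fun i j hij => Ioo_subset_Ioo_left (hσm hij))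
    (fun i => Ioo_subset_Ioo_left (hσ0 i))
    (by
      rw [eq_empty_iff_forall_notMem]
      intro t ht
      have h1 : ∀ i, σ i < t := fun i => (mem_iInter.mp ht i).1
      have h2 : b ≤ t := le_of_tendsto' hσlim (fun i => (h1 i).le)
      exact absurd (mem_iInter.mp ht 0).2 (not_lt.mpr h2))
    (fun i j _ => Ioo_subset_Ioo_right (hσb j).le)
    (fun i j _ s hs => hlt s ⟨(hσ0 i).trans hs.1, hs.2.trans_lt (hσb j)⟩)
  have hlim2 : Filter.Tendsto (fun i => x + σ i • z) Filter.atTop (nhds (x + b • z)) :=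
    (hσlim.smul_const z).const_add x
  have : y = x + b • z := tendsto_nhds_unique hlim hlim2
  exact hbB.2 (this ▸ hy)

theorem ray_of_complete {n : ℕ} {Ω : Set (E n)} {φ : E n → ℝ} (hΩ : IsOpen Ω)
    (hφ : ContinuousOn φ Ω) (hc : IsCompleteOn Ω (conf φ)) :
    ∀ x ∈ Ω, ∀ z : E n, z ≠ 0 → ∫⁻ s in Ioi (0 : ℝ), wt Ω φ (x + s • z) = ⊤ := by
  intro x hx z hz
  by_contra hcon
  have hall : ∀ s : ℝ, 0 ≤ s → x + s • z ∈ Ω := by
    intro s hs
    refine seg_of_complete hΩ hφ hc x hx z (s + 1) (by linarith) ?_ s ⟨hs, by linarith⟩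
    exact (lintegral_mono_set Ioo_subset_Ioi_self).trans_lt (lt_top_iff_ne_top.mpr hcon)
  have hmono : Monotone (fun i : ℕ => (i : ℝ)) := Nat.mono_cast
  obtain ⟨y, hy, hlim⟩ := exists_limit_line (B := Ioi (0 : ℝ)) (A := fun i : ℕ => Ioi (i : ℝ))
    (σ := fun i : ℕ => (i : ℝ)) hΩ hφ hc (x := x) (z := z) hcon hmono
    (fun i => measurableSet_Ioi) (fun i j hij => Ioi_subset_Ioi (hmono hij))
    (fun i => Ioi_subset_Ioi (by positivity))
    (by
      rw [eq_empty_iff_forall_notMem]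
      intro t ht
      obtain ⟨i, hi⟩ := exists_nat_ge t
      exact absurd (mem_iInter.mp ht i) (not_lt.mpr hi))
    (fun i j _ => Ioo_subset_Ioi_self)
    (fun i j _ s hs => hall s (le_trans (by positivity) hs.1))
  -- consecutive terms are at distance `‖z‖`
  have h1 : Filter.Tendsto (fun i : ℕ => (x + ((i + 1 : ℕ) : ℝ) • z) - (x + (i : ℝ) • z))
      Filter.atTop (nhds (y - y)) :=
    (hlim.comp (Filter.tendsto_add_atTop_nat 1)).sub hlim
  have h2 : (fun i : ℕ => (x + ((i + 1 : ℕ) : ℝ) • z) - (x + (i : ℝ) • z)) = fun _ => z := by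
    funext i
    push_cast
    rw [add_smul, one_smul]
    abel
  rw [h2, sub_self] at h1
  exact hz (tendsto_nhds_unique tendsto_const_nhds h1)

end Vale.Agent.P210
end
end

section

section

open scoped ENNReal ContDiff
open MeasureTheory Set

namespace Vale.Agent.P210

/-! ### Distance to a set -/

/-- distance to the set `K` for the metric `conf φ` on `Ω` -/
noncomputable def dK {n : ℕ} (Ω : Set (E n)) (φ : E n → ℝ) (K : Set (E n)) (y : E n) : ℝ≥0∞ :=
  ⨅ x ∈ K, rdist Ω (conf φ) x y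

lemma dK_le {n : ℕ} {Ω : Set (E n)} {φ : E n → ℝ} {K : Set (E n)} {x y : E n} (hx : x ∈ K) :
    dK Ω φ K y ≤ rdist Ω (conf φ) x y :=
  iInf₂_le x hx

lemma exists_of_dK_lt {n : ℕ} {Ω : Set (E n)} {φ : E n → ℝ} {K : Set (E n)} {y : E n} {c : ℝ≥0∞}
    (h : dK Ω φ K y < c) : ∃ x ∈ K, ∃ γ, IsCurve Ω x y γ ∧ len (conf φ) γ < c := by
  unfold dK at h
  obtain ⟨x, hx⟩ := iInf_lt_iff.mp h
  obtain ⟨h1, h2⟩ := iInf_lt_iff.mp hx
  exact ⟨x, h1, exists_curve_lt h2⟩

lemma dK_triangle {n : ℕ} (Ω : Set (E n)) (φ : E n → ℝ) (K : Set (E n)) (y y' : E n) :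
    dK Ω φ K y ≤ dK Ω φ K y' + rdist Ω (conf φ) y' y := by
  unfold dK
  simp only [ENNReal.iInf_add]
  refine le_iInf₂ fun x hx => ?_
  exact (iInf₂_le x hx).trans (rdist_triangle Ω φ x y' y)

lemma dK_eq_top {n : ℕ} {Ω : Set (E n)} {φ : E n → ℝ} {K : Set (E n)} {y : E n} (hy : y ∉ Ω) :
    dK Ω φ K y = ⊤ := by
  by_contra hcon
  obtain ⟨x, _, γ, hγ, _⟩ := exists_of_dK_lt (lt_top_iff_ne_top.mpr hcon)
  apply hy
  rw [← hγ.target]
  exact hγ.mem 1 ⟨by norm_num, le_rfl⟩

lemma dK_self {n : ℕ} {Ω : Set (E n)} {φ : E n → ℝ} {K : Set (E n)} (hK : K ⊆ Ω) {y : E n}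
    (hy : y ∈ K) : dK Ω φ K y = 0 := by
  refine le_antisymm ((dK_le hy).trans ?_) zero_le
  rw [rdist_self (hK hy)]

/-! ### Cutting a curve -/

/-- splitting a curve at a point where the remaining length is prescribed -/
lemma exists_split {n : ℕ} {Ω : Set (E n)} {φ : E n → ℝ} (hφ : ContinuousOn φ Ω) {x y : E n}
    {γ : ℝ → E n} (hγ : IsCurve Ω x y γ) {ℓ c : ℝ} (hℓ : len (conf φ) γ = ENNReal.ofReal ℓ)
    (hc0 : 0 ≤ c) (hcℓ : c ≤ ℓ) :
    ∃ t ∈ Icc (0 : ℝ) 1, ∫⁻ s in Icc 0 t, spd φ γ s = ENNReal.ofReal c ∧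
      ∫⁻ s in Icc t 1, spd φ γ s = ENNReal.ofReal (ℓ - c) := by
  have hℓ0 : 0 ≤ ℓ := hc0.trans hcℓ
  set f : ℝ → ℝ := fun t => Real.exp (φ (γ t)) * ‖deriv γ t‖ with hf
  have hf0 : ∀ t, 0 ≤ f t := fun t => by positivity
  have hspd : ∀ t, spd φ γ t = ENNReal.ofReal (f t) := by
    intro t
    rw [hf, spd, ENNReal.ofReal_mul (Real.exp_pos _).le, ofReal_norm]
  have hmeas : AEStronglyMeasurable f (volume.restrict (Icc (0 : ℝ) 1)) := by
    have h1 : ContinuousOn (fun t => Real.exp (φ (γ t))) (Icc (0 : ℝ) 1) :=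
      Real.continuous_exp.comp_continuousOn (hφ.comp hγ.cont hγ.mem)
    have h2 : AEStronglyMeasurable (fun t => Real.exp (φ (γ t)))
        (volume.restrict (Icc (0 : ℝ) 1)) := h1.aestronglyMeasurable measurableSet_Icc
    exact h2.mul (measurable_deriv γ).aestronglyMeasurable.norm
  rw [len_conf] at hℓ
  have hint : IntegrableOn f (Icc 0 1) := by
    refine ⟨hmeas, ?_⟩
    show ∫⁻ t in Icc (0 : ℝ) 1, ‖f t‖ₑ < ⊤
    have : ∀ t, ‖f t‖ₑ = spd φ γ t := by
      intro t
      rw [hspd, Real.enorm_eq_ofReal (hf0 t)]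
    simp only [this]
    rw [hℓ]
    exact ENNReal.ofReal_lt_top
  have hset : ∀ a b, 0 ≤ a → b ≤ 1 → ∫⁻ s in Icc a b, spd φ γ s
      = ENNReal.ofReal (∫ s in Icc a b, f s) := by
    intro a b ha hb
    rw [ofReal_integral_eq_lintegral_ofReal (hint.mono_set (Icc_subset_Icc ha hb))
      (Filter.Eventually.of_forall hf0)]
    simp only [hspd]
  have hℓ' : ∫ s in Icc (0 : ℝ) 1, f s = ℓ := by
    rw [hset 0 1 le_rfl le_rfl] at hℓ
    exact (ENNReal.ofReal_eq_ofReal_iff (integral_nonneg hf0) hℓ0).mp hℓ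
  have hcont := intervalIntegral.continuousOn_primitive_Icc hint
  have hivt := intermediate_value_Icc (zero_le_one (α := ℝ)) hcont
  have hmem : c ∈ Icc (∫ t in Icc (0 : ℝ) 0, f t) (∫ t in Icc (0 : ℝ) 1, f t) := by
    rw [hℓ']
    simpa using ⟨hc0, hcℓ⟩
  obtain ⟨t, ht, htc⟩ := hivt hmem
  simp only at htc
  refine ⟨t, ht, ?_, ?_⟩
  · rw [hset 0 t le_rfl ht.2, htc]
  · rw [hset t 1 ht.1 le_rfl]
    congr 1
    have h1 : ∫ s in Icc (0 : ℝ) 1, f s = (∫ s in Icc 0 t, f s) + ∫ s in Icc t 1, f s := by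
      have e1 : Icc (0 : ℝ) 1 = Icc 0 t ∪ Ioc t 1 := (Icc_union_Ioc_eq_Icc ht.1 ht.2).symm
      rw [e1, setIntegral_union ?_ measurableSet_Ioc
        (hint.mono_set (Icc_subset_Icc le_rfl ht.2))
        (hint.mono_set (fun s hs => ⟨ht.1.trans hs.1.le, hs.2⟩)), integral_Icc_eq_integral_Ioc (x := t)]
      rw [Set.disjoint_left]
      intro s hs hs'
      exact absurd hs.2 (not_le.mpr hs'.1)
    rw [hℓ', htc] at h1
    linarith

lemma exists_cut {n : ℕ} {Ω : Set (E n)} {φ : E n → ℝ} (hφ : ContinuousOn φ Ω) {K : Set (E n)}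
    {y : E n} {ρ η : ℝ} (hη : 0 < η) (h : dK Ω φ K y < ENNReal.ofReal ρ) :
    ∃ y' ∈ Ω, (y' ∈ K ∨ dK Ω φ K y' < ENNReal.ofReal (ρ - η)) ∧
      rdist Ω (conf φ) y' y < ENNReal.ofReal (2 * η) := by
  obtain ⟨x, hx, γ, hγ, hlen⟩ := exists_of_dK_lt h
  have hfin : len (conf φ) γ ≠ ⊤ := (hlen.trans ENNReal.ofReal_lt_top).ne
  set ℓ : ℝ := (len (conf φ) γ).toReal with hℓ
  have hℓ' : len (conf φ) γ = ENNReal.ofReal ℓ := (ENNReal.ofReal_toReal hfin).symm
  have hℓ0 : 0 ≤ ℓ := ENNReal.toReal_nonneg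
  have hℓρ : ℓ < ρ := by
    rw [hℓ'] at hlen
    exact (ENNReal.ofReal_lt_ofReal_iff_of_nonneg hℓ0).mp hlen
  rcases lt_or_ge ℓ (2 * η) with hc | hc
  · refine ⟨x, ?_, Or.inl hx, ?_⟩
    · rw [← hγ.source]
      exact hγ.mem 0 ⟨le_rfl, by norm_num⟩
    · refine (rdist_le_len hγ).trans_lt ?_
      rw [hℓ']
      exact (ENNReal.ofReal_lt_ofReal_iff (by linarith)).mpr hc
  · obtain ⟨t, ht, h1, h2⟩ := exists_split hφ hγ hℓ' (c := ℓ - 3 / 2 * η) (by linarith) (by linarith)
    refine ⟨γ t, hγ.mem t ht, Or.inr ?_, ?_⟩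
    · have h3 := rdist_le_sub (φ := φ) hγ le_rfl ht.1 ht.2
      rw [h1, hγ.source] at h3
      refine ((dK_le hx).trans h3).trans_lt ?_
      exact (ENNReal.ofReal_lt_ofReal_iff (by linarith)).mpr (by linarith)
    · have h3 := rdist_le_sub (φ := φ) hγ ht.1 ht.2 le_rfl
      rw [h2, hγ.target] at h3
      refine h3.trans_lt ?_
      exact (ENNReal.ofReal_lt_ofReal_iff (by linarith)).mpr (by linarith)

/-! ### Local bounds -/

lemma rdist_upper {n : ℕ} {Ω : Set (E n)} {φ : E n → ℝ} {c x y : E n} {δ M : ℝ}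
    (hball : ∀ z ∈ Metric.closedBall c δ, z ∈ Ω ∧ Real.exp (φ z) ≤ M)
    (hx : x ∈ Metric.closedBall c δ) (hy : y ∈ Metric.closedBall c δ) :
    rdist Ω (conf φ) x y ≤ ENNReal.ofReal (M * ‖x - y‖) := by
  have hM : 0 ≤ M := (Real.exp_pos _).le.trans (hball x hx).2
  have hseg : ∀ s ∈ Icc (0 : ℝ) 1, x + s • (y - x) ∈ Metric.closedBall c δ := by
    intro s hs
    have h1 := (convex_closedBall c δ) hx hy (a := 1 - s) (b := s) (by linarith [hs.2]) hs.1
      (by ring)
    have h2 : (1 - s) • x + s • y = x + s • (y - x) := by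
      rw [sub_smul, one_smul, smul_sub]
      abel
    rwa [h2] at h1
  refine (rdist_le_segment (φ := φ) fun s hs => (hball _ (hseg s hs)).1).trans ?_
  have h3 : ∀ s ∈ Ioo (0 : ℝ) 1, wt Ω φ (x + s • (y - x)) * ‖y - x‖ₑ
      ≤ ENNReal.ofReal (M * ‖x - y‖) := by
    intro s hs
    have h4 := hball _ (hseg s (Ioo_subset_Icc_self hs))
    rw [wt, indicator_of_mem h4.1, ENNReal.ofReal_mul hM, ← norm_sub_rev y x, ofReal_norm]
    gcongr
    exact h4.2
  refine (setLIntegral_mono' measurableSet_Ioo h3).trans ?_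
  simp

lemma exists_upper {n : ℕ} {Ω : Set (E n)} {φ : E n → ℝ} (hΩ : IsOpen Ω)
    (hφ : ContinuousOn φ Ω) {y : E n} (hy : y ∈ Ω) :
    ∃ δ : ℝ, 0 < δ ∧ ∃ M : ℝ, 0 < M ∧ ∀ z ∈ Metric.closedBall y δ, z ∈ Ω ∧ Real.exp (φ z) ≤ M := by
  have h1 : ∀ᶠ z in nhds y, z ∈ Ω := hΩ.mem_nhds hy
  have h2 : ∀ᶠ z in nhds y, φ z < φ y + 1 :=
    (hφ.continuousAt (hΩ.mem_nhds hy)).eventually_lt_const (by linarith)
  obtain ⟨δ, hδ, h⟩ := Metric.nhds_basis_closedBall.eventually_iff.mp (h1.and h2)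
  exact ⟨δ, hδ, Real.exp (φ y + 1), Real.exp_pos _,
    fun z hz => ⟨(h hz).1, Real.exp_le_exp.mpr (h hz).2.le⟩⟩

/-! ### The metric space -/

/-- the points of `Ω`, to be equipped with the distance of `conf φ` -/
structure RD {n : ℕ} (Ω : Set (E n)) (φ : E n → ℝ) : Type where
  /-- the underlying point -/
  val : E n
  /-- it is in `Ω` -/
  mem : val ∈ Ω

noncomputable instance {n : ℕ} (Ω : Set (E n)) (φ : E n → ℝ) : PseudoEMetricSpace (RD Ω φ) where
  edist x y := rdist Ω (conf φ) x.1 y.1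
  edist_self x := rdist_self x.mem
  edist_comm x y := rdist_symm Ω φ x.1 y.1
  edist_triangle x y z := rdist_triangle Ω φ x.1 y.1 z.1

lemma RD.edist_def {n : ℕ} {Ω : Set (E n)} {φ : E n → ℝ} (x y : RD Ω φ) :
    edist x y = rdist Ω (conf φ) x.1 y.1 := rfl

lemma RD.complete {n : ℕ} {Ω : Set (E n)} {φ : E n → ℝ} (hc : IsCompleteOn Ω (conf φ)) :
    CompleteSpace (RD Ω φ) := by
  apply EMetric.complete_of_cauchySeq_tendsto
  intro u hu
  rw [EMetric.cauchySeq_iff] at hu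
  obtain ⟨x, hx, h⟩ := hc (fun i => (u i).1) (fun i => (u i).2) (fun ε hε => by
    obtain ⟨N, hN⟩ := hu ε hε
    exact ⟨N, fun i hi j hj => hN i hi j hj⟩)
  refine ⟨⟨x, hx⟩, ?_⟩
  rw [EMetric.tendsto_atTop]
  exact h

lemma RD.continuous_val {n : ℕ} {Ω : Set (E n)} {φ : E n → ℝ} (hΩ : IsOpen Ω)
    (hφ : ContinuousOn φ Ω) : Continuous (fun x : RD Ω φ => (x.1 : E n)) := by
  rw [continuous_iff_continuousAt]
  intro x
  rw [ContinuousAt, EMetric.tendsto_nhds]
  intro ε hε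
  obtain ⟨δ, hδ, m, hm, hball⟩ := exists_lower hΩ hφ x.2
  obtain ⟨ε', hε', hε'ε⟩ : ∃ ε' : ℝ, 0 < ε' ∧ ENNReal.ofReal ε' ≤ ε := by
    by_cases h : ε = ⊤
    · exact ⟨1, one_pos, h ▸ le_top⟩
    · exact ⟨ε.toReal, ENNReal.toReal_pos hε.ne' h, (ENNReal.ofReal_toReal h).le⟩
  have h1 : Metric.eball x (ENNReal.ofReal (m * min ε' δ)) ∈ nhds x := by
    apply Metric.eball_mem_nhds
    rw [ENNReal.ofReal_pos]
    positivity
  filter_upwards [h1] with y hy
  rw [Metric.mem_eball', RD.edist_def] at hy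
  have h2 := rdist_lower (Ω := Ω) (φ := φ) (x := x.1) (y := y.1) (δ := δ) (m := m) hm.le hδ.le
    (fun z hz _ => (hball z hz).2)
  have h3 := (ENNReal.ofReal_lt_ofReal_iff (by positivity)).mp (h2.trans_lt hy)
  have h4 := lt_of_mul_lt_mul_left h3 hm.le
  refine lt_of_lt_of_le ?_ hε'ε
  rw [edist_comm, edist_dist, dist_eq_norm]
  rw [ENNReal.ofReal_lt_ofReal_iff hε']
  by_contra hcon
  push Not at hcon
  have : min ε' δ ≤ min ‖x.1 - y.1‖ δ := min_le_min_right _ hcon
  linarith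

lemma RD.continuous_mk {n : ℕ} {Ω : Set (E n)} {φ : E n → ℝ} (hΩ : IsOpen Ω)
    (hφ : ContinuousOn φ Ω) : Continuous (fun x : Ω => (⟨x.1, x.2⟩ : RD Ω φ)) := by
  rw [continuous_iff_continuousAt]
  intro x
  rw [ContinuousAt, EMetric.tendsto_nhds]
  intro ε hε
  obtain ⟨δ, hδ, M, hM, hball⟩ := exists_upper hΩ hφ x.2
  obtain ⟨ε', hε', hε'ε⟩ : ∃ ε' : ℝ, 0 < ε' ∧ ENNReal.ofReal ε' ≤ ε := by
    by_cases h : ε = ⊤
    · exact ⟨1, one_pos, h ▸ le_top⟩
    · exact ⟨ε.toReal, ENNReal.toReal_pos hε.ne' h, (ENNReal.ofReal_toReal h).le⟩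
  have h1 : Metric.ball x (min δ (ε' / M)) ∈ nhds x := by
    apply Metric.ball_mem_nhds
    positivity
  filter_upwards [h1] with y hy
  rw [Metric.mem_ball, Subtype.dist_eq] at hy
  refine lt_of_lt_of_le ?_ hε'ε
  rw [RD.edist_def]
  have h2 := rdist_upper (Ω := Ω) (φ := φ) (c := x.1) (x := y.1) (y := x.1) hball
    (Metric.mem_closedBall.mpr (hy.le.trans (min_le_left _ _)))
    (Metric.mem_closedBall_self hδ.le)
  refine lt_of_le_of_lt h2 ?_
  rw [ENNReal.ofReal_lt_ofReal_iff hε', ← dist_eq_norm]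
  have h3 := hy.trans_le (min_le_right _ _)
  rw [lt_div_iff₀ hM] at h3
  linarith

/-! ### Balls are relatively compact -/

/-- the points at distance less than `ρ` from `K` are in a compact subset of `Ω` -/
def HR {n : ℕ} (Ω : Set (E n)) (φ : E n → ℝ) (K : Set (E n)) (ρ : ℝ) : Prop :=
  ∃ L : Set (E n), IsCompact L ∧ L ⊆ Ω ∧ ∀ y ∈ Ω, dK Ω φ K y < ENNReal.ofReal ρ → y ∈ L

lemma HR.mono {n : ℕ} {Ω : Set (E n)} {φ : E n → ℝ} {K : Set (E n)} {ρ ρ' : ℝ}
    (h : HR Ω φ K ρ) (hρ : ρ' ≤ ρ) : HR Ω φ K ρ' := by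
  obtain ⟨L, h1, h2, h3⟩ := h
  exact ⟨L, h1, h2, fun y hy hy' => h3 y hy (hy'.trans_le (ENNReal.ofReal_le_ofReal hρ))⟩

lemma isCompact_RD {n : ℕ} {Ω : Set (E n)} {φ : E n → ℝ} (hΩ : IsOpen Ω)
    (hφ : ContinuousOn φ Ω) {L : Set (E n)} (hL : IsCompact L) (hLΩ : L ⊆ Ω) :
    IsCompact {y : RD Ω φ | y.val ∈ L} := by
  have h1 : IsCompact ((fun x : Ω => (x : E n)) ⁻¹' L) := by
    rw [Topology.IsInducing.subtypeVal.isCompact_preimage_iff]
    · exact hL
    · simpa using hLΩ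
  have h2 := h1.image (RD.continuous_mk hΩ hφ)
  convert h2 using 1
  ext y
  constructor
  · intro hy
    exact ⟨⟨y.val, y.mem⟩, hy, rfl⟩
  · rintro ⟨z, hz, rfl⟩
    exact hz

lemma HR_limit {n : ℕ} {Ω : Set (E n)} {φ : E n → ℝ} (hΩ : IsOpen Ω)
    (hφ : ContinuousOn φ Ω) (hc : IsCompleteOn Ω (conf φ)) {K : Set (E n)} (hK : IsCompact K)
    (hKΩ : K ⊆ Ω) {ρ : ℝ} (h : ∀ ρ' < ρ, HR Ω φ K ρ') : HR Ω φ K ρ := by
  have := RD.complete hc
  set N : Set (RD Ω φ) := {y | dK Ω φ K y.val < ENNReal.ofReal ρ} with hN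
  have hNt : TotallyBounded N := by
    rw [EMetric.totallyBounded_iff]
    intro ε hε
    obtain ⟨ε', hε', hε'ε⟩ : ∃ ε' : ℝ, 0 < ε' ∧ ENNReal.ofReal ε' ≤ ε := by
      by_cases h : ε = ⊤
      · exact ⟨1, one_pos, h ▸ le_top⟩
      · exact ⟨ε.toReal, ENNReal.toReal_pos hε.ne' h, (ENNReal.ofReal_toReal h).le⟩
    obtain ⟨L, hLc, hLΩ, hL⟩ := h (ρ - ε' / 4) (by linarith)
    have hcomp := isCompact_RD (φ := φ) hΩ hφ (hLc.union hK) (union_subset hLΩ hKΩ)
    obtain ⟨t, ht, htc⟩ := EMetric.totallyBounded_iff.mp hcomp.totallyBounded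
      (ENNReal.ofReal (ε' / 2)) (by rw [gt_iff_lt, ENNReal.ofReal_pos]; positivity)
    refine ⟨t, ht, ?_⟩
    intro y hy
    obtain ⟨y', hy'Ω, hy', hd⟩ := exists_cut hφ (η := ε' / 4) (by positivity) hy
    have hmem : (⟨y', hy'Ω⟩ : RD Ω φ) ∈ {y : RD Ω φ | y.val ∈ L ∪ K} := by
      rcases hy' with h1 | h1
      · exact Or.inr h1
      · exact Or.inl (hL y' hy'Ω h1)
    obtain ⟨z, hz, hzy⟩ := mem_iUnion₂.mp (htc hmem)
    refine mem_iUnion₂.mpr ⟨z, hz, ?_⟩
    rw [Metric.mem_eball] at hzy ⊢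
    have e1 : edist y (⟨y', hy'Ω⟩ : RD Ω φ) < ENNReal.ofReal (ε' / 2) := by
      rw [edist_comm, RD.edist_def]
      refine hd.trans_le (ENNReal.ofReal_le_ofReal (by linarith))
    calc edist y z ≤ edist y (⟨y', hy'Ω⟩ : RD Ω φ) + edist (⟨y', hy'Ω⟩ : RD Ω φ) z :=
          edist_triangle _ _ _
      _ < ENNReal.ofReal (ε' / 2) + ENNReal.ofReal (ε' / 2) := ENNReal.add_lt_add e1 hzy
      _ = ENNReal.ofReal ε' := by
          rw [← ENNReal.ofReal_add (by positivity) (by positivity), add_halves]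
      _ ≤ ε := hε'ε
  have hcl : IsCompact (closure N) := hNt.closure.isCompact_of_isClosed isClosed_closure
  refine ⟨(fun x : RD Ω φ => x.val) '' closure N, hcl.image (RD.continuous_val hΩ hφ), ?_, ?_⟩
  · rintro _ ⟨x, _, rfl⟩
    exact x.mem
  · intro y hy hy'
    exact ⟨⟨y, hy⟩, subset_closure hy', rfl⟩

lemma HR_step {n : ℕ} {Ω : Set (E n)} {φ : E n → ℝ} (hΩ : IsOpen Ω)
    (hφ : ContinuousOn φ Ω) {K : Set (E n)} (hK : IsCompact K)
    (hKΩ : K ⊆ Ω) {ρ : ℝ} (h : HR Ω φ K ρ) : ∃ η : ℝ, 0 < η ∧ HR Ω φ K (ρ + η) := by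
  obtain ⟨L, hLc, hLΩ, hL⟩ := h
  obtain ⟨δ, hδ, hδΩ⟩ := (hLc.union hK).exists_cthickening_subset_open hΩ (union_subset hLΩ hKΩ)
  have hL2 : IsCompact (Metric.cthickening δ (L ∪ K)) := (hLc.union hK).cthickening
  obtain ⟨C, hC⟩ := hL2.exists_bound_of_continuousOn (hφ.mono hδΩ)
  refine ⟨Real.exp (-C) * δ / 4, by positivity, Metric.cthickening δ (L ∪ K), hL2, hδΩ, ?_⟩
  intro y hy hy'
  obtain ⟨y', hy'Ω, hy'', hd⟩ := exists_cut hφ (η := Real.exp (-C) * δ / 4) (by positivity) hy'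
  rw [add_sub_cancel_right] at hy''
  have hmem : y' ∈ L ∪ K := by
    rcases hy'' with h1 | h1
    · exact Or.inr h1
    · exact Or.inl (hL y' hy'Ω h1)
  have hsub : Metric.closedBall y' δ ⊆ Metric.cthickening δ (L ∪ K) :=
    Metric.closedBall_subset_cthickening hmem δ
  have h2 := rdist_lower (Ω := Ω) (φ := φ) (x := y') (y := y) (δ := δ) (m := Real.exp (-C))
    (Real.exp_pos _).le hδ.le (fun z hz _ => by
      apply Real.exp_le_exp.mpr
      have := hC z (hsub hz)
      rw [Real.norm_eq_abs] at this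
      linarith [neg_abs_le (φ z)])
  have h3 := (ENNReal.ofReal_lt_ofReal_iff (by positivity)).mp (h2.trans_lt hd)
  apply hsub
  rw [Metric.mem_closedBall, dist_comm, dist_eq_norm]
  by_contra hcon
  push Not at hcon
  rw [min_eq_right hcon.le] at h3
  have : 0 < Real.exp (-C) * δ := by positivity
  linarith

lemma HR_all {n : ℕ} {Ω : Set (E n)} {φ : E n → ℝ} (hΩ : IsOpen Ω)
    (hφ : ContinuousOn φ Ω) (hc : IsCompleteOn Ω (conf φ)) {K : Set (E n)} (hK : IsCompact K)
    (hKΩ : K ⊆ Ω) (ρ : ℝ) : HR Ω φ K ρ := by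
  by_contra hcon
  set S : Set ℝ := {r | HR Ω φ K r} with hS
  have hb : BddAbove S := by
    refine ⟨ρ, fun r hr => ?_⟩
    by_contra hr'
    push Not at hr'
    exact hcon (HR.mono hr hr'.le)
  have h0 : (0 : ℝ) ∈ S := by
    refine ⟨∅, isCompact_empty, empty_subset _, ?_⟩
    intro y _ hy
    rw [ENNReal.ofReal_zero] at hy
    exact absurd hy not_lt_zero
  have h1 : HR Ω φ K (sSup S) := by
    apply HR_limit hΩ hφ hc hK hKΩ
    intro ρ' hρ'
    obtain ⟨r, hr, hr'⟩ := exists_lt_of_lt_csSup ⟨0, h0⟩ hρ'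
    exact HR.mono hr hr'.le
  obtain ⟨η, hη, h2⟩ := HR_step hΩ hφ hK hKΩ h1
  have := le_csSup hb h2
  linarith

/-! ### The Lipschitz cut-off -/

/-- the Lipschitz cut-off function -/
noncomputable def cut0 {n : ℕ} (Ω : Set (E n)) (φ : E n → ℝ) (K : Set (E n)) (ε : ℝ) (y : E n) :
    ℝ :=
  (1 - ENNReal.ofReal ε * dK Ω φ K y).toReal

lemma cut0_nonneg {n : ℕ} (Ω : Set (E n)) (φ : E n → ℝ) (K : Set (E n)) (ε : ℝ) (y : E n) :
    0 ≤ cut0 Ω φ K ε y := ENNReal.toReal_nonneg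

lemma cut0_le_one {n : ℕ} (Ω : Set (E n)) (φ : E n → ℝ) (K : Set (E n)) (ε : ℝ) (y : E n) :
    cut0 Ω φ K ε y ≤ 1 := by
  unfold cut0
  have : (1 - ENNReal.ofReal ε * dK Ω φ K y) ≤ 1 := tsub_le_self
  simpa using ENNReal.toReal_mono ENNReal.one_ne_top this

lemma cut0_of_mem {n : ℕ} {Ω : Set (E n)} {φ : E n → ℝ} {K : Set (E n)} (hK : K ⊆ Ω) {ε : ℝ}
    {y : E n} (hy : y ∈ K) : cut0 Ω φ K ε y = 1 := by
  unfold cut0
  rw [dK_self hK hy]
  simp

lemma cut0_ne_zero {n : ℕ} {Ω : Set (E n)} {φ : E n → ℝ} {K : Set (E n)} {ε : ℝ} (hε : 0 < ε)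
    {y : E n} (h : cut0 Ω φ K ε y ≠ 0) : y ∈ Ω ∧ dK Ω φ K y < ENNReal.ofReal (1 / ε) := by
  have hlt : dK Ω φ K y < ENNReal.ofReal (1 / ε) := by
    by_contra hcon
    push Not at hcon
    apply h
    unfold cut0
    have h1 : (1 : ℝ≥0∞) ≤ ENNReal.ofReal ε * dK Ω φ K y := by
      calc (1 : ℝ≥0∞) = ENNReal.ofReal ε * ENNReal.ofReal (1 / ε) := by
            rw [← ENNReal.ofReal_mul hε.le, mul_one_div_cancel hε.ne', ENNReal.ofReal_one]
        _ ≤ _ := by gcongr
    rw [tsub_eq_zero_of_le h1, ENNReal.toReal_zero]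
  refine ⟨?_, hlt⟩
  by_contra hy
  rw [dK_eq_top hy] at hlt
  exact absurd hlt not_top_lt

lemma cut0_sub_le {n : ℕ} {Ω : Set (E n)} {φ : E n → ℝ} {K : Set (E n)} {ε : ℝ} (hε : 0 ≤ ε)
    {x y : E n} {d : ℝ} (hd : 0 ≤ d) (h : rdist Ω (conf φ) x y ≤ ENNReal.ofReal d) :
    cut0 Ω φ K ε x - cut0 Ω φ K ε y ≤ ε * d := by
  unfold cut0
  have h1 : dK Ω φ K y ≤ dK Ω φ K x + ENNReal.ofReal d :=
    (dK_triangle Ω φ K y x).trans (by gcongr)
  have h2 : 1 - ENNReal.ofReal ε * dK Ω φ K x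
      ≤ (1 - ENNReal.ofReal ε * dK Ω φ K y) + ENNReal.ofReal (ε * d) := by
    rw [tsub_le_iff_right]
    calc (1 : ℝ≥0∞) ≤ (1 - ENNReal.ofReal ε * dK Ω φ K y) + ENNReal.ofReal ε * dK Ω φ K y :=
          le_tsub_add
      _ ≤ (1 - ENNReal.ofReal ε * dK Ω φ K y)
          + ENNReal.ofReal ε * (dK Ω φ K x + ENNReal.ofReal d) := by gcongr
      _ = _ := by
          rw [mul_add, ← ENNReal.ofReal_mul hε]
          ring
  have hne : ∀ z : E n, 1 - ENNReal.ofReal ε * dK Ω φ K z ≠ ⊤ := fun z =>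
    ((tsub_le_self).trans_lt ENNReal.one_lt_top).ne
  have h3 := ENNReal.toReal_mono (ENNReal.add_ne_top.mpr ⟨hne y, ENNReal.ofReal_ne_top⟩) h2
  rw [ENNReal.toReal_add (hne y) ENNReal.ofReal_ne_top,
    ENNReal.toReal_ofReal (mul_nonneg hε hd)] at h3
  linarith

lemma abs_cut0_sub_le {n : ℕ} {Ω : Set (E n)} {φ : E n → ℝ} {K : Set (E n)} {ε : ℝ} (hε : 0 ≤ ε)
    {x y : E n} {d : ℝ} (hd : 0 ≤ d) (h : rdist Ω (conf φ) x y ≤ ENNReal.ofReal d) :
    |cut0 Ω φ K ε x - cut0 Ω φ K ε y| ≤ ε * d := by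
  rw [abs_le]
  constructor
  · have := cut0_sub_le (K := K) hε hd (by rwa [rdist_symm] : rdist Ω (conf φ) y x ≤ _)
    linarith
  · exact cut0_sub_le hε hd h

lemma continuous_cut0 {n : ℕ} {Ω : Set (E n)} {φ : E n → ℝ} (hΩ : IsOpen Ω)
    (hφ : ContinuousOn φ Ω) {K L : Set (E n)} {ε : ℝ} (hε : 0 ≤ ε) (hL : IsClosed L)
    (hLΩ : L ⊆ Ω) (h0 : ∀ y, y ∉ L → cut0 Ω φ K ε y = 0) : Continuous (cut0 Ω φ K ε) := by
  rw [continuous_iff_continuousAt]
  intro x
  by_cases hx : x ∈ Ω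
  · obtain ⟨δ, hδ, M, hM, hball⟩ := exists_upper hΩ hφ hx
    rw [ContinuousAt, tendsto_iff_dist_tendsto_zero]
    have h1 : ∀ᶠ y in nhds x, dist (cut0 Ω φ K ε y) (cut0 Ω φ K ε x) ≤ ε * (M * ‖y - x‖) := by
      filter_upwards [Metric.closedBall_mem_nhds x hδ] with y hy
      rw [Real.dist_eq]
      exact abs_cut0_sub_le hε (by positivity)
        (rdist_upper hball hy (Metric.mem_closedBall_self hδ.le))
    refine squeeze_zero' (Filter.Eventually.of_forall fun _ => dist_nonneg) h1 ?_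
    have h2 : Continuous (fun y : E n => ε * (M * ‖y - x‖)) := by fun_prop
    have h3 := h2.tendsto x
    simpa using h3
  · have h1 : x ∈ Lᶜ := fun h => hx (hLΩ h)
    have h2 : (fun _ => (0 : ℝ)) =ᶠ[nhds x] cut0 Ω φ K ε := by
      filter_upwards [hL.isOpen_compl.mem_nhds h1] with y hy
      exact (h0 y hy).symm
    exact continuousAt_const.congr h2

/-! ### Smoothing -/

open scoped Convolution in
lemma mollify {n : ℕ} {g : E n → ℝ} (hg : Continuous g) (hg0 : ∀ x, 0 ≤ g x) (hg1 : ∀ x, g x ≤ 1)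
    {δ : ℝ} (hδ : 0 < δ) :
    ∃ χ : E n → ℝ, ContDiff ℝ ∞ χ ∧ (∀ x, 0 ≤ χ x ∧ χ x ≤ 1) ∧
      (∀ x c, (∀ y ∈ Metric.ball x δ, g y = c) → χ x = c) ∧
      ∀ x y C, (∀ t ∈ Metric.closedBall (0 : E n) δ, |g (x - t) - g (y - t)| ≤ C) →
        |χ x - χ y| ≤ C := by
  let ψ : ContDiffBump (0 : E n) := ⟨δ / 2, δ, by positivity, by linarith⟩
  have hψr : ψ.rOut = δ := rfl
  have hψc : HasCompactSupport (ψ.normed volume) := ψ.hasCompactSupport_normed
  have hψs : ContDiff ℝ ∞ (ψ.normed (volume : Measure (E n))) := ψ.contDiff_normed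
  have hψ0 : ∀ t, 0 ≤ ψ.normed volume t := ψ.nonneg_normed
  have hψi : ∫ t, ψ.normed volume t = 1 := ψ.integral_normed
  have hψint : Integrable (ψ.normed (volume : Measure (E n))) :=
    hψs.continuous.integrable_of_hasCompactSupport hψc
  set χ : E n → ℝ := (ψ.normed volume ⋆[ContinuousLinearMap.lsmul ℝ ℝ, volume] g) with hχ
  have hχd : ∀ x, χ x = ∫ t, ψ.normed volume t * g (x - t) := by
    intro x
    rw [hχ, convolution_def]
    simp
  have hint : ∀ x, Integrable (fun t => ψ.normed volume t * g (x - t)) := by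
    intro x
    have h1 : Continuous (fun t => ψ.normed volume t * g (x - t)) :=
      hψs.continuous.mul (hg.comp (by fun_prop))
    exact h1.integrable_of_hasCompactSupport hψc.mul_right
  refine ⟨χ, ?_, ?_, ?_, ?_⟩
  · exact hψc.contDiff_convolution_left _ hψs hg.locallyIntegrable
  · intro x
    constructor
    · rw [hχd]
      exact integral_nonneg fun t => mul_nonneg (hψ0 t) (hg0 _)
    · rw [hχd, ← hψi]
      apply integral_mono (hint x) hψint
      intro t
      have := mul_le_mul_of_nonneg_left (hg1 (x - t)) (hψ0 t)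
      simpa using this
  · intro x c hc
    have h1 : g x = c := hc x (Metric.mem_ball_self hδ)
    rw [hχ, ψ.normed_convolution_eq_right (μ := volume) (x₀ := x), h1]
    intro y hy
    rw [h1]
    exact hc y hy
  · intro x y C hC
    have hC0 : 0 ≤ C := (abs_nonneg _).trans (hC 0 (Metric.mem_closedBall_self hδ.le))
    rw [hχd, hχd, ← integral_sub (hint x) (hint y)]
    have h1 : ∀ t, ‖ψ.normed volume t * g (x - t) - ψ.normed volume t * g (y - t)‖
        ≤ ψ.normed volume t * C := by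
      intro t
      rw [← mul_sub, norm_mul, Real.norm_eq_abs, abs_of_nonneg (hψ0 t), Real.norm_eq_abs]
      by_cases ht : t ∈ Metric.closedBall (0 : E n) δ
      · exact mul_le_mul_of_nonneg_left (hC t ht) (hψ0 t)
      · have h2 : ψ.normed volume t = 0 := by
          have h3 : t ∉ Function.support (ψ.normed volume) := by
            rw [ψ.support_normed_eq]
            intro h4
            exact ht (Metric.ball_subset_closedBall h4)
          simpa using h3
        rw [h2]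
        simp
    have h2 := norm_integral_le_of_norm_le (hψint.mul_const C) (Filter.Eventually.of_forall h1)
    rw [integral_mul_const, hψi, one_mul, Real.norm_eq_abs] at h2
    exact h2

theorem exists_cutoff {n : ℕ} {Ω : Set (E n)} {φ : E n → ℝ} (hΩ : IsOpen Ω)
    (hφ : ContinuousOn φ Ω) (hc : IsCompleteOn Ω (conf φ)) (K : Set (E n)) (hK : IsCompact K)
    (hKΩ : K ⊆ Ω) (ε : ℝ) (hε : 0 < ε) :
    ∃ χ : E n → ℝ, ContDiff ℝ ∞ χ ∧ HasCompactSupport χ ∧ tsupport χ ⊆ Ω ∧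
      (∀ x, 0 ≤ χ x ∧ χ x ≤ 1) ∧ (∀ x ∈ K, χ x = 1) ∧
      ∀ x ∈ Ω, ‖fderiv ℝ χ x‖ ≤ ε * Real.exp (φ x) := by
  -- a compact neighbourhood of `K`
  obtain ⟨δ0, hδ0, hδ0Ω⟩ := hK.exists_cthickening_subset_open hΩ hKΩ
  have hK'c : IsCompact (Metric.cthickening δ0 K) := hK.cthickening
  set K' := Metric.cthickening δ0 K with hK'
  -- the compact set containing the support of the Lipschitz cut-off
  obtain ⟨L, hLc, hLΩ, hL⟩ := HR_all hΩ hφ hc hK'c hδ0Ω (1 / (ε / 2))
  set g := cut0 Ω φ K' (ε / 2) with hg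
  have hgL : ∀ y, y ∉ L → g y = 0 := by
    intro y hy
    by_contra hcon
    obtain ⟨h1, h2⟩ := cut0_ne_zero (by positivity) hcon
    exact hy (hL y h1 h2)
  have hgc : Continuous g := continuous_cut0 hΩ hφ (by positivity) hLc.isClosed hLΩ hgL
  obtain ⟨δ1, hδ1, hδ1Ω⟩ := hLc.exists_cthickening_subset_open hΩ hLΩ
  have hL2 : IsCompact (Metric.cthickening δ1 L) := hLc.cthickening
  have huc : UniformContinuousOn φ (Metric.cthickening δ1 L) :=
    hL2.uniformContinuousOn_of_continuous (hφ.mono hδ1Ω)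
  obtain ⟨δ2, hδ2, hδ2'⟩ := Metric.uniformContinuousOn_iff.mp huc (Real.log 2)
    (Real.log_pos (by norm_num))
  set δ : ℝ := min δ0 (min (δ1 / 3) (δ2 / 3)) with hδ
  have hδp : 0 < δ := by positivity
  have hδ0' : δ ≤ δ0 := min_le_left _ _
  have hδ1' : 3 * δ ≤ δ1 := by
    have : δ ≤ δ1 / 3 := (min_le_right _ _).trans (min_le_left _ _)
    linarith
  have hδ2'' : 3 * δ ≤ δ2 := by
    have : δ ≤ δ2 / 3 := (min_le_right _ _).trans (min_le_right _ _)
    linarith
  obtain ⟨χ, h1, h2, h3, h4⟩ := mollify hgc (cut0_nonneg _ _ _ _) (cut0_le_one _ _ _ _) hδp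
  -- support
  have hsup : ∀ x, x ∉ Metric.cthickening δ L → χ x = 0 := by
    intro x hx
    apply h3
    intro y hy
    apply hgL
    intro hyL
    apply hx
    apply Metric.closedBall_subset_cthickening hyL
    rw [Metric.mem_closedBall, dist_comm]
    exact (Metric.mem_ball.mp hy).le
  have hcl : IsClosed (Metric.cthickening δ L) := Metric.isClosed_cthickening
  have hts : tsupport χ ⊆ Metric.cthickening δ L := by
    apply closure_minimal _ hcl
    intro x hx
    by_contra hcon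
    exact hx (hsup x hcon)
  have hmono : Metric.cthickening δ L ⊆ Metric.cthickening δ1 L :=
    Metric.cthickening_mono (by linarith) L
  refine ⟨χ, h1, HasCompactSupport.intro hLc.cthickening hsup, (hts.trans hmono).trans hδ1Ω, h2,
    ?_, ?_⟩
  · intro x hx
    apply h3
    intro y hy
    apply cut0_of_mem hδ0Ω
    apply Metric.closedBall_subset_cthickening hx
    exact Metric.closedBall_subset_closedBall hδ0' (Metric.ball_subset_closedBall hy)
  · intro x _
    by_cases hx : x ∈ Metric.cthickening δ L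
    · apply norm_fderiv_le_of_lip' ℝ (by positivity)
      filter_upwards [Metric.closedBall_mem_nhds x hδp] with y hy
      rw [Real.norm_eq_abs]
      apply h4
      intro t ht
      -- the ball of radius `2δ` around `x`
      have hB : ∀ z ∈ Metric.closedBall x (2 * δ), z ∈ Ω ∧ Real.exp (φ z) ≤ 2 * Real.exp (φ x) := by
        intro z hz
        have e1 : z ∈ Metric.cthickening δ1 L := by
          have e2 := Metric.closedBall_subset_cthickening hx (2 * δ) hz
          have e3 := Metric.cthickening_cthickening_subset (ε := 2 * δ) (δ := δ) (by positivity)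
            hδp.le L e2
          exact Metric.cthickening_mono (by linarith) L e3
        refine ⟨hδ1Ω e1, ?_⟩
        have e4 := hδ2' z e1 x (hmono hx) (by
          rw [Metric.mem_closedBall] at hz
          linarith)
        rw [Real.dist_eq] at e4
        have e5 : φ z ≤ Real.log 2 + φ x := by linarith [le_abs_self (φ z - φ x)]
        calc Real.exp (φ z) ≤ Real.exp (Real.log 2 + φ x) := Real.exp_le_exp.mpr e5
          _ = 2 * Real.exp (φ x) := by rw [Real.exp_add, Real.exp_log (by norm_num)]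
      have e6 : y - t ∈ Metric.closedBall x (2 * δ) := by
        rw [Metric.mem_closedBall, dist_eq_norm] at hy ⊢
        rw [mem_closedBall_zero_iff] at ht
        calc ‖y - t - x‖ = ‖(y - x) - t‖ := by congr 1; abel
          _ ≤ ‖y - x‖ + ‖t‖ := norm_sub_le _ _
          _ ≤ 2 * δ := by linarith
      have e7 : x - t ∈ Metric.closedBall x (2 * δ) := by
        rw [Metric.mem_closedBall, dist_eq_norm]
        rw [mem_closedBall_zero_iff] at ht
        calc ‖x - t - x‖ = ‖t‖ := by rw [← norm_neg]; congr 1; abel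
          _ ≤ 2 * δ := by linarith
      have e8 := rdist_upper hB e6 e7
      have e9 := abs_cut0_sub_le (K := K') (ε := ε / 2) (by positivity) (by positivity) e8
      refine e9.trans (le_of_eq ?_)
      have : y - t - (x - t) = y - x := by abel
      rw [this]
      ring
    · have e1 : χ =ᶠ[nhds x] fun _ => 0 := by
        filter_upwards [hcl.isOpen_compl.mem_nhds hx] with y hy
        exact hsup y hy
      rw [e1.fderiv_eq]
      simp only [fderiv_fun_const, Pi.zero_apply, norm_zero]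
      positivity

end Vale.Agent.P210
end
end

section

section

open scoped ENNReal ContDiff
open MeasureTheory Set

namespace Vale.Agent.P210

lemma conf_apply {n : ℕ} (φ : E n → ℝ) (y : E n) (i j : Fin n) :
    conf φ y i j = if i = j then Real.exp (2 * φ y) else 0 := by
  simp [conf, Matrix.smul_apply, Matrix.one_apply]

lemma conf_inv {n : ℕ} (φ : E n → ℝ) (y : E n) :
    (conf φ y)⁻¹ = Real.exp (-(2 * φ y)) • (1 : Matrix (Fin n) (Fin n) ℝ) := by
  apply Matrix.inv_eq_right_inv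
  simp only [conf, smul_mul_smul_comm, mul_one]
  rw [← Real.exp_add]
  simp

lemma conf_inv_apply {n : ℕ} (φ : E n → ℝ) (y : E n) (i j : Fin n) :
    (conf φ y)⁻¹ i j = if i = j then Real.exp (-(2 * φ y)) else 0 := by
  simp [conf_inv, Matrix.smul_apply, Matrix.one_apply]

lemma pd_conf {n : ℕ} {φ : E n → ℝ} {y : E n} (h : DifferentiableAt ℝ φ y) (m i j : Fin n) :
    pd m (fun z => conf φ z i j) y
      = if i = j then 2 * pd m φ y * Real.exp (2 * φ y) else 0 := by
  by_cases hij : i = j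
  · subst hij
    simp only [conf_apply, if_true, pd]
    have h1 : HasFDerivAt (fun z => Real.exp (2 * φ z))
        (Real.exp (2 * φ y) • ((2 : ℝ) • fderiv ℝ φ y)) y :=
      (h.hasFDerivAt.const_mul 2).exp
    rw [h1.fderiv]
    simp
    ring
  · simp only [conf_apply, hij, if_false, pd]
    simp

lemma christoffel_conf {n : ℕ} {φ : E n → ℝ} {y : E n} (h : DifferentiableAt ℝ φ y)
    (k i j : Fin n) :
    christoffel (conf φ) k i j y
      = (if j = k then pd i φ y else 0) + (if i = k then pd j φ y else 0)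
        - (if i = j then pd k φ y else 0) := by
  unfold christoffel
  simp only [pd_conf h, conf_inv_apply]
  have he : Real.exp (-(2 * φ y)) * Real.exp (2 * φ y) = 1 := by
    rw [← Real.exp_add]; simp
  simp only [ite_mul, zero_mul, Finset.sum_ite_eq, Finset.mem_univ, if_true]
  by_cases h1 : j = k
  · subst h1
    by_cases h3 : i = j
    · subst h3
      simp
      linear_combination (pd i φ y) * he
    · simp [h3]
      linear_combination (pd i φ y) * he
  · have h1' : ¬ k = j := fun h => h1 h.symm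
    by_cases h2 : i = k
    · subst h2
      simp [h1, h1']
      linear_combination (pd j φ y) * he
    · have h2' : ¬ k = i := fun h => h2 h.symm
      by_cases h3 : i = j
      · subst h3
        simp [h1, h1']
        linear_combination (pd k φ y) * he
      · simp [h1, h2, h3]

lemma pd_add {n : ℕ} {f g : E n → ℝ} {y : E n} (m : Fin n) (hf : DifferentiableAt ℝ f y)
    (hg : DifferentiableAt ℝ g y) : pd m (fun z => f z + g z) y = pd m f y + pd m g y := by
  simp only [pd]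
  rw [fderiv_fun_add hf hg]
  simp

lemma pd_sub {n : ℕ} {f g : E n → ℝ} {y : E n} (m : Fin n) (hf : DifferentiableAt ℝ f y)
    (hg : DifferentiableAt ℝ g y) : pd m (fun z => f z - g z) y = pd m f y - pd m g y := by
  simp only [pd]
  rw [fderiv_fun_sub hf hg]
  simp

lemma pd_congr {n : ℕ} {f g : E n → ℝ} {y : E n} (m : Fin n) (h : f =ᶠ[nhds y] g) :
    pd m f y = pd m g y := by
  simp only [pd]
  rw [h.fderiv_eq]

lemma pd_zero {n : ℕ} (m : Fin n) (y : E n) : pd m (fun _ => (0 : ℝ)) y = 0 := by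
  simp [pd]

lemma contDiffOn_pd {n : ℕ} {Ω : Set (E n)} {φ : E n → ℝ} (hΩ : IsOpen Ω)
    (hφ : ContDiffOn ℝ ∞ φ Ω) (i : Fin n) : ContDiffOn ℝ ∞ (pd i φ) Ω := by
  unfold pd
  have h1 : ContDiffOn ℝ ∞ (fderiv ℝ φ) Ω := hφ.fderiv_of_isOpen hΩ (by simp)
  exact h1.clm_apply contDiffOn_const

lemma differentiableAt_of_contDiffOn {n : ℕ} {Ω : Set (E n)} {φ : E n → ℝ} (hΩ : IsOpen Ω)
    (hφ : ContDiffOn ℝ ∞ φ Ω) {x : E n} (hx : x ∈ Ω) : DifferentiableAt ℝ φ x :=
  ((hφ x hx).contDiffAt (hΩ.mem_nhds hx)).differentiableAt (by simp)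

lemma pd_christoffel_conf {n : ℕ} {Ω : Set (E n)} {φ : E n → ℝ} (hΩ : IsOpen Ω)
    (hφ : ContDiffOn ℝ ∞ φ Ω) {x : E n} (hx : x ∈ Ω) (m k i j : Fin n) :
    pd m (christoffel (conf φ) k i j) x
      = (if j = k then pd m (pd i φ) x else 0) + (if i = k then pd m (pd j φ) x else 0)
        - (if i = j then pd m (pd k φ) x else 0) := by
  have h1 : christoffel (conf φ) k i j =ᶠ[nhds x] fun y =>
      (if j = k then pd i φ y else 0) + (if i = k then pd j φ y else 0)
        - (if i = j then pd k φ y else 0) := by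
    filter_upwards [hΩ.mem_nhds hx] with y hy
    exact christoffel_conf (differentiableAt_of_contDiffOn hΩ hφ hy) k i j
  rw [pd_congr m h1]
  have hd : ∀ l : Fin n, DifferentiableAt ℝ (pd l φ) x := fun l =>
    differentiableAt_of_contDiffOn hΩ (contDiffOn_pd hΩ hφ l) hx
  have hite : ∀ (p : Prop) [Decidable p] (l : Fin n),
      DifferentiableAt ℝ (fun y => if p then pd l φ y else 0) x := by
    intro p _ l
    by_cases hp : p
    · simpa [hp] using hd l
    · simp [hp]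
  have hpd : ∀ (p : Prop) [Decidable p] (l : Fin n),
      pd m (fun y => if p then pd l φ y else 0) x = if p then pd m (pd l φ) x else 0 := by
    intro p _ l
    by_cases hp : p
    · simp only [hp, if_true]
    · simp only [hp, if_false]
      exact pd_zero m x
  rw [pd_sub m ((hite _ _).fun_add (hite _ _)) (hite _ _), pd_add m (hite _ _) (hite _ _),
    hpd, hpd, hpd]

lemma ricci_algebra {n : ℕ} (a : Fin n → ℝ) (A : Fin n → Fin n → ℝ) (i : Fin n) :
    ∑ k, ((((if i = k then A k i else 0) + (if i = k then A k i else 0)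
        - A k k)
        - (A i i + (if i = k then A i k else 0)
        - (if i = k then A i k else 0)))
      + ∑ l, (((if l = k then a k else 0) + a l
        - (if k = l then a k else 0)) * ((if i = l then a i else 0) + (if i = l then a i else 0)
        - a l)
        - ((if l = k then a i else 0) + (if i = k then a l else 0)
        - (if i = l then a k else 0)) * ((if k = l then a i else 0) + (if i = l then a k else 0)
        - (if i = k then a l else 0))))
      = (2 - (n : ℝ)) * A i i - ∑ k, A k k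
        + ((n : ℝ) - 2) * (a i) ^ 2 - ((n : ℝ) - 2) * ∑ k, (a k) ^ 2 := by
  have h1 : ∀ k l : Fin n, ((if l = k then a k else 0) + a l
        - (if k = l then a k else 0)) * ((if i = l then a i else 0) + (if i = l then a i else 0)
        - a l)
      = (if i = l then 2 * a i ^ 2 else 0) - a l ^ 2 := by
    intro k l
    by_cases h : l = k
    · subst h
      by_cases h' : i = l
      · subst h'; simp; ring
      · simp [h']; ring
    · have h'' : ¬ k = l := fun e => h e.symm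
      by_cases h' : i = l
      · subst h'; simp [h, h'']; ring
      · simp [h, h', h'']; ring
  have h2 : ∀ k l : Fin n, ((if l = k then a i else 0) + (if i = k then a l else 0)
        - (if i = l then a k else 0)) * ((if k = l then a i else 0) + (if i = l then a k else 0)
        - (if i = k then a l else 0))
      = (if k = l then a i ^ 2 else 0) + (if k = l then (if i = k then 2 * a i ^ 2 else 0) else 0)
        - (if i = k then a l ^ 2 else 0) - (if i = l then a k ^ 2 else 0) := by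
    intro k l
    by_cases h : k = l
    · subst h
      by_cases h' : i = k
      · subst h'; simp; ring
      · simp [h']; ring
    · have h'' : ¬ l = k := fun e => h e.symm
      by_cases h' : i = k
      · subst h'
        simp [h, h'']; ring
      · by_cases h3 : i = l
        · subst h3; simp [h, h']; ring
        · simp [h, h', h3]
  simp only [h1, h2, Finset.sum_add_distrib, Finset.sum_sub_distrib, Finset.sum_ite_eq,
    Finset.mem_univ, if_true, Finset.sum_const, Finset.card_univ, Fintype.card_fin, nsmul_eq_mul]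
  have h3 : ∀ k : Fin n, ∑ x, (if i = k then a x ^ 2 else 0) = if i = k then ∑ x, a x ^ 2 else 0 := by
    intro k
    by_cases h : i = k <;> simp [h]
  simp only [h3, Finset.sum_ite_eq, Finset.mem_univ, if_true]
  ring

theorem scal_conf {n : ℕ} {Ω : Set (E n)} {φ : E n → ℝ} (hΩ : IsOpen Ω)
    (hφ : ContDiffOn ℝ ∞ φ Ω) (x : E n) (hx : x ∈ Ω) :
    scal (conf φ) x = -Real.exp (-(2 * φ x)) *
      (2 * ((n : ℝ) - 1) * ∑ i, pd i (pd i φ) x
        + ((n : ℝ) - 1) * ((n : ℝ) - 2) * ∑ i, (pd i φ x) ^ 2) := by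
  have hdx := differentiableAt_of_contDiffOn hΩ hφ hx
  unfold scal
  simp only [conf_inv_apply, ite_mul, zero_mul, Finset.sum_ite_eq, Finset.mem_univ, if_true]
  rw [← Finset.mul_sum]
  have key : ∀ i : Fin n, ricci (conf φ) i i x
      = (2 - (n : ℝ)) * pd i (pd i φ) x - ∑ k, pd k (pd k φ) x
        + ((n : ℝ) - 2) * (pd i φ x) ^ 2 - ((n : ℝ) - 2) * ∑ k, (pd k φ x) ^ 2 := by
    intro i
    unfold ricci
    simp only [pd_christoffel_conf hΩ hφ hx, christoffel_conf hdx, if_true]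
    exact ricci_algebra (fun l => pd l φ x) (fun l m => pd l (pd m φ) x) i
  simp only [key]
  simp only [Finset.sum_add_distrib, Finset.sum_sub_distrib, ← Finset.mul_sum, Finset.sum_const,
    Finset.card_univ, Fintype.card_fin, nsmul_eq_mul]
  ring

end Vale.Agent.P210
end
end

section

section

open scoped ENNReal ContDiff
open MeasureTheory Set

namespace Vale.Agent.P210

/-! ### Generic facts on coordinate derivatives -/

lemma integrable_pd {n : ℕ} {F : E n → ℝ} (hF : ContDiff ℝ 1 F) (hc : HasCompactSupport F)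
    (i : Fin n) : Integrable (pd i F) := by
  have h1 : Continuous (pd i F) := by
    unfold pd
    exact (hF.continuous_fderiv (by simp)).clm_apply continuous_const
  have h2 : HasCompactSupport (pd i F) := by
    have := hc.fderiv (𝕜 := ℝ)
    apply this.comp_left (g := fun L : E n →L[ℝ] ℝ => L (EuclideanSpace.single i 1))
    simp
  exact h1.integrable_of_hasCompactSupport h2

lemma integral_pd_eq_zero {n : ℕ} {F : E n → ℝ} (hF : ContDiff ℝ 1 F) (hc : HasCompactSupport F)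
    (i : Fin n) : ∫ x, pd i F x = 0 := by
  have hi := integrable_pd hF hc i
  have h := integral_mul_fderiv_eq_neg_fderiv_mul_of_integrable (𝕜 := ℝ) (μ := (volume : Measure (E n)))
    (f := fun _ : E n => (1 : ℝ)) (g := F) (v := EuclideanSpace.single i (1 : ℝ))
    (by simp) (by simp only [one_mul]; exact hi)
    (by simpa using hF.continuous.integrable_of_hasCompactSupport hc)
    (fun x _ => differentiableAt_const _) (fun x _ => hF.differentiable (by simp) x)
  simpa [pd] using h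

lemma sum_sq_pd_le {n : ℕ} (f : E n → ℝ) (x : E n) :
    ∑ i, (pd i f x) ^ 2 ≤ ‖fderiv ℝ f x‖ ^ 2 := by
  set L := fderiv ℝ f x with hL
  set v : E n := WithLp.toLp 2 (fun i => pd i f x) with hv
  have h1 : v = ∑ i, pd i f x • EuclideanSpace.single i (1 : ℝ) := by
    ext j
    simp [hv, Finset.sum_apply, Pi.single_apply]
  have h2 : L v = ∑ i, (pd i f x) ^ 2 := by
    rw [h1, map_sum]
    apply Finset.sum_congr rfl
    intro i _
    simp [pd, hL, sq]
  have h3 : ‖v‖ ^ 2 = ∑ i, (pd i f x) ^ 2 := by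
    rw [EuclideanSpace.norm_sq_eq]
    simp [hv]
  have h4 : L v ≤ ‖L‖ * ‖v‖ := (le_abs_self _).trans (L.le_opNorm v)
  have h5 : ‖v‖ ^ 2 ≤ ‖L‖ * ‖v‖ := by rw [h3, ← h2]; exact h4
  rw [← h3]
  by_cases hv0 : ‖v‖ = 0
  · rw [hv0]; simp
  · have hv1 : 0 < ‖v‖ := lt_of_le_of_ne (norm_nonneg _) (Ne.symm hv0)
    have h6 : ‖v‖ ≤ ‖L‖ := by
      have : ‖v‖ * ‖v‖ ≤ ‖L‖ * ‖v‖ := by rw [← sq]; exact h5
      exact le_of_mul_le_mul_right this hv1
    gcongr

/-! ### The bounded test weight -/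

/-- the test weight -/
noncomputable def thw (ε b t : ℝ) : ℝ := Real.exp ((b - 2) * t) / (1 + ε * Real.exp (b * t))

lemma thw_pos {ε b t : ℝ} (hε : 0 ≤ ε) : 0 < thw ε b t := by
  unfold thw
  positivity

lemma hasDerivAt_thw {ε b t : ℝ} (hε : 0 ≤ ε) :
    HasDerivAt (thw ε b)
      (thw ε b t * ((b - 2) - b * (ε * Real.exp (b * t) / (1 + ε * Real.exp (b * t))))) t := by
  unfold thw
  have h0 : (1 + ε * Real.exp (b * t)) ≠ 0 := by positivity
  have h1 : HasDerivAt (fun t => Real.exp ((b - 2) * t)) (Real.exp ((b - 2) * t) * (b - 2)) t := by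
    have := ((hasDerivAt_id t).const_mul (b - 2)).exp
    simpa using this
  have h2 : HasDerivAt (fun t => 1 + ε * Real.exp (b * t)) (ε * (Real.exp (b * t) * b)) t := by
    have := (((hasDerivAt_id t).const_mul b).exp.const_mul ε).const_add 1
    simpa using this
  have h3 := h1.div h2 h0
  refine h3.congr_deriv ?_
  field_simp

lemma contDiff_thw {ε b : ℝ} (hε : 0 ≤ ε) : ContDiff ℝ ∞ (thw ε b) := by
  unfold thw
  apply ContDiff.div
  · fun_prop
  · fun_prop
  · intro t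
    positivity

lemma thw_mul_exp {ε b t : ℝ} (hε : 0 < ε) : thw ε b t * Real.exp (2 * t) ≤ 1 / ε := by
  unfold thw
  rw [div_mul_eq_mul_div, ← Real.exp_add, div_le_div_iff₀ (by positivity) hε]
  have : (b - 2) * t + 2 * t = b * t := by ring
  rw [this]
  nlinarith [Real.exp_pos (b * t)]

lemma thw_le {ε b t : ℝ} (hε : 0 ≤ ε) : thw ε b t ≤ Real.exp ((b - 2) * t) := by
  unfold thw
  apply div_le_self (Real.exp_pos _).le
  have : 0 ≤ ε * Real.exp (b * t) := by positivity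
  linarith

lemma pd_testField {n : ℕ} {φ ζ : E n → ℝ} {x : E n} {ε b : ℝ} (hε : 0 ≤ ε) (m : ℕ) (i : Fin n)
    (hφ : DifferentiableAt ℝ φ x) (hp : DifferentiableAt ℝ (pd i φ) x)
    (hζ : DifferentiableAt ℝ ζ x) :
    pd i (fun y => thw ε b (φ y) * ζ y ^ m * pd i φ y) x
      = (thw ε b (φ x) * ((b - 2)
          - b * (ε * Real.exp (b * φ x) / (1 + ε * Real.exp (b * φ x))))) * (pd i φ x) ^ 2 * ζ x ^ m
        + thw ε b (φ x) * (m * ζ x ^ (m - 1) * pd i ζ x) * pd i φ x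
        + thw ε b (φ x) * ζ x ^ m * pd i (pd i φ) x := by
  have h1 : HasFDerivAt (fun y => thw ε b (φ y))
      ((thw ε b (φ x) * ((b - 2)
          - b * (ε * Real.exp (b * φ x) / (1 + ε * Real.exp (b * φ x))))) • fderiv ℝ φ x) x :=
    (hasDerivAt_thw hε).comp_hasFDerivAt x hφ.hasFDerivAt
  have h2 : HasFDerivAt (fun y => ζ y ^ m) ((m * ζ x ^ (m - 1)) • fderiv ℝ ζ x) x := by
    have := (hasDerivAt_pow m (ζ x)).comp_hasFDerivAt x hζ.hasFDerivAt
    exact this
  have h3 : HasFDerivAt (fun y => thw ε b (φ y) * ζ y ^ m * pd i φ y)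
      ((thw ε b (φ x) * ζ x ^ m) • fderiv ℝ (pd i φ) x + pd i φ x •
        (thw ε b (φ x) • ((m * ζ x ^ (m - 1)) • fderiv ℝ ζ x) + ζ x ^ m •
        ((thw ε b (φ x) * ((b - 2)
          - b * (ε * Real.exp (b * φ x) / (1 + ε * Real.exp (b * φ x))))) • fderiv ℝ φ x))) x :=
    (h1.mul h2).mul hp.hasFDerivAt
  have h4 : pd i (fun y => thw ε b (φ y) * ζ y ^ m * pd i φ y) x
      = ((thw ε b (φ x) * ζ x ^ m) • fderiv ℝ (pd i φ) x + pd i φ x •
        (thw ε b (φ x) • ((m * ζ x ^ (m - 1)) • fderiv ℝ ζ x) + ζ x ^ m •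
        ((thw ε b (φ x) * ((b - 2)
          - b * (ε * Real.exp (b * φ x) / (1 + ε * Real.exp (b * φ x))))) • fderiv ℝ φ x)))
        (EuclideanSpace.single i 1) := by
    show fderiv ℝ (fun y => thw ε b (φ y) * ζ y ^ m * pd i φ y) x (EuclideanSpace.single i 1) = _
    rw [h3.fderiv]
  rw [h4]
  simp only [pd, add_apply, smul_apply, smul_eq_mul]
  ring

lemma pointwise_sq {n : ℕ} {Θ z κ a c δ W L : ℝ} {p q : Fin n → ℝ} (m : ℕ) (hm : 2 ≤ m)
    (hΘ : 0 ≤ Θ) (hz : 0 ≤ z) (hδ : 0 < δ) (hc : c - a ≤ -δ)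
    (h : κ * W ≤ -(L + a * ∑ i, p i ^ 2)) :
    κ * (Θ * W * z ^ m) ≤
      -(Θ * c * (∑ i, p i ^ 2) * z ^ m + Θ * (m * z ^ (m - 1)) * (∑ i, q i * p i)
        + Θ * z ^ m * L) + (m : ℝ) ^ 2 / (4 * δ) * (Θ * z ^ (m - 2) * ∑ i, q i ^ 2) := by
  obtain ⟨k, rfl⟩ : ∃ k, m = k + 2 := ⟨m - 2, by omega⟩
  have e1 : k + 2 - 1 = k + 1 := by omega
  have e2 : k + 2 - 2 = k := by omega
  rw [e1, e2]
  set M : ℝ := ((k + 2 : ℕ) : ℝ) with hM
  set P := ∑ i, p i ^ 2 with hP
  set R := ∑ i, q i * p i with hR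
  set Q := ∑ i, q i ^ 2 with hQ
  have hP0 : 0 ≤ P := Finset.sum_nonneg fun i _ => sq_nonneg _
  have h1 : 0 ≤ 4 * δ ^ 2 * z ^ 2 * P - 4 * δ * M * z * R + M ^ 2 * Q := by
    have : ∑ i, (2 * δ * z * p i - M * q i) ^ 2
        = 4 * δ ^ 2 * z ^ 2 * P - 4 * δ * M * z * R + M ^ 2 * Q := by
      rw [hP, hR, hQ, Finset.mul_sum, Finset.mul_sum, Finset.mul_sum, ← Finset.sum_sub_distrib,
        ← Finset.sum_add_distrib]
      apply Finset.sum_congr rfl
      intro i _
      ring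
    rw [← this]
    exact Finset.sum_nonneg fun i _ => sq_nonneg _
  have h2 : 0 ≤ δ * z ^ 2 * P - M * z * R + M ^ 2 / (4 * δ) * Q := by
    have : δ * z ^ 2 * P - M * z * R + M ^ 2 / (4 * δ) * Q
        = (4 * δ ^ 2 * z ^ 2 * P - 4 * δ * M * z * R + M ^ 2 * Q) / (4 * δ) := by
      field_simp
    rw [this]
    positivity
  have h3 : 0 ≤ (a - c) * z ^ 2 * P - M * z * R + M ^ 2 / (4 * δ) * Q := by
    have : δ * (z ^ 2 * P) ≤ (a - c) * (z ^ 2 * P) := by
      apply mul_le_mul_of_nonneg_right (by linarith) (by positivity)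
    linarith
  have h4 : 0 ≤ Θ * z ^ k * ((a - c) * z ^ 2 * P - M * z * R + M ^ 2 / (4 * δ) * Q) := by
    positivity
  have h5 : κ * W * (Θ * z ^ (k + 2)) ≤ -(L + a * P) * (Θ * z ^ (k + 2)) :=
    mul_le_mul_of_nonneg_right h (by positivity)
  have h6 : -(Θ * c * P * z ^ (k + 2) + Θ * (M * z ^ (k + 1)) * R + Θ * z ^ (k + 2) * L)
      + M ^ 2 / (4 * δ) * (Θ * z ^ k * Q)
      = -(L + a * P) * (Θ * z ^ (k + 2))
        + Θ * z ^ k * ((a - c) * z ^ 2 * P - M * z * R + M ^ 2 / (4 * δ) * Q) := by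
    ring
  rw [h6]
  linarith [h5, h4]

lemma pointwise_case {Θ w z κ b ε ε' C0 δ r Q s t : ℝ} (m : ℕ) (hm : 3 ≤ m) (hmb : b ≤ m)
    (hb : 2 < b) (hκ : 0 < κ) (hδ : 0 < δ) (hε : 0 < ε) (hC0 : 0 < C0) (hr : 0 < r)
    (hw : 0 < w) (hΘ : 0 ≤ Θ) (hΘw : Θ ≤ w ^ (b - 2)) (hΘε : Θ * w ^ 2 ≤ 1 / ε)
    (hs : 0 ≤ s) (hs1 : s ≤ 1) (ht : 0 ≤ t) (ht1 : t ≤ 1) (hz : z = s * t)
    (hQ : Q ≤ 2 * s ^ 2 * (ε' * w) ^ 2 + 2 * t ^ 2 * (C0 / r) ^ 2) :
    (m : ℝ) ^ 2 / (4 * δ) * (Θ * z ^ (m - 2) * Q) ≤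
      κ / 2 * (Θ * w ^ 2 * z ^ m) + ((m : ℝ) ^ 2 / (2 * δ) * ε' ^ 2 / ε
        + (m : ℝ) ^ 2 / (2 * δ) * C0 ^ 2
          * (C0 * Real.sqrt (2 * ((m : ℝ) ^ 2 / (2 * δ)) / κ)) ^ (b - 2) * r ^ (-b)) := by
  have hm0 : (0 : ℝ) < m := by
    have : 0 < m := by omega
    exact_mod_cast this
  set c1 : ℝ := (m : ℝ) ^ 2 / (2 * δ) with hc1
  have hc1p : 0 < c1 := by positivity
  set C2 : ℝ := C0 * Real.sqrt (2 * c1 / κ) with hC2
  have hC2p : 0 < C2 := by positivity
  have hz0 : 0 ≤ z := by rw [hz]; positivity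
  have hz1 : z ≤ 1 := by rw [hz]; exact mul_le_one₀ hs1 ht ht1
  have e0 : (m : ℝ) ^ 2 / (4 * δ) = c1 / 2 := by
    rw [hc1]
    field_simp
    norm_num
  have hzk1 : z ^ (m - 2) ≤ 1 := pow_le_one₀ hz0 hz1
  have hzk0 : 0 ≤ z ^ (m - 2) := by positivity
  have hs2 : s ^ 2 ≤ 1 := pow_le_one₀ hs hs1
  have ht2 : t ^ 2 ≤ 1 := pow_le_one₀ ht ht1
  -- first reduction
  have h1 : (m : ℝ) ^ 2 / (4 * δ) * (Θ * z ^ (m - 2) * Q) ≤
      c1 * ε' ^ 2 / ε + c1 * Θ * z ^ (m - 2) * (C0 / r) ^ 2 := by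
    rw [e0]
    have h2 : Q ≤ 2 * (ε' * w) ^ 2 + 2 * (C0 / r) ^ 2 := by
      have h3 : 2 * s ^ 2 * (ε' * w) ^ 2 ≤ 2 * 1 * (ε' * w) ^ 2 := by gcongr
      have h4 : 2 * t ^ 2 * (C0 / r) ^ 2 ≤ 2 * 1 * (C0 / r) ^ 2 := by gcongr
      linarith
    have h5 : c1 / 2 * (Θ * z ^ (m - 2) * Q) ≤
        c1 / 2 * (Θ * z ^ (m - 2) * (2 * (ε' * w) ^ 2 + 2 * (C0 / r) ^ 2)) := by
      gcongr
    have h6 : c1 * ε' ^ 2 * ((Θ * w ^ 2) * z ^ (m - 2)) ≤ c1 * ε' ^ 2 * (1 / ε * 1) := by
      gcongr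
    have h7 : c1 / 2 * (Θ * z ^ (m - 2) * (2 * (ε' * w) ^ 2 + 2 * (C0 / r) ^ 2))
        = c1 * ε' ^ 2 * ((Θ * w ^ 2) * z ^ (m - 2)) + c1 * Θ * z ^ (m - 2) * (C0 / r) ^ 2 := by
      ring
    have h8 : c1 * ε' ^ 2 * (1 / ε * 1) = c1 * ε' ^ 2 / ε := by ring
    rw [h7] at h5
    rw [h8] at h6
    linarith
  have hlast0 : 0 ≤ c1 * C0 ^ 2 * C2 ^ (b - 2) * r ^ (-b) := by positivity
  suffices h9 : c1 * Θ * z ^ (m - 2) * (C0 / r) ^ 2 ≤
      κ / 2 * (Θ * w ^ 2 * z ^ m) + c1 * C0 ^ 2 * C2 ^ (b - 2) * r ^ (-b) by linarith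
  have hzm : z ^ m = z ^ (m - 2) * z ^ 2 := by
    rw [← pow_add]
    congr 1
    omega
  by_cases hcase : c1 * (C0 / r) ^ 2 ≤ κ / 2 * (w * z) ^ 2
  · have h10 : c1 * Θ * z ^ (m - 2) * (C0 / r) ^ 2 ≤ κ / 2 * (Θ * w ^ 2 * z ^ m) := by
      rw [hzm]
      have : Θ * z ^ (m - 2) * (c1 * (C0 / r) ^ 2) ≤ Θ * z ^ (m - 2) * (κ / 2 * (w * z) ^ 2) := by
        gcongr
      calc c1 * Θ * z ^ (m - 2) * (C0 / r) ^ 2 = Θ * z ^ (m - 2) * (c1 * (C0 / r) ^ 2) := by ring
        _ ≤ Θ * z ^ (m - 2) * (κ / 2 * (w * z) ^ 2) := this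
        _ = κ / 2 * (Θ * w ^ 2 * (z ^ (m - 2) * z ^ 2)) := by ring
    linarith
  · push Not at hcase
    have h11 : (w * z) ^ 2 ≤ (C2 / r) ^ 2 := by
      have : (C2 / r) ^ 2 = 2 / κ * (c1 * (C0 / r) ^ 2) := by
        rw [hC2, div_pow, mul_pow, Real.sq_sqrt (by positivity)]
        field_simp
      rw [this]
      have h12 : (w * z) ^ 2 = 2 / κ * (κ / 2 * (w * z) ^ 2) := by
        field_simp
      rw [h12]
      gcongr
    have h13 : w * z ≤ C2 / r := (sq_le_sq₀ (by positivity) (by positivity)).mp h11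
    have h14 : z ^ (m - 2) * w ^ (b - 2) ≤ (C2 / r) ^ (b - 2) := by
      rcases eq_or_lt_of_le hz0 with hz00 | hzpos
      · rw [← hz00, zero_pow (by omega), zero_mul]
        positivity
      · have h15 : z ^ (m - 2) ≤ z ^ (b - 2) := by
          rw [← Real.rpow_natCast z (m - 2)]
          apply Real.rpow_le_rpow_of_exponent_ge hzpos hz1
          rw [Nat.cast_sub (by omega)]
          push_cast
          linarith
        calc z ^ (m - 2) * w ^ (b - 2) ≤ z ^ (b - 2) * w ^ (b - 2) := by gcongr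
          _ = (w * z) ^ (b - 2) := by rw [mul_comm w z, Real.mul_rpow hz0 hw.le]
          _ ≤ (C2 / r) ^ (b - 2) := by
              apply Real.rpow_le_rpow (by positivity) h13 (by linarith)
    have h16 : c1 * Θ * z ^ (m - 2) * (C0 / r) ^ 2 ≤ c1 * (C2 / r) ^ (b - 2) * (C0 / r) ^ 2 := by
      have : c1 * Θ * z ^ (m - 2) ≤ c1 * (C2 / r) ^ (b - 2) := by
        calc c1 * Θ * z ^ (m - 2) ≤ c1 * w ^ (b - 2) * z ^ (m - 2) := by gcongr
          _ = c1 * (z ^ (m - 2) * w ^ (b - 2)) := by ring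
          _ ≤ c1 * (C2 / r) ^ (b - 2) := by gcongr
      gcongr
    have h17 : c1 * (C2 / r) ^ (b - 2) * (C0 / r) ^ 2 = c1 * C0 ^ 2 * C2 ^ (b - 2) * r ^ (-b) := by
      rw [Real.div_rpow hC2p.le hr.le, div_pow, Real.rpow_neg hr.le]
      have : r ^ b = r ^ (b - 2) * r ^ 2 := by
        rw [← Real.rpow_natCast r 2, ← Real.rpow_add hr]
        congr 1
        push_cast
        ring
      rw [this]
      field_simp
    rw [h17] at h16
    have : 0 ≤ κ / 2 * (Θ * w ^ 2 * z ^ m) := by positivity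
    linarith

/-! ### The cut-off function at scale `r` -/

lemma exists_ball_cutoff (n : ℕ) : ∃ C0 : ℝ, 0 < C0 ∧ ∀ (x0 : E n) (r : ℝ), 0 < r →
    ∃ ψ : E n → ℝ, ContDiff ℝ ∞ ψ ∧ (∀ x, 0 ≤ ψ x ∧ ψ x ≤ 1) ∧
      (∀ x ∈ Metric.ball x0 r, ψ x = 1) ∧ (∀ x, x ∉ Metric.closedBall x0 (2 * r) → ψ x = 0) ∧
      ∀ x, ‖fderiv ℝ ψ x‖ ≤ C0 / r := by
  let ψ0 : ContDiffBump (0 : E n) := ⟨1, 2, by norm_num, by norm_num⟩
  have hsm : ContDiff ℝ ∞ ψ0 := ψ0.contDiff
  have hcf : Continuous (fderiv ℝ ψ0) := hsm.continuous_fderiv (by simp)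
  have hcs : HasCompactSupport (fderiv ℝ ψ0) := ψ0.hasCompactSupport.fderiv (𝕜 := ℝ)
  obtain ⟨C, hC⟩ := hcs.exists_bound_of_continuous hcf
  refine ⟨max C 1, by positivity, ?_⟩
  intro x0 r hr
  refine ⟨fun x => ψ0 (r⁻¹ • (x - x0)), ?_, ?_, ?_, ?_, ?_⟩
  · exact hsm.comp (by fun_prop)
  · intro x
    exact ⟨ψ0.nonneg, ψ0.le_one⟩
  · intro x hx
    apply ψ0.one_of_mem_closedBall
    rw [mem_closedBall_zero_iff, norm_smul, norm_inv, Real.norm_eq_abs, abs_of_pos hr]
    rw [Metric.mem_ball, dist_eq_norm] at hx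
    show r⁻¹ * ‖x - x0‖ ≤ 1
    rw [inv_mul_le_iff₀ hr]
    linarith
  · intro x hx
    apply ψ0.zero_of_le_dist
    rw [dist_zero_right, norm_smul, norm_inv, Real.norm_eq_abs, abs_of_pos hr]
    rw [Metric.mem_closedBall, not_le, dist_eq_norm] at hx
    show 2 ≤ r⁻¹ * ‖x - x0‖
    rw [le_inv_mul_iff₀ hr]
    linarith
  · intro x
    have h1 : HasFDerivAt (fun x : E n => r⁻¹ • (x - x0)) (r⁻¹ • ContinuousLinearMap.id ℝ (E n)) x :=
      ((hasFDerivAt_id x).sub_const x0).const_smul r⁻¹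
    have h2 : HasFDerivAt (fun x => ψ0 (r⁻¹ • (x - x0)))
        ((fderiv ℝ ψ0 (r⁻¹ • (x - x0))).comp (r⁻¹ • ContinuousLinearMap.id ℝ (E n))) x := by
      have h3 : HasFDerivAt ψ0 (fderiv ℝ ψ0 (r⁻¹ • (x - x0))) (r⁻¹ • (x - x0)) :=
        (hsm.differentiable (by simp) _).hasFDerivAt
      exact HasFDerivAt.comp (g := ψ0) (f := fun x : E n => r⁻¹ • (x - x0)) x h3 h1
    rw [h2.fderiv, ContinuousLinearMap.comp_smul, ContinuousLinearMap.comp_id, norm_smul, norm_inv,
      Real.norm_eq_abs, abs_of_pos hr, div_eq_inv_mul]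
    gcongr
    exact (hC _).trans (le_max_left _ _)

/-! ### The integrated inequality for a fixed cut-off -/

lemma energy_cut {n : ℕ} {κ a b δ ε ε' C0 : ℝ} (m : ℕ) (hm : 3 ≤ m) (hmb : b ≤ m) (hb : 2 < b)
    (hκ : 0 < κ) (hδ : 0 < δ) (hδa : b - 2 - a ≤ -δ) (hε : 0 < ε) (hC0 : 0 < C0)
    {Ω : Set (E n)} {φ : E n → ℝ} (hΩ : IsOpen Ω) (hφ : ContDiffOn ℝ ∞ φ Ω)
    (hineq : ∀ x ∈ Ω, κ * Real.exp (2 * φ x) ≤
      -(∑ i, pd i (pd i φ) x + a * ∑ i, (pd i φ x) ^ 2))
    {χ ψ : E n → ℝ} (hχ : ContDiff ℝ ∞ χ) (hχc : HasCompactSupport χ) (hχΩ : tsupport χ ⊆ Ω)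
    (hχ01 : ∀ x, 0 ≤ χ x ∧ χ x ≤ 1) (hχd : ∀ x ∈ Ω, ‖fderiv ℝ χ x‖ ≤ ε' * Real.exp (φ x))
    {x0 : E n} {r : ℝ} (hr : 0 < r) (hψ : ContDiff ℝ ∞ ψ) (hψ01 : ∀ x, 0 ≤ ψ x ∧ ψ x ≤ 1)
    (hψ0 : ∀ x, x ∉ Metric.closedBall x0 (2 * r) → ψ x = 0)
    (hψd : ∀ x, ‖fderiv ℝ ψ x‖ ≤ C0 / r) (S : Set (E n)) (hSm : MeasurableSet S)
    (hS : ∀ x ∈ S, ψ x = 1 ∧ χ x = 1) :
    ∫⁻ x in S, ENNReal.ofReal (thw ε b (φ x) * Real.exp (2 * φ x)) ≤
      ENNReal.ofReal (2 / κ * (((m : ℝ) ^ 2 / (2 * δ) * ε' ^ 2 / ε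
        + (m : ℝ) ^ 2 / (2 * δ) * C0 ^ 2
          * (C0 * Real.sqrt (2 * ((m : ℝ) ^ 2 / (2 * δ)) / κ)) ^ (b - 2) * r ^ (-b))
        * volume.real (Metric.closedBall x0 (2 * r)))) := by
  classical
  set M : ℝ := (m : ℝ) ^ 2 / (2 * δ) * ε' ^ 2 / ε
        + (m : ℝ) ^ 2 / (2 * δ) * C0 ^ 2
          * (C0 * Real.sqrt (2 * ((m : ℝ) ^ 2 / (2 * δ)) / κ)) ^ (b - 2) * r ^ (-b) with hM
  have hM0 : 0 ≤ M := by
    rw [hM]
    positivity
  set ζ : E n → ℝ := fun x => ψ x * χ x with hζ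
  have hζsm : ContDiff ℝ ∞ ζ := hψ.mul hχ
  set F : Fin n → E n → ℝ := fun i y => thw ε b (φ y) * ζ y ^ m * pd i φ y with hF
  -- `F i` vanishes near points outside of `Ω`
  have hzero : ∀ x, x ∉ Ω → ∀ᶠ y in nhds x, ζ y = 0 := by
    intro x hx
    have h1 : x ∉ tsupport χ := fun h => hx (hχΩ h)
    have h2 : ∀ᶠ y in nhds x, χ y = 0 := notMem_tsupport_iff_eventuallyEq.mp h1
    filter_upwards [h2] with y hy
    simp [hζ, hy]
  have hFzero : ∀ i x, x ∉ Ω → F i =ᶠ[nhds x] fun _ => 0 := by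
    intro i x hx
    filter_upwards [hzero x hx] with y hy
    simp only [hF, hy]
    rw [zero_pow (by omega)]
    ring
  have hFsm : ∀ i, ContDiff ℝ 1 (F i) := by
    intro i
    rw [contDiff_iff_contDiffAt]
    intro x
    by_cases hx : x ∈ Ω
    · have h1 : ContDiffAt ℝ ∞ φ x := hφ.contDiffAt (hΩ.mem_nhds hx)
      have h2 : ContDiffAt ℝ ∞ (fun y => thw ε b (φ y)) x :=
        (contDiff_thw hε.le).contDiffAt.comp x h1
      have h3 : ContDiffAt ℝ ∞ (pd i φ) x := (contDiffOn_pd hΩ hφ i).contDiffAt (hΩ.mem_nhds hx)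
      have h4 : ContDiffAt ℝ ∞ (F i) x := (h2.mul (hζsm.contDiffAt.pow m)).mul h3
      exact h4.of_le (by simp)
    · exact contDiffAt_const.congr_of_eventuallyEq (hFzero i x hx)
  have hFc : ∀ i, HasCompactSupport (F i) := by
    intro i
    apply HasCompactSupport.intro hχc
    intro x hx
    have h2 : χ x = 0 := image_eq_zero_of_notMem_tsupport hx
    simp only [hF, hζ, h2, mul_zero]
    rw [zero_pow (by omega)]
    ring
  set D : E n → ℝ := fun x => ∑ i, pd i (F i) x with hD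
  have hDint : Integrable D := integrable_finsetSum _ fun i _ => integrable_pd (hFsm i) (hFc i) i
  have hD0 : ∫ x, D x = 0 := by
    rw [hD, integral_finsetSum _ fun i _ => integrable_pd (hFsm i) (hFc i) i]
    exact Finset.sum_eq_zero fun i _ => integral_pd_eq_zero (hFsm i) (hFc i) i
  -- pointwise
  have hpt : ∀ x, κ / 2 * (thw ε b (φ x) * Real.exp (2 * φ x) * ζ x ^ m)
      ≤ -D x + (Metric.closedBall x0 (2 * r)).indicator (fun _ => M) x := by
    intro x
    by_cases hx : x ∈ Ω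
    · have d1 : DifferentiableAt ℝ φ x := differentiableAt_of_contDiffOn hΩ hφ hx
      have d2 : ∀ i, DifferentiableAt ℝ (pd i φ) x := fun i =>
        differentiableAt_of_contDiffOn hΩ (contDiffOn_pd hΩ hφ i) hx
      have d3 : DifferentiableAt ℝ ζ x := hζsm.differentiable (by simp) x
      set Θ := thw ε b (φ x) with hΘ
      have hΘ0 : 0 < Θ := thw_pos hε.le
      set c : ℝ := (b - 2) - b * (ε * Real.exp (b * φ x) / (1 + ε * Real.exp (b * φ x))) with hc
      have hca : c - a ≤ -δ := by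
        have : 0 ≤ b * (ε * Real.exp (b * φ x) / (1 + ε * Real.exp (b * φ x))) := by
          have : 0 < b := by linarith
          positivity
        rw [hc]
        linarith
      have hz0 : 0 ≤ ζ x := mul_nonneg (hψ01 x).1 (hχ01 x).1
      have hDx : D x = Θ * c * (∑ i, pd i φ x ^ 2) * ζ x ^ m
          + Θ * (m * ζ x ^ (m - 1)) * (∑ i, pd i ζ x * pd i φ x)
          + Θ * ζ x ^ m * ∑ i, pd i (pd i φ) x := by
        rw [hD]
        simp only [hF]
        rw [Finset.mul_sum, Finset.mul_sum, Finset.mul_sum, Finset.sum_mul, ← Finset.sum_add_distrib,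
          ← Finset.sum_add_distrib]
        apply Finset.sum_congr rfl
        intro i _
        rw [pd_testField hε.le m i d1 (d2 i) d3]
        ring
      have h1 := pointwise_sq (q := fun i => pd i ζ x) m (by omega) hΘ0.le hz0 hδ hca (hineq x hx)
      rw [← hDx] at h1
      have hQ : ∑ i, pd i ζ x ^ 2 ≤ 2 * ψ x ^ 2 * (ε' * Real.exp (φ x)) ^ 2
          + 2 * χ x ^ 2 * (C0 / r) ^ 2 := by
        have hq : ∀ i, pd i ζ x = ψ x * pd i χ x + χ x * pd i ψ x := by
          intro i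
          have e1 : HasFDerivAt ζ (ψ x • fderiv ℝ χ x + χ x • fderiv ℝ ψ x) x :=
            (hψ.differentiable (by simp) x).hasFDerivAt.mul
              (hχ.differentiable (by simp) x).hasFDerivAt
          show fderiv ℝ ζ x _ = _
          rw [e1.fderiv]
          simp [pd]
        have h2 : ∑ i, pd i ζ x ^ 2 ≤ 2 * ψ x ^ 2 * (∑ i, pd i χ x ^ 2)
            + 2 * χ x ^ 2 * (∑ i, pd i ψ x ^ 2) := by
          rw [Finset.mul_sum, Finset.mul_sum, ← Finset.sum_add_distrib]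
          apply Finset.sum_le_sum
          intro i _
          rw [hq i]
          nlinarith [sq_nonneg (ψ x * pd i χ x - χ x * pd i ψ x)]
        have h3 : ∑ i, pd i χ x ^ 2 ≤ (ε' * Real.exp (φ x)) ^ 2 :=
          (sum_sq_pd_le χ x).trans (by gcongr; exact hχd x hx)
        have h4 : ∑ i, pd i ψ x ^ 2 ≤ (C0 / r) ^ 2 :=
          (sum_sq_pd_le ψ x).trans (by gcongr; exact hψd x)
        calc ∑ i, pd i ζ x ^ 2 ≤ 2 * ψ x ^ 2 * (∑ i, pd i χ x ^ 2)
            + 2 * χ x ^ 2 * (∑ i, pd i ψ x ^ 2) := h2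
          _ ≤ _ := by gcongr
      have hw : Real.exp (2 * φ x) = Real.exp (φ x) ^ 2 := by
        rw [← Real.exp_nat_mul]
        norm_num
      by_cases hxB : x ∈ Metric.closedBall x0 (2 * r)
      · rw [indicator_of_mem hxB]
        have h5 := pointwise_case (Θ := Θ) (w := Real.exp (φ x)) (z := ζ x) (κ := κ) (b := b)
          (ε := ε) (ε' := ε') (C0 := C0) (δ := δ) (r := r) (Q := ∑ i, pd i ζ x ^ 2) (s := ψ x)
          (t := χ x) m hm hmb hb hκ hδ hε hC0 hr (Real.exp_pos _) hΘ0.le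
          (by
            rw [← Real.exp_mul, mul_comm (φ x)]
            exact thw_le hε.le)
          (by
            rw [← hw]
            exact thw_mul_exp hε) (hψ01 x).1 (hψ01 x).2 (hχ01 x).1 (hχ01 x).2 rfl hQ
        rw [← hM, ← hw] at h5
        have h6 : κ * (Θ * Real.exp (2 * φ x) * ζ x ^ m)
            = κ / 2 * (Θ * Real.exp (2 * φ x) * ζ x ^ m)
              + κ / 2 * (Θ * Real.exp (2 * φ x) * ζ x ^ m) := by ring
        linarith
      · rw [indicator_of_notMem hxB]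
        have hz : ζ x = 0 := by simp [hζ, hψ0 x hxB]
        rw [hz] at h1 ⊢
        rw [zero_pow (by omega : m ≠ 0), zero_pow (by omega : m - 2 ≠ 0)] at h1
        rw [zero_pow (by omega : m ≠ 0)]
        simp only [mul_zero, zero_mul] at h1 ⊢
        linarith
    · have h1 : ζ x = 0 := (hzero x hx).self_of_nhds
      have h2 : D x = 0 := by
        rw [hD]
        apply Finset.sum_eq_zero
        intro i _
        rw [pd_congr i (hFzero i x hx)]
        exact pd_zero i x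
      rw [h1, h2, zero_pow (by omega)]
      simp only [mul_zero, neg_zero, zero_add]
      exact indicator_nonneg (fun _ _ => hM0) x
  -- integrate
  set G : E n → ℝ := fun x => -D x + (Metric.closedBall x0 (2 * r)).indicator (fun _ => M) x
    with hG
  have hind : Integrable ((Metric.closedBall x0 (2 * r)).indicator (fun _ : E n => M)) := by
    rw [integrable_indicator_iff Metric.isClosed_closedBall.measurableSet]
    exact integrableOn_const (measure_closedBall_lt_top.ne)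
  have hGint : Integrable G := hDint.neg.add hind
  have hG0 : ∀ x, 0 ≤ G x := by
    intro x
    refine le_trans ?_ (hpt x)
    by_cases hx : x ∈ Ω
    · have hz0 : 0 ≤ ζ x := mul_nonneg (hψ01 x).1 (hχ01 x).1
      have := thw_pos (ε := ε) (b := b) (t := φ x) hε.le
      positivity
    · have h1 : ζ x = 0 := (hzero x hx).self_of_nhds
      rw [h1, zero_pow (by omega)]
      simp
  have hGI : ∫ x, G x = M * volume.real (Metric.closedBall x0 (2 * r)) := by
    have h1 : ∫ x, -D x = 0 := by rw [integral_neg, hD0, neg_zero]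
    have h2 : ∫ x, G x = (∫ x, -D x)
        + ∫ x, (Metric.closedBall x0 (2 * r)).indicator (fun _ => M) x :=
      integral_add hDint.neg hind
    rw [h2, h1, zero_add, integral_indicator Metric.isClosed_closedBall.measurableSet,
      setIntegral_const, smul_eq_mul, mul_comm]
  calc ∫⁻ x in S, ENNReal.ofReal (thw ε b (φ x) * Real.exp (2 * φ x))
      ≤ ∫⁻ x in S, ENNReal.ofReal (2 / κ * G x) := by
        apply setLIntegral_mono' hSm
        intro x hx
        apply ENNReal.ofReal_le_ofReal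
        have h1 := hpt x
        have h2 : ζ x = 1 := by simp [hζ, (hS x hx).1, (hS x hx).2]
        rw [h2, one_pow, mul_one] at h1
        calc thw ε b (φ x) * Real.exp (2 * φ x)
            = 2 / κ * (κ / 2 * (thw ε b (φ x) * Real.exp (2 * φ x))) := by
              field_simp
          _ ≤ 2 / κ * G x := by gcongr
    _ ≤ ∫⁻ x, ENNReal.ofReal (2 / κ * G x) := setLIntegral_le_lintegral _ _
    _ = ENNReal.ofReal (∫ x, 2 / κ * G x) := by
        rw [ofReal_integral_eq_lintegral_ofReal (hGint.const_mul _)]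
        exact Filter.Eventually.of_forall fun x => mul_nonneg (by positivity) (hG0 x)
    _ = _ := by
        rw [integral_const_mul, hGI]

theorem energy_ineq (n : ℕ) (hn : 0 < n) (κ a b : ℝ) (hκ : 0 < κ) (ha : 0 ≤ a) (hb : 2 < b)
    (hba : b < a + 2) :
    ∃ A : ℝ, 0 < A ∧ ∀ (Ω : Set (E n)) (φ : E n → ℝ), IsOpen Ω → ContDiffOn ℝ ∞ φ Ω →
      (∀ x ∈ Ω, κ * Real.exp (2 * φ x) ≤ -(∑ i, pd i (pd i φ) x + a * ∑ i, (pd i φ x) ^ 2)) →
      (∀ K : Set (E n), IsCompact K → K ⊆ Ω → ∀ ε : ℝ, 0 < ε →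
        ∃ χ : E n → ℝ, ContDiff ℝ ∞ χ ∧ HasCompactSupport χ ∧ tsupport χ ⊆ Ω ∧
        (∀ x, 0 ≤ χ x ∧ χ x ≤ 1) ∧ (∀ x ∈ K, χ x = 1) ∧
        ∀ x ∈ Ω, ‖fderiv ℝ χ x‖ ≤ ε * Real.exp (φ x)) →
      ∀ (x : E n) (r : ℝ), 0 < r →
        ∫⁻ y in Metric.ball x r, wt Ω φ y ^ b ≤ ENNReal.ofReal (A * r ^ ((n : ℝ) - b)) := by
  classical
  obtain ⟨C0, hC0, hcut⟩ := exists_ball_cutoff n
  set m : ℕ := ⌈b⌉₊ + 3 with hm
  have hm3 : 3 ≤ m := by omega
  have hmb : b ≤ m := by
    have := Nat.le_ceil b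
    rw [hm]
    push_cast
    linarith
  set δ : ℝ := a + 2 - b with hδ
  have hδ0 : 0 < δ := by rw [hδ]; linarith
  set c1 : ℝ := (m : ℝ) ^ 2 / (2 * δ) with hc1
  set B1 : ℝ := c1 * C0 ^ 2 * (C0 * Real.sqrt (2 * c1 / κ)) ^ (b - 2) with hB1
  have hm0 : (0 : ℝ) < m := by
    have : 0 < m := by omega
    exact_mod_cast this
  have hc1p : 0 < c1 := by positivity
  have hB1p : 0 < B1 := by positivity
  set v : ℝ := volume.real (Metric.ball (0 : E n) 1) with hv
  have hv0 : 0 ≤ v := measureReal_nonneg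
  refine ⟨2 / κ * B1 * 2 ^ n * v + 1, by positivity, ?_⟩
  intro Ω φ hΩ hφ hineq hχ x0 r hr
  obtain ⟨ψ, hψ, hψ01, hψ1, hψ0, hψd⟩ := hcut x0 r hr
  set V : ℝ := volume.real (Metric.closedBall x0 (2 * r)) with hV
  have hVeq : V = (2 * r) ^ n * v := by
    rw [hV, Measure.addHaar_real_closedBall _ _ (by positivity), finrank_euclideanSpace_fin]
  have hV0 : 0 ≤ V := measureReal_nonneg
  have hfin : 2 / κ * (B1 * r ^ (-b) * V) ≤ (2 / κ * B1 * 2 ^ n * v + 1) * r ^ ((n : ℝ) - b) := by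
    have e1 : r ^ ((n : ℝ) - b) = r ^ n * r ^ (-b) := by
      rw [sub_eq_add_neg, Real.rpow_add hr, Real.rpow_natCast]
    rw [e1, hVeq, mul_pow]
    have : 0 ≤ r ^ n * r ^ (-b) := by positivity
    calc 2 / κ * (B1 * r ^ (-b) * (2 ^ n * r ^ n * v))
        = 2 / κ * B1 * 2 ^ n * v * (r ^ n * r ^ (-b)) := by ring
      _ ≤ (2 / κ * B1 * 2 ^ n * v + 1) * (r ^ n * r ^ (-b)) := by
        rw [add_mul, one_mul]
        linarith
  -- for fixed `ε` and `K`
  have key : ∀ (ε : ℝ), 0 < ε → ∀ K : Set (E n), IsCompact K → K ⊆ Ω →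
      ∫⁻ y in K ∩ Metric.ball x0 r, ENNReal.ofReal (thw ε b (φ y) * Real.exp (2 * φ y))
        ≤ ENNReal.ofReal ((2 / κ * B1 * 2 ^ n * v + 1) * r ^ ((n : ℝ) - b)) := by
    intro ε hε K hK hKΩ
    refine le_trans ?_ (ENNReal.ofReal_le_ofReal hfin)
    have h1 : ∀ ε' : ℝ, 0 < ε' →
        ∫⁻ y in K ∩ Metric.ball x0 r, ENNReal.ofReal (thw ε b (φ y) * Real.exp (2 * φ y))
        ≤ ENNReal.ofReal (2 / κ * ((c1 * ε' ^ 2 / ε + B1 * r ^ (-b)) * V)) := by
      intro ε' hε'
      obtain ⟨χ, g1, g2, g3, g4, g5, g6⟩ := hχ K hK hKΩ ε' hε'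
      exact energy_cut m hm3 hmb hb hκ hδ0 (by rw [hδ]; linarith) hε hC0 hΩ hφ hineq g1 g2 g3 g4 g6
        hr hψ hψ01 hψ0 hψd _ (hK.measurableSet.inter Metric.isOpen_ball.measurableSet)
        (fun y hy => ⟨hψ1 y hy.2, g5 y hy.1⟩)
    have h2 : Filter.Tendsto
        (fun ε' : ℝ => ENNReal.ofReal (2 / κ * ((c1 * ε' ^ 2 / ε + B1 * r ^ (-b)) * V)))
        (nhdsWithin 0 (Ioi 0)) (nhds (ENNReal.ofReal (2 / κ * (B1 * r ^ (-b) * V)))) := by
      apply ENNReal.tendsto_ofReal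
      have h3 : Continuous (fun ε' : ℝ => 2 / κ * ((c1 * ε' ^ 2 / ε + B1 * r ^ (-b)) * V)) := by
        fun_prop
      have h4 := (h3.tendsto 0).mono_left (nhdsWithin_le_nhds (s := Ioi 0))
      simpa using h4
    refine ge_of_tendsto h2 ?_
    filter_upwards [self_mem_nhdsWithin] with ε' hε'
    exact h1 ε' hε'
  -- exhaustion
  obtain ⟨Fc, hFc, hFΩ, hFU, hFm⟩ := hΩ.exists_iUnion_isClosed
  set K : ℕ → Set (E n) := fun j => Fc j ∩ Metric.closedBall 0 j with hK
  have hKc : ∀ j, IsCompact (K j) := fun j => (isCompact_closedBall 0 (j : ℝ)).inter_left (hFc j)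
  have hKΩ : ∀ j, K j ⊆ Ω := fun j => inter_subset_left.trans (hFΩ j)
  have hKev : ∀ y ∈ Ω, ∀ᶠ j : ℕ in Filter.atTop, y ∈ K j := by
    intro y hy
    rw [← hFU] at hy
    obtain ⟨j0, hj0⟩ := mem_iUnion.mp hy
    have h1 : ∀ᶠ j : ℕ in Filter.atTop, y ∈ Fc j := by
      filter_upwards [Filter.eventually_ge_atTop j0] with j hj
      exact hFm hj hj0
    have h2 : ∀ᶠ j : ℕ in Filter.atTop, y ∈ Metric.closedBall (0 : E n) j := by
      filter_upwards [Filter.eventually_ge_atTop ⌈‖y‖⌉₊] with j hj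
      rw [mem_closedBall_zero_iff]
      exact (Nat.le_ceil _).trans (by exact_mod_cast hj)
    filter_upwards [h1, h2] with j h3 h4 using ⟨h3, h4⟩
  set g : ℕ → E n → ℝ≥0∞ := fun j => (K j ∩ Metric.ball x0 r).indicator
    (fun y => ENNReal.ofReal (thw (1 / ((j : ℝ) + 1)) b (φ y) * Real.exp (2 * φ y))) with hg
  have hgm : ∀ j, AEMeasurable (g j) := by
    intro j
    have hms : MeasurableSet (K j ∩ Metric.ball x0 r) :=
      (hKc j).measurableSet.inter Metric.isOpen_ball.measurableSet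
    rw [hg]
    rw [aemeasurable_indicator_iff hms]
    apply ContinuousOn.aemeasurable ?_ hms
    apply ENNReal.continuous_ofReal.comp_continuousOn
    have h1 : ContinuousOn φ (K j ∩ Metric.ball x0 r) :=
      hφ.continuousOn.mono (inter_subset_left.trans (hKΩ j))
    have h2 : Continuous (thw (1 / ((j : ℝ) + 1)) b) := (contDiff_thw (by positivity)).continuous
    exact (h2.comp_continuousOn h1).mul (Real.continuous_exp.comp_continuousOn (h1.const_mul 2))
  have hgi : ∀ j, ∫⁻ y, g j y ≤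
      ENNReal.ofReal ((2 / κ * B1 * 2 ^ n * v + 1) * r ^ ((n : ℝ) - b)) := by
    intro j
    have hms : MeasurableSet (K j ∩ Metric.ball x0 r) :=
      (hKc j).measurableSet.inter Metric.isOpen_ball.measurableSet
    rw [hg]
    simp only
    rw [lintegral_indicator hms]
    exact key _ (by positivity) (K j) (hKc j) (hKΩ j)
  have hlim : ∀ y ∈ Metric.ball x0 r,
      wt Ω φ y ^ b ≤ Filter.liminf (fun j => g j y) Filter.atTop := by
    intro y hy
    by_cases hyΩ : y ∈ Ω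
    · have h1 : Filter.Tendsto (fun j => g j y) Filter.atTop (nhds (wt Ω φ y ^ b)) := by
        have h2 : Filter.Tendsto (fun j : ℕ => ENNReal.ofReal
            (thw (1 / ((j : ℝ) + 1)) b (φ y) * Real.exp (2 * φ y))) Filter.atTop
            (nhds (wt Ω φ y ^ b)) := by
          have e1 : wt Ω φ y ^ b = ENNReal.ofReal (Real.exp (b * φ y)) := by
            rw [wt, indicator_of_mem hyΩ, ENNReal.ofReal_rpow_of_pos (Real.exp_pos _),
              ← Real.exp_mul, mul_comm]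
          rw [e1]
          apply ENNReal.tendsto_ofReal
          have e2 : Real.exp (b * φ y)
              = Real.exp ((b - 2) * φ y) / (1 + 0 * Real.exp (b * φ y)) * Real.exp (2 * φ y) := by
            rw [zero_mul, add_zero, div_one, ← Real.exp_add]
            congr 1
            ring
          rw [e2]
          unfold thw
          apply Filter.Tendsto.mul_const
          apply Filter.Tendsto.div tendsto_const_nhds
          · apply Filter.Tendsto.const_add
            apply Filter.Tendsto.mul_const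
            exact tendsto_one_div_add_atTop_nhds_zero_nat
          · simp
        refine h2.congr' ?_
        filter_upwards [hKev y hyΩ] with j hj
        have hmem : y ∈ K j ∩ Metric.ball x0 r := ⟨hj, hy⟩
        rw [hg]
        simp only
        rw [indicator_of_mem hmem]
      exact h1.liminf_eq.ge
    · rw [wt, indicator_of_notMem hyΩ, ENNReal.zero_rpow_of_pos (by linarith)]
      exact bot_le
  calc ∫⁻ y in Metric.ball x0 r, wt Ω φ y ^ b
      ≤ ∫⁻ y in Metric.ball x0 r, Filter.liminf (fun j => g j y) Filter.atTop :=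
        setLIntegral_mono' Metric.isOpen_ball.measurableSet hlim
    _ ≤ ∫⁻ y, Filter.liminf (fun j => g j y) Filter.atTop := setLIntegral_le_lintegral _ _
    _ ≤ Filter.liminf (fun j => ∫⁻ y, g j y) Filter.atTop := lintegral_liminf_le' hgm
    _ ≤ _ := by
        refine le_trans (Filter.liminf_le_liminf (Filter.Eventually.of_forall hgi)) ?_
        simp

end Vale.Agent.P210
end
end

section

section

open scoped ENNReal ContDiff
open MeasureTheory Set

namespace Vale.Agent.P210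

/-! ### congruence lemmas -/

lemma pd_congr_on {n : ℕ} {Ω : Set (E n)} (hΩ : IsOpen Ω) {f f' : E n → ℝ}
    (h : ∀ y ∈ Ω, f y = f' y) (i : Fin n) {x : E n} (hx : x ∈ Ω) : pd i f x = pd i f' x := by
  apply pd_congr
  filter_upwards [hΩ.mem_nhds hx] with y hy using h y hy

lemma christoffel_congr {n : ℕ} {Ω : Set (E n)} (hΩ : IsOpen Ω)
    {g g' : E n → Matrix (Fin n) (Fin n) ℝ} (h : ∀ y ∈ Ω, g y = g' y) (k i j : Fin n) {x : E n}
    (hx : x ∈ Ω) : christoffel g k i j x = christoffel g' k i j x := by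
  unfold christoffel
  have hp : ∀ m a b, pd m (fun y => g y a b) x = pd m (fun y => g' y a b) x := fun m a b =>
    pd_congr_on hΩ (fun y hy => by rw [h y hy]) m hx
  simp only [hp, h x hx]

lemma scal_congr {n : ℕ} {Ω : Set (E n)} (hΩ : IsOpen Ω)
    {g g' : E n → Matrix (Fin n) (Fin n) ℝ} (h : ∀ y ∈ Ω, g y = g' y) {x : E n}
    (hx : x ∈ Ω) : scal g x = scal g' x := by
  unfold scal ricci
  have hp : ∀ m k i j, pd m (christoffel g k i j) x = pd m (christoffel g' k i j) x :=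
    fun m k i j => pd_congr_on hΩ (fun y hy => christoffel_congr hΩ h k i j hy) m hx
  have hc : ∀ k i j, christoffel g k i j x = christoffel g' k i j x :=
    fun k i j => christoffel_congr hΩ h k i j hx
  simp only [hp, hc, h x hx]

lemma len_congr {n : ℕ} {Ω : Set (E n)}
    {g g' : E n → Matrix (Fin n) (Fin n) ℝ} (h : ∀ y ∈ Ω, g y = g' y) {γ : ℝ → E n}
    (hγ : ∀ t ∈ Icc (0 : ℝ) 1, γ t ∈ Ω) : len g γ = len g' γ := by
  unfold len
  apply setLIntegral_congr_fun measurableSet_Icc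
  intro t ht
  simp only [h _ (hγ t ht)]

lemma rdist_congr {n : ℕ} {Ω : Set (E n)}
    {g g' : E n → Matrix (Fin n) (Fin n) ℝ} (h : ∀ y ∈ Ω, g y = g' y) :
    rdist Ω g = rdist Ω g' := by
  funext x y
  unfold rdist
  congr 1
  funext γ
  apply iInf_congr
  intro hγ
  exact len_congr h hγ.mem

/-! ### the weight of a complete conformally flat metric -/

lemma measurable_wt {n : ℕ} {Ω : Set (E n)} {φ : E n → ℝ} (hΩ : IsOpen Ω)
    (hφ : ContinuousOn φ Ω) : Measurable (wt Ω φ) := by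
  have h1 : ContinuousOn (fun x => ENNReal.ofReal (Real.exp (φ x))) Ω :=
    ENNReal.continuous_ofReal.comp_continuousOn (Real.continuous_exp.comp_continuousOn hφ)
  have h2 : wt Ω φ = Ω.indicator (fun x => ENNReal.ofReal (Real.exp (φ x))) := rfl
  classical
  rw [h2, ← Set.piecewise_eq_indicator]
  exact h1.measurable_piecewise continuousOn_const hΩ.measurableSet

lemma continuousOn_wt {n : ℕ} {Ω : Set (E n)} {φ : E n → ℝ}
    (hφ : ContinuousOn φ Ω) : ContinuousOn (wt Ω φ) Ω := by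
  have h1 : ContinuousOn (fun x => ENNReal.ofReal (Real.exp (φ x))) Ω :=
    ENNReal.continuous_ofReal.comp_continuousOn (Real.continuous_exp.comp_continuousOn hφ)
  refine h1.congr fun x hx => ?_
  unfold wt
  rw [indicator_of_mem hx]

lemma UrysohnWidthLE.mono {n : ℕ} {Ω : Set (E n)} {dist : E n → E n → ℝ≥0∞} {d : ℕ} {C C' : ℝ}
    (h : UrysohnWidthLE Ω dist d C) (hC : C ≤ C') : UrysohnWidthLE Ω dist d C' := by
  obtain ⟨V, K, f, h1, h2, h3⟩ := h
  exact ⟨V, K, f, h1, h2, fun x y hxy => (h3 x y hxy).trans (ENNReal.ofReal_le_ofReal hC)⟩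

theorem width_conf (n k : ℕ) (hn : 3 ≤ n) (hk : n < 2 * k + 2) :
    ∃ C : ℝ, ∀ (Ω : Set (E n)) (φ : E n → ℝ), IsOpen Ω → ContDiffOn ℝ ∞ φ Ω →
      IsCompleteOn Ω (conf φ) → (∀ x ∈ Ω, 1 ≤ scal (conf φ) x) →
      UrysohnWidthLE Ω (rdist Ω (conf φ)) k C := by
  have hn' : (3 : ℝ) ≤ n := by exact_mod_cast hn
  have hk' : (n : ℝ) < 2 * k + 2 := by exact_mod_cast hk
  set m : ℝ := max 2 ((n : ℝ) - k) with hm
  set q : ℝ := ((n : ℝ) - 2) / 2 + 2 with hq
  have hmq : m < q := by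
    rw [hm, hq, max_lt_iff]
    constructor <;> linarith
  set b : ℝ := (m + q) / 2 with hb
  have hmb : m < b := by rw [hb]; linarith
  have hbq : b < q := by rw [hb]; linarith
  have h2m : 2 ≤ m := le_max_left _ _
  have hkm : (n : ℝ) - k ≤ m := le_max_right _ _
  have hκ : (0 : ℝ) < 1 / (2 * ((n : ℝ) - 1)) := by
    apply div_pos one_pos; linarith
  obtain ⟨A, hA, hen⟩ := energy_ineq n (by omega) (1 / (2 * ((n : ℝ) - 1))) (((n : ℝ) - 2) / 2) b
    hκ (by linarith) (by linarith) hbq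
  obtain ⟨C, hC, hcore⟩ := core n k (by omega) (by omega) b A (by linarith) (by linarith) hA
  refine ⟨2 * C, ?_⟩
  intro Ω φ hΩ hφ hcomp hscal
  have hφc : ContinuousOn φ Ω := hφ.continuousOn
  have hW : IsWeight Ω (wt Ω φ) b A := by
    refine ⟨hΩ, measurable_wt hΩ hφc, continuousOn_wt hφc, ?_, ?_, ?_,
      seg_of_complete hΩ hφc hcomp, ray_of_complete hΩ hφc hcomp⟩
    · intro x hx
      unfold wt
      rw [indicator_of_mem hx, ENNReal.ofReal_pos]
      exact Real.exp_pos _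
    · intro x hx
      unfold wt
      rw [indicator_of_mem hx]
      exact ENNReal.ofReal_lt_top
    · apply hen Ω φ hΩ hφ
      · intro x hx
        have h1 := hscal x hx
        rw [scal_conf hΩ hφ x hx] at h1
        have h2 : Real.exp (-(2 * φ x)) * Real.exp (2 * φ x) = 1 := by
          rw [← Real.exp_add]; simp
        set S := ∑ i, pd i (pd i φ) x
        set D := ∑ i, (pd i φ x) ^ 2
        have h3 : Real.exp (2 * φ x) ≤
            -(2 * ((n : ℝ) - 1) * S + ((n : ℝ) - 1) * ((n : ℝ) - 2) * D) := by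
          have h4 := mul_le_mul_of_nonneg_left h1 (Real.exp_pos (2 * φ x)).le
          calc Real.exp (2 * φ x) = Real.exp (2 * φ x) * 1 := (mul_one _).symm
            _ ≤ _ := h4
            _ = -(Real.exp (-(2 * φ x)) * Real.exp (2 * φ x)) *
                (2 * ((n : ℝ) - 1) * S + ((n : ℝ) - 1) * ((n : ℝ) - 2) * D) := by ring
            _ = _ := by rw [h2]; ring
        have hn1 : (0 : ℝ) < 2 * ((n : ℝ) - 1) := by linarith
        rw [one_div, inv_mul_le_iff₀ hn1]
        calc Real.exp (2 * φ x) ≤ _ := h3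
          _ = _ := by ring
      · intro K hK hKΩ ε hε
        exact exists_cutoff hΩ hφc hcomp K hK hKΩ ε hε
  obtain ⟨f, hf, hfib⟩ := hcore Ω (wt Ω φ) hW
  refine ⟨Vtx n, skel (Vtx n) k, f, fun s hs => hs.2, hf, ?_⟩
  intro x y hxy
  obtain ⟨p, h1, h2, h3, h4⟩ := hfib x y hxy
  exact rdist_le_of_segments (x : E n) (y : E n) p C hC.le h1 h2 h3 h4

theorem width_of_flat (n k : ℕ) (hn : 3 ≤ n) (hk : n < 2 * k + 2) :
    ∃ C : ℝ, ∀ (Ω : Set (E n)) (g : E n → Matrix (Fin n) (Fin n) ℝ), IsOpen Ω →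
      IsRiemMetricOn Ω g → (∀ x ∈ Ω, ∃ c : ℝ, g x = c • (1 : Matrix (Fin n) (Fin n) ℝ)) →
      IsCompleteOn Ω g → (∀ x ∈ Ω, 1 ≤ scal g x) →
      UrysohnWidthLE Ω (rdist Ω g) k C := by
  obtain ⟨C, hC⟩ := width_conf n k hn hk
  refine ⟨C, ?_⟩
  intro Ω g hΩ hg hflat hcomp hscal
  set i0 : Fin n := ⟨0, by omega⟩
  set φ : E n → ℝ := fun x => Real.log (g x i0 i0) / 2 with hφdef
  have hpos : ∀ x ∈ Ω, 0 < g x i0 i0 := fun x hx => (hg.posDef x hx).diag_pos
  have heq : ∀ x ∈ Ω, g x = conf φ x := by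
    intro x hx
    obtain ⟨c, hc⟩ := hflat x hx
    have hc0 : g x i0 i0 = c := by rw [hc]; simp
    have h1 : Real.exp (2 * φ x) = c := by
      rw [hφdef]
      simp only
      rw [mul_div_cancel₀ _ (two_ne_zero), Real.exp_log (hpos x hx), hc0]
    unfold conf
    rw [h1, hc]
  have hφ : ContDiffOn ℝ ∞ φ Ω := by
    have h1 : ContDiffOn ℝ ∞ (fun x => Real.log (g x i0 i0)) Ω :=
      (hg.smooth i0 i0).log fun x hx => (hpos x hx).ne'
    exact h1.div_const 2
  have hd : rdist Ω g = rdist Ω (conf φ) := rdist_congr heq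
  rw [hd]
  apply hC Ω φ hΩ hφ
  · unfold IsCompleteOn at hcomp ⊢
    rw [hd] at hcomp
    exact hcomp
  · intro x hx
    rw [← scal_congr hΩ heq hx]
    exact hscal x hx

end Vale.Agent.P210
end
end
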